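import Vale.Agent.P273.MathlibUsed
import Vale.Agent.P273.CDefs

set_option linter.all false

section

section

/-!
Decorated stable graphs, the strata algebra, Pixton's relations and Pixton's span.
Everything here is a definition; the proofs live in the other files of this folder.
-/

noncomputable section

namespace Vale.Agent.P273

open Sum
open scoped Classical

/-- A decorated graph with vertices `V`, edges `E` and leg set `L`: at each vertex the genus and the
kappa decoration (`{c₁,…,c_m}` stands for `κ[c₁,…,c_m] = p_*(ψ^{c₁+1}⋯ψ^{c_m+1})`), and for each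
half-edge (an edge with a side, or a leg) its vertex and its psi exponent. -/
structure Gr (V E L : Type) where
  dec : V → ℕ × Multiset ℕ
  hf : (E × Bool) ⊕ L → V × ℕ

namespace Gr

variable {V E L : Type}

/-- The valence `n(v)`. -/
def nv (G : Gr V E L) (v : V) : ℕ := Nat.card {y // (G.hf y).1 = v}

/-- The total degree: number of edges plus degree of all decorations. -/
def deg (G : Gr V E L) : ℕ :=
  Nat.card E + ∑ᶠ v, (G.dec v).2.sum + ∑ᶠ y, (G.hf y).2

/-- `G` is connected, of total genus `g`, and all its vertices are stable. -/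
def Stab (G : Gr V E L) (g : ℕ) : Prop :=
  Nonempty V ∧
  (∀ s : Set V, (∀ e, (G.hf (inl (e, true))).1 ∈ s ↔ (G.hf (inl (e, false))).1 ∈ s) →
    s = ∅ ∨ s = Set.univ) ∧
  ∑ᶠ v, (G.dec v).1 + Nat.card E + 1 = g + Nat.card V ∧
  ∀ v, 2 < 2 * (G.dec v).1 + G.nv v

/-- A stable graph of genus `g` with decorations of degree at most `3g(v)-3+n(v)` at each `v`. -/
def Valid (G : Gr V E L) (g : ℕ) : Prop :=
  Finite V ∧ Finite E ∧ G.Stab g ∧ ∀ v,
    (G.dec v).2.sum + ∑ᶠ (y) (_ : (G.hf y).1 = v), (G.hf y).2 + 3 ≤ 3 * (G.dec v).1 + G.nv v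

/-- Replace the kappa decoration of `v` by `K`, add a new leg `none` at `v` with exponent `c`. -/
def addLeg (G : Gr V E L) (v : V) (K : Multiset ℕ) (c : ℕ) : Gr V E (Option L) :=
  ⟨Function.update G.dec v ((G.dec v).1, K),
    Sum.elim (fun y => G.hf (inl y)) (Option.elim' (v, c) fun x => G.hf (inr x))⟩

/-- Glue an undecorated vertex of genus `h` and valence one to the leg `none`. -/
def tail (G : Gr V E (Option L)) (h : ℕ) : Gr (Option V) (Option E) L :=
  let u := fun y => (some (G.hf y).1, (G.hf y).2)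
  ⟨Option.elim' (h, 0) G.dec, Sum.elim (fun y => y.1.elim (cond y.2 (none, 0) (u (inr none)))
    fun e => u (inl (e, y.2))) fun x => u (inr (some x))⟩

/-- Move the half-edge `z` to a new vertex of genus `0` that carries a new leg `none`, and join the
new vertex to the old place of `z`, lowering the exponent there by one. -/
def bubble (G : Gr V E L) (z : (E × Bool) ⊕ L) : Gr (Option V) (Option E) (Option L) :=
  let u := Function.update (fun y => (some (G.hf y).1, (G.hf y).2)) z (none, 0)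
  ⟨Option.elim' (0, 0) G.dec, Sum.elim (fun y => y.1.elim
    (cond y.2 (none, 0) (some (G.hf z).1, (G.hf z).2 - 1)) fun e => u (inl (e, y.2)))
    (Option.elim' (none, 0) fun x => u (inr x))⟩

end Gr

/-- A decorated graph with leg set `L` and with arbitrary vertex and edge sets. -/
structure DG (L : Type) : Type 1 where
  V : Type
  E : Type
  G : Gr V E L

/-- Formal rational combinations of decorated graphs. -/
abbrev F (L : Type) : Type 1 := DG L →₀ ℚ

section

variable {V E L : Type}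

/-- The formal combination `c • G`. -/
def dl (G : Gr V E L) (c : ℚ) : F L := Finsupp.single ⟨V, E, G⟩ c

/-- Forgetful pullback of `c • G` in genus `g`. -/
def pull (g : ℕ) (G : Gr V E L) (c : ℚ) : F (Option L) :=
  ∑ᶠ (_ : G.Valid g), (∑ᶠ v, (dl (G.addLeg v (G.dec v).2 0) c +
    ((G.dec v).2.map fun k => dl (G.addLeg v ((G.dec v).2.erase k) k) (-c)).sum) +
    ∑ᶠ (z) (_ : (G.hf z).2 ≠ 0), dl (G.bubble z) (-c))

/-- A set with `n` elements. -/
def Lg (n : ℕ) : Type := n.rec Empty fun _ => Option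

/-- The coefficient of `ψ^m` in `ζ^a B_a(ζψ)`, for `a = 0, 1`. -/
def B (a : ℕ) (ζ : ℚ) (m : ℕ) : ℚ :=
  ζ ^ (a + m) * ((1 + 6 * (m : ℚ)) / (1 - 6 * (m : ℚ))) ^ a *
    (((6 * m).factorial : ℚ) / ((2 * m).factorial * (3 * m).factorial)) * (-1) ^ m

/-- The coefficient of `x^p y^q` in the edge factor
`(ζ + ξ - B_0(ζx) ξB_1(ξy) - ζB_1(ζx) B_0(ξy)) / (x + y)`, where `z = (ζ, p)` and `w = (ξ, q)`. -/
def edgeF (z w : ℚ × ℕ) : ℚ :=
  ∑ j ∈ Finset.range (w.2 + 1), (-1) ^ (j + 1) *
    (B 0 z.1 (z.2 + 1 + j) * B 1 w.1 (w.2 - j) + B 1 z.1 (z.2 + 1 + j) * B 0 w.1 (w.2 - j))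

/-- The coefficient of `κ[μ]` in the vertex factor `κ(T - T B_0(ζT))`. -/
def kapF (μ : Multiset ℕ) (ζ : ℚ) : ℚ :=
  (μ.map fun c => 0 ^ c - B 0 ζ c).prod / ∏ c ∈ μ.toFinset, ((μ.count c).factorial : ℚ)

/-- The coefficient of the decorated graph `G` in `R^d_{γ,A}`, times the order of
its automorphism group. -/
def wt (G : Gr V E L) (γ : ℕ) (A : L → ℕ) (d : ℕ) : ℚ :=
  ∑ᶠ (_ : G.Stab γ ∧ G.deg = d) (ζ : V → Bool),
    let s := fun v => cond (ζ v) (1 : ℚ) (-1)
    let t := fun y => (s (G.hf y).1, (G.hf y).2)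
    (1 / 2) ^ (Nat.card E + 1) *
      (∏ᶠ v, s v ^ ((G.dec v).1 + 1) * kapF (G.dec v).2 (s v)) *
      (∏ᶠ e, edgeF (t (inl (e, true))) (t (inl (e, false)))) *
      ∏ᶠ x, B (A x) (t (inr x)).1 (t (inr x)).2

end

/-- The rest of a decorated graph, around one vertex with leg set `L`: other vertices `R`, edges
`T` and outer legs `N`, whose half-edges are either half-edges `x : L` of the vertex or sit at some
`r : R` with some psi exponent. -/
structure Env (R T L N : Type) where
  dec : R → ℕ × Multiset ℕ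
  use : (T × Bool) ⊕ N → L ⊕ (R × ℕ)
  b : L → ℕ

namespace Env

variable {R T L N V E : Type}

/-- Insert a decorated graph with leg set `L` at the special vertex; the exponents of the legs are
raised by `b`; an unused leg `x` of exponent `c` is forgotten by pushforward of `ψ^{c + b x + 1}`,
which adds the index `c + b x` to the kappa decoration of its vertex. -/
def graft (Q : Env R T L N) (G : Gr V E L) : Gr (V ⊕ R) (E ⊕ T) N :=
  let u := fun y => (Q.use y).elim (fun x => (G.hf (inr x)).map inl (· + Q.b x)) (Prod.map inr id)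
  ⟨Sum.elim (fun v => ((G.dec v).1, (G.dec v).2 +
    ∑ᶠ (x) (_ : inl x ∉ Set.range Q.use ∧ (G.hf (inr x)).1 = v),
      {(G.hf (inr x)).2 + Q.b x})) Q.dec,
   Sum.elim (fun y => y.1.elim (fun e => (G.hf (inl (e, y.2))).map inl id) fun t => u (inl (t, y.2)))
      fun i => u (inr i)⟩

/-- Pixton's relation `∏_x ψ_x^{b x} · R^d_{γ,A}`, pushed forward along the unused legs and inserted
at the special vertex; a sum over labelled graphs with `k` vertices and `m` edges. -/
def pix (Q : Env R T L N) (γ : ℕ) (A : L → ℕ) (d : ℕ) : F N :=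
  ∑ᶠ (k : ℕ) (m : ℕ) (G : Gr (Fin k) (Fin m) L),
    dl (Q.graft G) (wt G γ A d / (k.factorial * m.factorial * 2 ^ m))

end Env

/-- The trivial relations: isomorphic graphs are identified, graphs that are not stable
graphs of genus `g` with admissible decorations vanish, dilaton rule
`κ[0, c₁,…,c_m] = (2g-2+n+m) κ[c₁,…,c_m]`. The strata algebra is the quotient of `F L` by the
span of the trivial relations. -/
inductive Triv (g : ℕ) {L : Type} : F L → Prop
  | iso {V E V' E'} (G : Gr V E L) (G' : Gr V' E' L) (φ : V → V')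
      (ρ : E × Bool → E' × Bool) : φ.Bijective → ρ.Bijective →
      (∀ e, (ρ (e, true)).1 = (ρ (e, false)).1) → (∀ v, G'.dec (φ v) = G.dec v) →
      (∀ y, G'.hf (y.map ρ id) = (G.hf y).map φ id) → Triv g (dl G 1 + dl G' (-1))
  | zero {V E} (G : Gr V E L) : ¬ G.Valid g → Triv g (dl G 1)
  | dilaton {V E} (G : Gr V E L) (v : V) : Triv g
      (dl ⟨Function.update G.dec v ((G.dec v).1, 0 ::ₘ (G.dec v).2), G.hf⟩ 1 +
        dl G (2 - 2 * ((G.dec v).1 : ℚ) - G.nv v - (G.dec v).2.card))

/-- Pixton's span: the trivial relations and Pixton's relations placed at one vertex of a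
decorated graph; here `3d > γ + ∑ A`, which by parity is the same as `3d > γ - 1 + ∑ A` since
`R^d_{γ,A} = 0` if `d + ∑ A` and `γ - 1` have different parity. -/
inductive P (g : ℕ) {N : Type} : F N → Prop
  | triv (x) : Triv g x → P g x
  | pix {R T L : Type} (Q : Env R T L N) (γ d : ℕ) (A : L → ℕ) : Finite R → Finite T → Finite L →
      (∀ y z x, Q.use y = inl x → Q.use z = inl x → y = z) → (∀ x, A x ≤ 1) →
      γ + ∑ᶠ x, A x < 3 * d → P g (Q.pix γ A d)
  | lin (x y) (c : ℚ) : P g x → P g y → P g (x + c • y)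

end Vale.Agent.P273
end
end
end

section

section

noncomputable section

namespace Vale.Agent.P273

open Sum
open scoped Classical

variable {V E L N V' E' : Type}

lemma dl_zero (G : Gr V E L) : dl G 0 = 0 := by simp [dl]

lemma dl_eq_smul (G : Gr V E L) (c : ℚ) : dl G c = c • dl G 1 := by
  simp [dl]

lemma smul_dl (G : Gr V E L) (a c : ℚ) : a • dl G c = dl G (a * c) := by
  simp [dl]

lemma dl_neg (G : Gr V E L) (c : ℚ) : dl G (-c) = - dl G c := by
  simp [dl]

/-- Span of the trivial relations. -/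
def Isub (g : ℕ) (L : Type) : Submodule ℚ (F L) := Submodule.span ℚ {x | Triv g x}

/-- A one-vertex graph, to have some element of each type. -/
def pt0 (L : Type) : Gr Unit Empty L := ⟨fun _ => (0, 0), fun _ => ((), 0)⟩

lemma P_zero (g : ℕ) (L : Type) : P g (0 : F L) := by
  have h : Triv g (dl (pt0 L) 1 + dl (pt0 L) (-1)) :=
    Triv.iso (pt0 L) (pt0 L) id id Function.bijective_id Function.bijective_id
      (fun e => e.elim) (fun _ => rfl) (fun y => by simp)
  have h2 := P.lin _ _ (-1) (P.triv _ h) (P.triv _ h)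
  simpa [dl_neg] using h2

/-- Pixton's span as a submodule. -/
def Psub (g : ℕ) (L : Type) : Submodule ℚ (F L) where
  carrier := {x | P g x}
  zero_mem' := P_zero g L
  add_mem' := by
    intro a b ha hb
    have := P.lin a b 1 ha hb
    simpa using this
  smul_mem' := by
    intro c x hx
    have := P.lin 0 x c (P_zero g L) hx
    simpa using this

lemma Isub_le_Psub (g : ℕ) (L : Type) : Isub g L ≤ Psub g L :=
  Submodule.span_le.2 fun x hx => P.triv x hx

/-- Isomorphism of decorated graphs. -/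
def Gr.Iso (G : Gr V E L) (G' : Gr V' E' L) : Prop :=
  ∃ (φ : V → V') (ρ : E × Bool → E' × Bool), φ.Bijective ∧ ρ.Bijective ∧
    (∀ e, (ρ (e, true)).1 = (ρ (e, false)).1) ∧ (∀ v, G'.dec (φ v) = G.dec v) ∧
    (∀ y, G'.hf (y.map ρ id) = (G.hf y).map φ id)

lemma Gr.Iso.mem {g : ℕ} {G : Gr V E L} {G' : Gr V' E' L} (h : G.Iso G') (c : ℚ) :
    dl G c - dl G' c ∈ Isub g L := by
  obtain ⟨φ, ρ, h1, h2, h3, h4, h5⟩ := h
  have : dl G 1 + dl G' (-1) ∈ Isub g L :=
    Submodule.subset_span (Triv.iso G G' φ ρ h1 h2 h3 h4 h5)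
  have h' := (Isub g L).smul_mem c this
  rw [smul_add, smul_dl, smul_dl, mul_one, mul_neg, mul_one, dl_neg, ← sub_eq_add_neg] at h'
  exact h'

/-- An isomorphism from equivalences of vertices and edges, without exchanging sides. -/
lemma Gr.Iso.mk' {G : Gr V E L} {G' : Gr V' E' L} (φ : V ≃ V') (ρ : E ≃ E')
    (h4 : ∀ v, G'.dec (φ v) = G.dec v)
    (h5 : ∀ e s, G'.hf (inl (ρ e, s)) = ((φ (G.hf (inl (e, s))).1), (G.hf (inl (e, s))).2))
    (h6 : ∀ x, G'.hf (inr x) = ((φ (G.hf (inr x)).1), (G.hf (inr x)).2)) : G.Iso G' := by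
  refine ⟨φ, fun y => (ρ y.1, y.2), φ.bijective, ?_, fun e => rfl, h4, ?_⟩
  · exact (Equiv.prodCongr ρ (Equiv.refl Bool)).bijective
  · rintro (⟨e, s⟩ | x)
    · exact h5 e s
    · exact h6 x

/-- The strata algebra. -/
abbrev Sq (g : ℕ) (L : Type) : Type 1 := F L ⧸ Isub g L

/-- Class in the strata algebra. -/
def mk (g : ℕ) (L : Type) : F L →ₗ[ℚ] Sq g L := (Isub g L).mkQ

lemma mk_eq_zero {g : ℕ} {x : F L} : mk g L x = 0 ↔ x ∈ Isub g L := by
  simp [mk]

lemma mk_eq {g : ℕ} {x y : F L} : mk g L x = mk g L y ↔ x - y ∈ Isub g L := by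
  rw [← sub_eq_zero, ← map_sub, mk_eq_zero]

lemma mk_iso {g : ℕ} {G : Gr V E L} {G' : Gr V' E' L} (h : G.Iso G') (c : ℚ) :
    mk g L (dl G c) = mk g L (dl G' c) := mk_eq.2 (h.mem c)

lemma mk_invalid {g : ℕ} {G : Gr V E L} (h : ¬ G.Valid g) (c : ℚ) : mk g L (dl G c) = 0 := by
  rw [mk_eq_zero, dl_eq_smul]
  exact Submodule.smul_mem _ _ (Submodule.subset_span (Triv.zero G h))

/-- Replace the kappa decoration of `v`. -/
def Gr.upd (G : Gr V E L) (v : V) (K : Multiset ℕ) : Gr V E L :=
  ⟨Function.update G.dec v ((G.dec v).1, K), G.hf⟩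

lemma mk_dilaton {g : ℕ} (G : Gr V E L) (v : V) (c : ℚ) :
    mk g L (dl (G.upd v (0 ::ₘ (G.dec v).2)) c) =
      (2 * ((G.dec v).1 : ℚ) - 2 + G.nv v + (G.dec v).2.card) • mk g L (dl G c) := by
  have h : dl (G.upd v (0 ::ₘ (G.dec v).2)) 1 +
      dl G (2 - 2 * ((G.dec v).1 : ℚ) - G.nv v - (G.dec v).2.card) ∈ Isub g L :=
    Submodule.subset_span (Triv.dilaton G v)
  have h' := mk_eq_zero.2 h
  rw [map_add, dl_eq_smul G, map_smul] at h'
  rw [dl_eq_smul _ c, dl_eq_smul G c, map_smul, map_smul, eq_neg_of_add_eq_zero_left h',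
    smul_comm _ c, ← neg_smul]
  congr 2
  ring

/-- The image of Pixton's span in the strata algebra. -/
def Pbar (g : ℕ) (L : Type) : Submodule ℚ (Sq g L) := (Psub g L).map (mk g L)

lemma mk_mem_Pbar {g : ℕ} {x : F L} : mk g L x ∈ Pbar g L ↔ P g x := by
  constructor
  · rintro ⟨y, hy, hxy⟩
    have h1 : x - y ∈ Isub g L := mk_eq.1 hxy.symm
    have h2 := (Psub g L).add_mem (Isub_le_Psub g L h1) hy
    rw [sub_add_cancel] at h2
    exact h2
  · intro h
    exact ⟨x, h, rfl⟩

/-- Linear extension of a function on decorated graphs. -/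
def lift {M : Type*} [AddCommGroup M] [Module ℚ M] (f : DG L → M) : F L →ₗ[ℚ] M :=
  Finsupp.linearCombination ℚ f

lemma lift_dl {M : Type*} [AddCommGroup M] [Module ℚ M] (f : DG L → M) (G : Gr V E L) (c : ℚ) :
    lift f (dl G c) = c • f ⟨V, E, G⟩ := by
  simp [lift, dl]

end Vale.Agent.P273
end
end
end

section

section

noncomputable section

namespace Vale.Agent.P273

open Sum
open scoped Classical

variable {V E L L' N V' E' : Type}

/-- Half-edges that remain after removing a tail at `(f, s)`; the other half of `f` becomes the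
leg `none`. -/
def emb (f : E) (s : Bool) (i : L' → L) : ({e // e ≠ f} × Bool) ⊕ Option L' → (E × Bool) ⊕ L :=
  Sum.elim (fun y => inl (y.1.1, y.2)) (fun o => o.elim (inl (f, !s)) fun x => inr (i x))

@[simp] lemma emb_inl (f : E) (s : Bool) (i : L' → L) (y : {e // e ≠ f} × Bool) :
    emb f s i (inl y) = inl (y.1.1, y.2) := rfl

@[simp] lemma emb_none (f : E) (s : Bool) (i : L' → L) :
    emb f s i (inr none) = inl (f, !s) := rfl

@[simp] lemma emb_some (f : E) (s : Bool) (i : L' → L) (x : L') :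
    emb f s i (inr (some x)) = inr (i x) := rfl

lemma emb_injective (f : E) (s : Bool) {i : L' → L} (hi : i.Injective) :
    (emb f s i).Injective := by
  rintro (⟨⟨e, he⟩, t⟩ | (_ | x)) (⟨⟨e', he'⟩, t'⟩ | (_ | x')) h
  · simp at h ⊢
    exact h
  · simp at h
    exact absurd h.1 he
  · simp at h
  · simp at h
    exact absurd h.1.symm he'
  · rfl
  · simp at h
  · simp at h
  · simp at h
  · simp at h
    rw [hi h]

lemma emb_ne (f : E) (s : Bool) (i : L' → L) (y : ({e // e ≠ f} × Bool) ⊕ Option L') :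
    emb f s i y ≠ inl (f, s) := by
  rcases y with (⟨⟨e, he⟩, t⟩ | (_ | x))
  · simp [he]
  · simp
  · simp

lemma mem_range_emb (f : E) (s : Bool) (i : L' → L) (z : (E × Bool) ⊕ L)
    (h1 : z ≠ inl (f, s)) (h2 : ∀ x, z = inr x → x ∈ Set.range i) :
    z ∈ Set.range (emb f s i) := by
  rcases z with ⟨e, t⟩ | x
  · by_cases he : e = f
    · subst he
      have : t = !s := by
        by_contra h
        apply h1
        cases t <;> cases s <;> simp_all
      exact ⟨inr none, by simp [this]⟩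
    · exact ⟨inl (⟨e, he⟩, t), rfl⟩
  · obtain ⟨x', rfl⟩ := h2 x rfl
    exact ⟨inr (some x'), rfl⟩

namespace Gr

/-- `w` carries the half-edge `(f, s)`, the legs outside the range of `i`, and no other
half-edge. -/
structure CutData (G : Gr V E L) (w : V) (f : E) (s : Bool) (i : L' → L) : Prop where
  hi : i.Injective
  hw : (G.hf (inl (f, s))).1 = w
  hne : ∀ y, (G.hf (emb f s i y)).1 ≠ w
  hJ : ∀ x, x ∉ Set.range i → (G.hf (inr x)).1 = w

/-- Remove the vertex `w` and the edge `f`; the other half of `f` becomes the leg `none`, with the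
sum of the two exponents of `f`. -/
def cut (G : Gr V E L) (w : V) (f : E) (s : Bool) (i : L' → L)
    (hne : ∀ y, (G.hf (emb f s i y)).1 ≠ w) : Gr {v // v ≠ w} {e // e ≠ f} (Option L') :=
  ⟨fun v => G.dec v.1, fun y => (⟨(G.hf (emb f s i y)).1, hne y⟩,
    (G.hf (emb f s i y)).2 + if y = inr none then (G.hf (inl (f, s))).2 else 0)⟩

variable {G : Gr V E L} {w : V} {f : E} {s : Bool} {i : L' → L}

lemma CutData.at_w_iff (C : G.CutData w f s i) (z : (E × Bool) ⊕ L) :
    (G.hf z).1 ≠ w ↔ z ∈ Set.range (emb f s i) := by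
  constructor
  · intro h
    apply mem_range_emb
    · rintro rfl
      exact h C.hw
    · rintro x rfl
      by_contra hx
      exact h (C.hJ x hx)
  · rintro ⟨y, rfl⟩
    exact C.hne y

/-- Half-edges at a remaining vertex. -/
def CutData.equivAt (C : G.CutData w f s i) (v : {v // v ≠ w}) :
    {y // ((G.cut w f s i C.hne).hf y).1 = v} ≃ {z // (G.hf z).1 = v.1} :=
  Equiv.ofBijective (fun y => ⟨emb f s i y.1, by
      have := congrArg Subtype.val y.2
      exact this⟩) (by
    constructor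
    · intro y y' h
      have := congrArg Subtype.val h
      exact Subtype.ext (emb_injective f s C.hi this)
    · rintro ⟨z, hz⟩
      obtain ⟨y, rfl⟩ := (C.at_w_iff z).1 (by rw [hz]; exact v.2)
      exact ⟨⟨y, Subtype.ext hz⟩, rfl⟩)

lemma CutData.nv_eq (C : G.CutData w f s i) (v : {v // v ≠ w}) :
    (G.cut w f s i C.hne).nv v = G.nv v.1 :=
  Nat.card_congr (C.equivAt v)

lemma CutData.finite_iff_V : Finite {v : V // v ≠ w} ↔ Finite V := by
  constructor
  · intro h
    have h1 : ({v : V | v ≠ w}).Finite := h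
    have h2 : (insert w {v : V | v ≠ w}).Finite := h1.insert w
    have h3 : insert w {v : V | v ≠ w} = Set.univ := by
      ext v
      simp [em]
    rw [h3] at h2
    exact Set.finite_univ_iff.1 h2
  · intro h
    infer_instance

lemma card_ne (V : Type) [Finite V] (w : V) : Nat.card V = Nat.card {v : V // v ≠ w} + 1 := by
  have := Fintype.ofFinite V
  rw [Nat.card_eq_fintype_card, Nat.card_eq_fintype_card, Fintype.card_subtype_compl]
  simp only [Fintype.card_unique]
  have : 0 < Fintype.card V := Fintype.card_pos_iff.2 ⟨w⟩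
  omega

lemma finsum_ne {V : Type} [Finite V] {M : Type*} [AddCommMonoid M] (w : V) (φ : V → M) :
    ∑ᶠ v, φ v = φ w + ∑ᶠ v : {v // v ≠ w}, φ v.1 := by
  have := Fintype.ofFinite V
  rw [finsum_eq_sum_of_fintype, finsum_eq_sum_of_fintype]
  exact Fintype.sum_eq_add_sum_subtype_ne φ w

lemma CutData.conn_iff (C : G.CutData w f s i) :
    (∀ t : Set {v // v ≠ w}, (∀ e, ((G.cut w f s i C.hne).hf (inl (e, true))).1 ∈ t ↔
        ((G.cut w f s i C.hne).hf (inl (e, false))).1 ∈ t) → t = ∅ ∨ t = Set.univ) ↔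
    (∀ t : Set V, (∀ e, (G.hf (inl (e, true))).1 ∈ t ↔ (G.hf (inl (e, false))).1 ∈ t) →
      t = ∅ ∨ t = Set.univ) := by
  have hu : (G.hf (inl (f, !s))).1 ≠ w := C.hne (inr none)
  constructor
  · intro H t ht
    have hfw : (G.hf (inl (f, !s))).1 ∈ t ↔ w ∈ t := by
      have h1 := ht f
      have h2 := C.hw
      cases s
      · simp only [Bool.not_false]
        rw [h1, h2]
      · simp only [Bool.not_true]
        rw [← h1, h2]
    have H' := H (Subtype.val ⁻¹' t) (fun e => ht e.1)
    rcases H' with H' | H'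
    · left
      ext v
      simp only [Set.mem_empty_iff_false, iff_false]
      intro hv
      by_cases hvw : v = w
      · subst hvw
        have := hfw.2 hv
        have h3 : (⟨_, hu⟩ : {v' // v' ≠ v}) ∈ Subtype.val ⁻¹' t := this
        rw [H'] at h3
        exact h3
      · have h3 : (⟨v, hvw⟩ : {v' // v' ≠ w}) ∈ Subtype.val ⁻¹' t := hv
        rw [H'] at h3
        exact h3
    · right
      ext v
      simp only [Set.mem_univ, iff_true]
      have key : ∀ v' : {v' // v' ≠ w}, v'.1 ∈ t := by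
        intro v'
        have : v' ∈ Subtype.val ⁻¹' t := by rw [H']; trivial
        exact this
      by_cases hvw : v = w
      · subst hvw
        exact hfw.1 (key ⟨_, hu⟩)
      · exact key ⟨v, hvw⟩
  · intro H t ht
    have H' := H ({v | ∃ h : v ≠ w, (⟨v, h⟩ : {v // v ≠ w}) ∈ t} ∪
      {v | v = w ∧ (⟨_, hu⟩ : {v // v ≠ w}) ∈ t}) (by
        intro e
        by_cases he : e = f
        · subst he
          have hw := C.hw
          have key : ∀ b, (G.hf (inl (e, b))).1 ∈ ({v | ∃ h : v ≠ w, (⟨v, h⟩ : {v // v ≠ w}) ∈ t} ∪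
              {v | v = w ∧ (⟨_, hu⟩ : {v // v ≠ w}) ∈ t}) ↔ (⟨_, hu⟩ : {v // v ≠ w}) ∈ t := by
            intro b
            by_cases hb : b = s
            · subst hb
              simp only [Set.mem_union, Set.mem_setOf_eq]
              rw [hw]
              simp
            · have hb' : b = !s := by cases b <;> cases s <;> simp_all
              subst hb'
              simp only [Set.mem_union, Set.mem_setOf_eq]
              constructor
              · rintro (⟨h, h'⟩ | ⟨h, h'⟩)
                · exact h'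
                · exact h'
              · intro h
                exact Or.inl ⟨hu, h⟩
          rw [key, key]
        · have key : ∀ b, (G.hf (inl (e, b))).1 ∈ ({v | ∃ h : v ≠ w, (⟨v, h⟩ : {v // v ≠ w}) ∈ t} ∪
              {v | v = w ∧ (⟨_, hu⟩ : {v // v ≠ w}) ∈ t}) ↔
              ((G.cut w f s i C.hne).hf (inl (⟨e, he⟩, b))).1 ∈ t := by
            intro b
            have hne := C.hne (inl (⟨e, he⟩, b))
            simp only [Set.mem_union, Set.mem_setOf_eq]
            constructor
            · rintro (⟨h, h'⟩ | ⟨h, h'⟩)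
              · exact h'
              · exact absurd h hne
            · intro h
              exact Or.inl ⟨hne, h⟩
          rw [key, key]
          exact ht ⟨e, he⟩)
    rcases H' with H' | H'
    · left
      ext ⟨v, hv⟩
      simp only [Set.mem_empty_iff_false, iff_false]
      intro h
      have : v ∈ ({v | ∃ h : v ≠ w, (⟨v, h⟩ : {v // v ≠ w}) ∈ t} ∪
              {v | v = w ∧ (⟨_, hu⟩ : {v // v ≠ w}) ∈ t}) := Or.inl ⟨hv, h⟩
      rw [H'] at this
      exact this
    · right
      ext ⟨v, hv⟩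
      simp only [Set.mem_univ, iff_true]
      have : v ∈ ({v | ∃ h : v ≠ w, (⟨v, h⟩ : {v // v ≠ w}) ∈ t} ∪
              {v | v = w ∧ (⟨_, hu⟩ : {v // v ≠ w}) ∈ t}) := by rw [H']; trivial
      rcases this with ⟨h, h'⟩ | ⟨h, h'⟩
      · exact h'
      · exact absurd h hv

lemma CutData.stab_iff (C : G.CutData w f s i) [Finite V] [Finite E] {h γ : ℕ}
    (hgen : (G.dec w).1 = h) (hh : 1 ≤ h) (hnv : 1 ≤ G.nv w) :
    (G.cut w f s i C.hne).Stab γ ↔ G.Stab (γ + h) := by
  unfold Stab
  rw [C.conn_iff]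
  have h1 : Nonempty {v // v ≠ w} := ⟨⟨_, C.hne (inr none)⟩⟩
  have h2 : Nonempty V := ⟨w⟩
  have h3 := card_ne V w
  have h4 := card_ne E f
  have h5 := finsum_ne w (fun v => (G.dec v).1)
  have h6 : ∑ᶠ v, ((G.cut w f s i C.hne).dec v).1 = ∑ᶠ v : {v // v ≠ w}, (G.dec v.1).1 := rfl
  rw [h6]
  have h7 : (∀ v, 2 < 2 * ((G.cut w f s i C.hne).dec v).1 + (G.cut w f s i C.hne).nv v) ↔
      ∀ v, 2 < 2 * (G.dec v).1 + G.nv v := by
    constructor
    · intro H v
      by_cases hv : v = w
      · subst hv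
        omega
      · have := H ⟨v, hv⟩
        rw [C.nv_eq] at this
        exact this
    · intro H v
      rw [C.nv_eq]
      exact H v.1
  rw [h7]
  simp only [h1, h2, true_and]
  have h8 : (∑ᶠ v : {v // v ≠ w}, (G.dec v.1).1 + Nat.card {e // e ≠ f} + 1 =
      γ + Nat.card {v // v ≠ w}) ↔ (∑ᶠ v, (G.dec v).1 + Nat.card E + 1 = γ + h + Nat.card V) := by
    rw [h5, hgen]
    omega
  rw [h8]

end Gr

end Vale.Agent.P273
end
end
end

section

section

noncomputable section

namespace Vale.Agent.P273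

open Sum
open scoped Classical

variable {V E L L' N V' E' : Type}

/-- `y` is the half-edge at the valence one vertex of a genus `h` tail, whose kappa decoration
consists of zeros and whose exponent is at most one. -/
structure IsTail (G : Gr V E L) (h : ℕ) (y : E × Bool) : Prop where
  gen : (G.dec (G.hf (inl y)).1).1 = h
  kap : ∀ k ∈ (G.dec (G.hf (inl y)).1).2, k = 0
  only : ∀ z, (G.hf z).1 = (G.hf (inl y)).1 → z = inl y
  le : (G.hf (inl y)).2 ≤ 1

lemma IsTail.cutData {G : Gr V E L} {h : ℕ} {y : E × Bool} (ht : IsTail G h y) :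
    G.CutData (G.hf (inl y)).1 y.1 y.2 (id : L → L) where
  hi := Function.injective_id
  hw := rfl
  hne := fun z hz => emb_ne _ _ _ z (ht.only _ hz)
  hJ := fun x hx => absurd (Set.mem_range_self x) hx

/-- Remove a tail. -/
def IsTail.cut {G : Gr V E L} {h : ℕ} {y : E × Bool} (ht : IsTail G h y) :
    Gr {v // v ≠ (G.hf (inl y)).1} {e // e ≠ y.1} (Option L) :=
  G.cut _ y.1 y.2 id ht.cutData.hne

lemma IsTail.nv_eq_one {G : Gr V E L} {h : ℕ} {y : E × Bool} (ht : IsTail G h y) :
    G.nv (G.hf (inl y)).1 = 1 := by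
  unfold Gr.nv
  rw [Nat.card_eq_one_iff_unique]
  refine ⟨⟨?_⟩, ⟨⟨inl y, rfl⟩⟩⟩
  rintro ⟨a, ha⟩ ⟨b, hb⟩
  exact Subtype.ext ((ht.only a ha).trans (ht.only b hb).symm)

/-- The factor by which `z` zeros multiply, at a vertex of genus `h` and valence one. -/
def zfac (h z : ℕ) : ℚ := ∏ j ∈ Finset.range z, (2 * (h : ℚ) - 1 + j)

lemma zfac_zero (h : ℕ) : zfac h 0 = 1 := by simp [zfac]

lemma zfac_succ (h z : ℕ) : zfac h (z + 1) = (2 * (h : ℚ) - 1 + z) * zfac h z := by
  rw [zfac, Finset.prod_range_succ, mul_comm]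
  rfl

/-- The contribution of the half-edge `y` to tail removal. -/
def term (g h : ℕ) (G : Gr V E L) (y : E × Bool) : Sq g (Option L) :=
  if ht : IsTail G h y then
    zfac h (Multiset.card (G.dec (G.hf (inl y)).1).2) • mk g (Option L) (dl ht.cut 1)
  else 0

lemma term_of {g h : ℕ} {G : Gr V E L} {y : E × Bool} (ht : IsTail G h y) :
    term g h G y = zfac h (Multiset.card (G.dec (G.hf (inl y)).1).2) •
      mk g (Option L) (dl ht.cut 1) := dif_pos ht

lemma term_not {g h : ℕ} {G : Gr V E L} {y : E × Bool} (ht : ¬ IsTail G h y) :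
    term g h G y = 0 := dif_neg ht

/-- Tail removal on one graph. -/
def lamG (g h : ℕ) (G : Gr V E L) : Sq g (Option L) := - ∑ᶠ y, term g h G y

/-- Tail removal. -/
def lam (g h : ℕ) (L : Type) : F L →ₗ[ℚ] Sq g (Option L) := lift fun D => lamG g h D.G

lemma lam_dl (g h : ℕ) (G : Gr V E L) (c : ℚ) : lam g h L (dl G c) = c • lamG g h G :=
  lift_dl _ _ _

/-! ### Invalid graphs -/

lemma finsum_le_of_ne {α : Type*} (f1 f2 : α → ℕ) (a : α) (h1 : ∀ x, f1 x ≤ f2 x)
    (h2 : ∀ x, x ≠ a → f2 x = f1 x) : ∑ᶠ x, f1 x ≤ ∑ᶠ x, f2 x := by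
  by_cases hf : (Function.support f1).Finite
  · refine finsum_le_finsum' hf ?_ h1
    refine (hf.insert a).subset ?_
    intro x hx
    by_cases hxa : x = a
    · exact Or.inl hxa
    · right
      rw [Function.mem_support, ← h2 x hxa]
      exact hx
  · rw [finsum_of_infinite_support hf]
    exact Nat.zero_le _

lemma sum_cut_ge {G : Gr V E L} {w : V} {f : E} {s : Bool} {i : L' → L} (C : G.CutData w f s i)
    (v : {v // v ≠ w}) : ∑ᶠ (z) (_ : (G.hf z).1 = v.1), (G.hf z).2 ≤
      ∑ᶠ (z) (_ : ((G.cut w f s i C.hne).hf z).1 = v), ((G.cut w f s i C.hne).hf z).2 := by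
  rw [← finsum_subtype_eq_finsum_cond, ← finsum_subtype_eq_finsum_cond,
    ← finsum_comp_equiv (C.equivAt v)]
  by_cases hn : ((G.cut w f s i C.hne).hf (inr none)).1 = v
  · refine finsum_le_of_ne _ _ ⟨inr none, hn⟩ ?_ ?_
    · intro x
      exact Nat.le_add_right _ _
    · rintro ⟨x, hx⟩ hne
      have : x ≠ inr none := fun h => hne (Subtype.ext h)
      simp only [ne_eq, Gr.cut, this, ↓reduceIte, add_zero]
      rfl
  · apply le_of_eq
    apply finsum_congr
    rintro ⟨x, hx⟩
    have : x ≠ inr none := by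
      rintro rfl
      exact hn hx
    simp only [ne_eq, Gr.cut, this, ↓reduceIte, add_zero]
    rfl

lemma IsTail.valid_of_cut {g h : ℕ} (hh : 1 ≤ h) {G : Gr V E L} {y : E × Bool}
    (ht : IsTail G h y) (H : ht.cut.Valid g) : G.Valid (g + h) := by
  obtain ⟨hV, hE, hS, hD⟩ := H
  have hV' : Finite V := Gr.CutData.finite_iff_V.1 hV
  have hE' : Finite E := Gr.CutData.finite_iff_V.1 hE
  have C := ht.cutData
  have hnv := ht.nv_eq_one
  refine ⟨hV', hE', (C.stab_iff ht.gen hh hnv.ge).1 hS, ?_⟩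
  intro v
  by_cases hv : v = (G.hf (inl y)).1
  · subst hv
    have h1 : (G.dec (G.hf (inl y)).1).2.sum = 0 :=
      Multiset.sum_eq_zero ht.kap
    have h2 : ∑ᶠ (z) (_ : (G.hf z).1 = (G.hf (inl y)).1), (G.hf z).2 = (G.hf (inl y)).2 := by
      rw [finsum_eq_single _ (inl y)]
      · simp
      · intro z hz
        have : ¬ (G.hf z).1 = (G.hf (inl y)).1 := fun h => hz (ht.only z h)
        simp [this]
    have h3 := ht.le
    have h4 := ht.gen
    rw [h1, h2, hnv, h4]
    omega
  · have h1 := hD ⟨v, hv⟩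
    have h2 : ht.cut.nv ⟨v, hv⟩ = G.nv v := C.nv_eq ⟨v, hv⟩
    rw [h2] at h1
    have h3 : ∑ᶠ (z) (_ : (ht.cut.hf z).1 = ⟨v, hv⟩), (ht.cut.hf z).2 ≥
        ∑ᶠ (z) (_ : (G.hf z).1 = v), (G.hf z).2 := sum_cut_ge C ⟨v, hv⟩
    have h4 : (ht.cut.dec ⟨v, hv⟩) = G.dec v := rfl
    rw [h4] at h1
    omega

lemma term_invalid {g h : ℕ} (hh : 1 ≤ h) {G : Gr V E L} (hG : ¬ G.Valid (g + h))
    (y : E × Bool) : term g h G y = 0 := by
  by_cases ht : IsTail G h y
  · rw [term_of ht, mk_invalid (fun H => hG (ht.valid_of_cut hh H)), smul_zero]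
  · exact term_not ht

lemma lamG_invalid {g h : ℕ} (hh : 1 ≤ h) {G : Gr V E L} (hG : ¬ G.Valid (g + h)) :
    lamG g h G = 0 := by
  rw [lamG, finsum_eq_zero_of_forall_eq_zero (fun y => term_invalid hh hG y), neg_zero]

/-! ### Dilaton -/

lemma upd_dec_ne (G : Gr V E L) (v : V) (K : Multiset ℕ) {u : V} (h : u ≠ v) :
    (G.upd v K).dec u = G.dec u := Function.update_of_ne h _ _

lemma upd_dec_self (G : Gr V E L) (v : V) (K : Multiset ℕ) :
    (G.upd v K).dec v = ((G.dec v).1, K) := by
  show Function.update G.dec v ((G.dec v).1, K) v = _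
  simp

lemma eq_upd {G G' : Gr V E L} {v : V} {K : Multiset ℕ} (h1 : G'.hf = G.hf)
    (h2 : G'.dec v = ((G.dec v).1, K)) (h3 : ∀ u, u ≠ v → G'.dec u = G.dec u) :
    G' = G.upd v K := by
  have h4 : G'.dec = (G.upd v K).dec := by
    funext u
    by_cases hu : u = v
    · subst hu
      rw [h2, upd_dec_self]
    · rw [h3 u hu, upd_dec_ne _ _ _ hu]
  cases G'
  cases G
  simp only at h1 h4
  subst h1
  subst h4
  rfl

lemma isTail_upd {G : Gr V E L} {h : ℕ} {y : E × Bool} {v : V} :
    IsTail (G.upd v (0 ::ₘ (G.dec v).2)) h y ↔ IsTail G h y := by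
  have h1 : ((G.upd v (0 ::ₘ (G.dec v).2)).dec (G.hf (inl y)).1).1 = (G.dec (G.hf (inl y)).1).1 := by
    by_cases hv : (G.hf (inl y)).1 = v
    · rw [← hv, upd_dec_self]
    · rw [upd_dec_ne _ _ _ hv]
  have h2 : (∀ k ∈ ((G.upd v (0 ::ₘ (G.dec v).2)).dec (G.hf (inl y)).1).2, k = 0) ↔
      ∀ k ∈ (G.dec (G.hf (inl y)).1).2, k = 0 := by
    by_cases hv : (G.hf (inl y)).1 = v
    · rw [← hv, upd_dec_self]
      simp
    · rw [upd_dec_ne _ _ _ hv]
  constructor
  · intro H
    exact ⟨h1.symm.trans H.gen, h2.1 H.kap, H.only, H.le⟩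
  · intro H
    exact ⟨h1.trans H.gen, h2.2 H.kap, H.only, H.le⟩

lemma term_upd {g h : ℕ} (G : Gr V E L) (v : V) (y : E × Bool) :
    term g h (G.upd v (0 ::ₘ (G.dec v).2)) y =
      (2 * ((G.dec v).1 : ℚ) - 2 + G.nv v + (G.dec v).2.card) • term g h G y := by
  by_cases ht : IsTail G h y
  · have ht' : IsTail (G.upd v (0 ::ₘ (G.dec v).2)) h y := isTail_upd.2 ht
    rw [term_of ht, term_of ht']
    by_cases hv : (G.hf (inl y)).1 = v
    · have e1 : ht'.cut = ht.cut := by
        have : (fun v' : {v' // v' ≠ (G.hf (inl y)).1} =>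
            (G.upd v (0 ::ₘ (G.dec v).2)).dec v'.1) = fun v' => G.dec v'.1 := by
          funext v'
          exact upd_dec_ne _ _ _ (fun h => v'.2 (h.trans hv.symm))
        unfold IsTail.cut Gr.cut
        exact congrArg (fun d => (⟨d, _⟩ : Gr _ _ _)) this
      have e2 : ((G.upd v (0 ::ₘ (G.dec v).2)).dec
          ((G.upd v (0 ::ₘ (G.dec v).2)).hf (inl y)).1).2 = 0 ::ₘ (G.dec v).2 := by
        have : ((G.upd v (0 ::ₘ (G.dec v).2)).hf (inl y)).1 = v := hv
        rw [this, upd_dec_self]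
      rw [e2, e1, smul_smul]
      have e3 : G.nv v = 1 := by rw [← hv]; exact ht.nv_eq_one
      have e4 : (G.dec v).1 = h := by rw [← hv]; exact ht.gen
      have e5 : (G.dec (G.hf (inl y)).1).2 = (G.dec v).2 := by rw [hv]
      rw [Multiset.card_cons, zfac_succ, e5, e3, e4]
      congr 1
      push_cast
      ring
    · have hv' : v ≠ (G.hf (inl y)).1 := fun h => hv h.symm
      have e1 : ht'.cut = ht.cut.upd ⟨v, hv'⟩ (0 ::ₘ (ht.cut.dec ⟨v, hv'⟩).2) := by
        apply eq_upd
        · rfl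
        · exact upd_dec_self _ _ _
        · intro u hu
          exact upd_dec_ne _ _ _ (fun h => hu (Subtype.ext h))
      have e2 : ((G.upd v (0 ::ₘ (G.dec v).2)).dec
          ((G.upd v (0 ::ₘ (G.dec v).2)).hf (inl y)).1).2 = (G.dec (G.hf (inl y)).1).2 := by
        have : ((G.upd v (0 ::ₘ (G.dec v).2)).hf (inl y)).1 = (G.hf (inl y)).1 := rfl
        rw [this, upd_dec_ne _ _ _ hv]
      have e3 : ht.cut.nv ⟨v, hv'⟩ = G.nv v := ht.cutData.nv_eq ⟨v, hv'⟩
      have e4 : ht.cut.dec ⟨v, hv'⟩ = G.dec v := rfl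
      have e5 := mk_dilaton (g := g) ht.cut ⟨v, hv'⟩ 1
      rw [e3, e4] at e5
      rw [e2, e1, e4]
      refine Eq.trans (congrArg _ e5) ?_
      rw [smul_comm]
  · have ht' : ¬ IsTail (G.upd v (0 ::ₘ (G.dec v).2)) h y := fun H => ht (isTail_upd.1 H)
    rw [term_not ht, term_not ht', smul_zero]

lemma lamG_upd {g h : ℕ} (G : Gr V E L) (v : V) :
    lamG g h (G.upd v (0 ::ₘ (G.dec v).2)) =
      (2 * ((G.dec v).1 : ℚ) - 2 + G.nv v + (G.dec v).2.card) • lamG g h G := by
  unfold lamG
  rw [smul_neg, smul_finsum]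
  congr 1
  exact finsum_congr fun y => term_upd G v y

/-! ### Isomorphisms -/

lemma ρ_not {ρ : E × Bool → E' × Bool} (h2 : ρ.Bijective)
    (h3 : ∀ e, (ρ (e, true)).1 = (ρ (e, false)).1) (e : E) (s : Bool) :
    ρ (e, !s) = ((ρ (e, s)).1, !(ρ (e, s)).2) := by
  have h4 : (ρ (e, !s)).1 = (ρ (e, s)).1 := by
    cases s
    · exact h3 e
    · exact (h3 e).symm
  have h5 : ρ (e, !s) ≠ ρ (e, s) := by
    intro h
    have := h2.1 h
    simp at this
  have h6 : (ρ (e, !s)).2 ≠ (ρ (e, s)).2 := fun h => h5 (Prod.ext h4 h)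
  refine Prod.ext h4 ?_
  simp only
  cases h : (ρ (e, !s)).2 <;> cases h' : (ρ (e, s)).2 <;> simp_all

/-- Data of an isomorphism. -/
structure IsoData (G : Gr V E L) (G' : Gr V' E' L) (φ : V → V') (ρ : E × Bool → E' × Bool) :
    Prop where
  h1 : φ.Bijective
  h2 : ρ.Bijective
  h3 : ∀ e, (ρ (e, true)).1 = (ρ (e, false)).1
  h4 : ∀ v, G'.dec (φ v) = G.dec v
  h5 : ∀ y, G'.hf (y.map ρ id) = (G.hf y).map φ id

variable {G : Gr V E L} {G' : Gr V' E' L} {φ : V → V'} {ρ : E × Bool → E' × Bool}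

lemma IsoData.hf_inl (I : IsoData G G' φ ρ) (y : E × Bool) :
    G'.hf (inl (ρ y)) = (φ (G.hf (inl y)).1, (G.hf (inl y)).2) := I.h5 (inl y)

lemma IsoData.hf_inr (I : IsoData G G' φ ρ) (x : L) :
    G'.hf (inr x) = (φ (G.hf (inr x)).1, (G.hf (inr x)).2) := I.h5 (inr x)

lemma IsoData.isTail_iff (I : IsoData G G' φ ρ) {h : ℕ} {y : E × Bool} :
    IsTail G' h (ρ y) ↔ IsTail G h y := by
  have e1 := I.hf_inl y
  have e2 : G'.dec (G'.hf (inl (ρ y))).1 = G.dec (G.hf (inl y)).1 := by
    rw [e1]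
    exact I.h4 _
  have e3 : (∀ z, (G'.hf z).1 = (G'.hf (inl (ρ y))).1 → z = inl (ρ y)) ↔
      (∀ z, (G.hf z).1 = (G.hf (inl y)).1 → z = inl y) := by
    rw [e1]
    constructor
    · intro H z hz
      rcases z with z | x
      · have := H (inl (ρ z)) (by rw [I.hf_inl]; exact congrArg φ hz)
        rw [inl.injEq] at this
        rw [I.h2.1 this]
      · have := H (inr x) (by rw [I.hf_inr]; exact congrArg φ hz)
        simp at this
    · intro H z hz
      rcases z with z | x
      · obtain ⟨z, rfl⟩ := I.h2.2 z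
        rw [I.hf_inl] at hz
        have := H (inl z) (I.h1.1 hz)
        rw [inl.injEq] at this
        rw [this]
      · rw [I.hf_inr] at hz
        have := H (inr x) (I.h1.1 hz)
        simp at this
  constructor
  · intro H
    exact ⟨e2 ▸ H.gen, e2 ▸ H.kap, e3.1 H.only, by have := H.le; rw [e1] at this; exact this⟩
  · intro H
    exact ⟨e2 ▸ H.gen, e2 ▸ H.kap, e3.2 H.only, by rw [e1]; exact H.le⟩

lemma IsoData.ρ_fst_inj (I : IsoData G G' φ ρ) (y z : E × Bool) :
    (ρ y).1 = (ρ z).1 ↔ y.1 = z.1 := by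
  constructor
  · intro h
    by_cases h' : (ρ y).2 = (ρ z).2
    · have := I.h2.1 (Prod.ext h h')
      rw [this]
    · have e1 := ρ_not I.h2 I.h3 z.1 z.2
      have e2 : ρ y = ρ (z.1, !z.2) := by
        rw [e1]
        refine Prod.ext h ?_
        cases h1 : (ρ y).2 <;> cases h2 : (ρ z).2 <;> simp_all
      have := I.h2.1 e2
      rw [this]
  · intro h
    by_cases h' : y.2 = z.2
    · rw [show y = z from Prod.ext h h']
    · have e1 := ρ_not I.h2 I.h3 z.1 z.2
      have e2 : y = (z.1, !z.2) := by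
        refine Prod.ext h ?_
        cases h1 : y.2 <;> cases h2 : z.2 <;> simp_all
      rw [e2, e1]

lemma IsoData.cut_iso (I : IsoData G G' φ ρ) {h : ℕ} {y : E × Bool} (ht : IsTail G h y)
    (ht' : IsTail G' h (ρ y)) : ht.cut.Iso ht'.cut := by
  have e1 := I.hf_inl y
  have key : ∀ v, v ≠ (G.hf (inl y)).1 → φ v ≠ (G'.hf (inl (ρ y))).1 := by
    intro v hv h
    rw [e1] at h
    exact hv (I.h1.1 h)
  have key2 : ∀ z : E × Bool, z.1 ≠ y.1 → (ρ z).1 ≠ (ρ y).1 := by
    intro z hz h
    exact hz ((I.ρ_fst_inj z y).1 h)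
  refine ⟨fun v => ⟨φ v.1, key v.1 v.2⟩,
    fun z => (⟨(ρ (z.1.1, z.2)).1, key2 (z.1.1, z.2) z.1.2⟩, (ρ (z.1.1, z.2)).2), ⟨?_, ?_⟩,
    ⟨?_, ?_⟩, ?_, ?_, ?_⟩
  · intro a b hab
    exact Subtype.ext (I.h1.1 (congrArg Subtype.val hab))
  · rintro ⟨v', hv'⟩
    obtain ⟨v, rfl⟩ := I.h1.2 v'
    refine ⟨⟨v, ?_⟩, rfl⟩
    rintro rfl
    rw [e1] at hv'
    exact hv' rfl
  · rintro ⟨⟨a, ha⟩, s⟩ ⟨⟨b, hb⟩, t⟩ hab
    simp only [Prod.mk.injEq, Subtype.mk.injEq] at hab
    have := I.h2.1 (Prod.ext hab.1 hab.2)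
    simpa using this
  · rintro ⟨⟨a, ha⟩, s⟩
    obtain ⟨⟨b, t⟩, hb⟩ := I.h2.2 (a, s)
    refine ⟨(⟨b, ?_⟩, t), ?_⟩
    · intro h
      apply ha
      have := (I.ρ_fst_inj (b, t) y).2 h
      rw [hb] at this
      exact this
    · simp [hb]
  · rintro ⟨e, he⟩
    exact Subtype.ext (I.h3 e)
  · rintro ⟨v, hv⟩
    exact I.h4 v
  · have e4 : emb (ρ y).1 (ρ y).2 (id : L → L) (inr none) = inl (ρ (y.1, !y.2)) := by
      rw [emb_none, ρ_not I.h2 I.h3 y.1 y.2]
    rintro (⟨⟨e, he⟩, s⟩ | (_ | x))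
    · have := I.hf_inl (e, s)
      refine Prod.ext (Subtype.ext ?_) ?_
      · exact congrArg Prod.fst this
      · simp only [IsTail.cut, Gr.cut, Sum.map_inl, emb_inl, reduceCtorEq, if_false,
          add_zero, Prod.map_snd, id]
        exact congrArg Prod.snd this
    · have h1 := I.hf_inl (y.1, !y.2)
      have h2 : (G'.hf (emb (ρ y).1 (ρ y).2 (id : L → L) (inr none))) =
        (φ (G.hf (inl (y.1, !y.2))).1, (G.hf (inl (y.1, !y.2))).2) := by rw [e4, h1]
      refine Prod.ext (Subtype.ext ?_) ?_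
      · exact congrArg Prod.fst h2
      · have h3 := congrArg Prod.snd h2
        simp only [IsTail.cut, Gr.cut, map_inr, id, if_true, Prod.map_snd]
        rw [h3]
        rw [show (inl ((ρ y).1, (ρ y).2) : (E' × Bool) ⊕ L) = inl (ρ y) from rfl, e1]
        rfl
    · have := I.hf_inr x
      refine Prod.ext (Subtype.ext ?_) ?_
      · exact congrArg Prod.fst this
      · simp only [IsTail.cut, Gr.cut, Sum.map_inr, emb_some, id, inr.injEq, reduceCtorEq, if_false,
          add_zero, Prod.map_snd]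
        exact congrArg Prod.snd this

lemma IsoData.term_eq (I : IsoData G G' φ ρ) {g h : ℕ} (y : E × Bool) :
    term g h G' (ρ y) = term g h G y := by
  by_cases ht : IsTail G h y
  · have ht' : IsTail G' h (ρ y) := I.isTail_iff.2 ht
    rw [term_of ht, term_of ht', mk_iso (I.cut_iso ht ht')]
    have e2 : G'.dec (G'.hf (inl (ρ y))).1 = G.dec (G.hf (inl y)).1 := by
      rw [I.hf_inl]
      exact I.h4 _
    rw [e2]
  · rw [term_not ht, term_not (fun H => ht (I.isTail_iff.1 H))]

lemma IsoData.lamG_eq (I : IsoData G G' φ ρ) {g h : ℕ} : lamG g h G = lamG g h G' := by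
  unfold lamG
  congr 1
  exact finsum_eq_of_bijective ρ I.h2 fun y => (I.term_eq y).symm

lemma lam_triv {g h : ℕ} (hh : 1 ≤ h) {x : F L} (hx : Triv (g + h) x) : lam g h L x = 0 := by
  cases hx with
  | iso G G' φ ρ h1 h2 h3 h4 h5 =>
    rw [map_add, lam_dl, lam_dl, (IsoData.mk h1 h2 h3 h4 h5).lamG_eq]
    simp
  | zero G hG => rw [lam_dl, lamG_invalid hh hG, smul_zero]
  | dilaton G v =>
    rw [map_add, lam_dl, lam_dl]
    have := lamG_upd (g := g) (h := h) G v
    rw [show (⟨Function.update G.dec v ((G.dec v).1, 0 ::ₘ (G.dec v).2), G.hf⟩ : Gr _ _ _) =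
      G.upd v (0 ::ₘ (G.dec v).2) from rfl, this, smul_smul, ← add_smul]
    convert zero_smul ℚ _ using 2
    ring

end Vale.Agent.P273
end
end
end

section

section

noncomputable section

namespace Vale.Agent.P273

open Sum
open scoped Classical

variable {V E L L' N V' E' : Type}
variable {G : Gr V E L} {G' : Gr V' E' L} {φ : V → V'} {ρ : E × Bool → E' × Bool}

lemma IsoData.bij (I : IsoData G G' φ ρ) :
    Function.Bijective (Sum.map ρ id : (E × Bool) ⊕ L → (E' × Bool) ⊕ L) :=
  Function.Bijective.sumMap I.h2 Function.bijective_id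

lemma IsoData.hf_fst (I : IsoData G G' φ ρ) (y : (E × Bool) ⊕ L) :
    (G'.hf (y.map ρ id)).1 = φ (G.hf y).1 := congrArg Prod.fst (I.h5 y)

lemma IsoData.hf_snd (I : IsoData G G' φ ρ) (y : (E × Bool) ⊕ L) :
    (G'.hf (y.map ρ id)).2 = (G.hf y).2 := congrArg Prod.snd (I.h5 y)

/-- Half-edges at corresponding vertices. -/
def IsoData.equivAt (I : IsoData G G' φ ρ) (v : V) :
    {y // (G.hf y).1 = v} ≃ {y // (G'.hf y).1 = φ v} :=
  Equiv.ofBijective (fun y => ⟨y.1.map ρ id, by rw [I.hf_fst, y.2]⟩) (by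
    constructor
    · intro a b h
      exact Subtype.ext (I.bij.1 (congrArg Subtype.val h))
    · rintro ⟨y', hy'⟩
      obtain ⟨y, rfl⟩ := I.bij.2 y'
      rw [I.hf_fst] at hy'
      exact ⟨⟨y, I.h1.1 hy'⟩, rfl⟩)

lemma IsoData.nv_eq (I : IsoData G G' φ ρ) (v : V) : G'.nv (φ v) = G.nv v :=
  (Nat.card_congr (I.equivAt v)).symm

lemma IsoData.card_V (I : IsoData G G' φ ρ) : Nat.card V' = Nat.card V :=
  (Nat.card_congr (Equiv.ofBijective φ I.h1)).symm

lemma IsoData.card_E (I : IsoData G G' φ ρ) : Nat.card E' = Nat.card E := by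
  have := Nat.card_congr (Equiv.ofBijective ρ I.h2)
  rw [Nat.card_prod, Nat.card_prod] at this
  simp only [Nat.card_eq_fintype_card, Fintype.card_bool, mul_eq_mul_right_iff, OfNat.ofNat_ne_zero, or_false] at this
  exact this.symm

lemma IsoData.deg_eq (I : IsoData G G' φ ρ) : G'.deg = G.deg := by
  unfold Gr.deg
  rw [I.card_E]
  congr 1
  · congr 1
    exact (finsum_eq_of_bijective φ I.h1 fun v => by rw [I.h4]).symm
  · exact (finsum_eq_of_bijective _ I.bij fun y => by rw [I.hf_snd]).symm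

lemma IsoData.mem_iff (I : IsoData G G' φ ρ) (s : Set V')
    (hs : ∀ e, (G'.hf (inl (e, true))).1 ∈ s ↔ (G'.hf (inl (e, false))).1 ∈ s) (e : E) :
    φ (G.hf (inl (e, true))).1 ∈ s ↔ φ (G.hf (inl (e, false))).1 ∈ s := by
  have h1 := I.hf_fst (inl (e, true))
  have h2 := I.hf_fst (inl (e, false))
  rw [Sum.map_inl] at h1 h2
  rw [← h1, ← h2]
  have h3 := ρ_not I.h2 I.h3 e true
  simp only [Bool.not_true] at h3
  rw [h3]
  have h4 := hs (ρ (e, true)).1
  rcases h5 : ρ (e, true) with ⟨e', b⟩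
  rw [h5] at h4
  cases b
  · exact h4.symm
  · exact h4

lemma IsoData.stab (I : IsoData G G' φ ρ) {g : ℕ} (h : G.Stab g) : G'.Stab g := by
  obtain ⟨h1, h2, h3, h4⟩ := h
  refine ⟨h1.map φ, ?_, ?_, ?_⟩
  · intro s hs
    rcases h2 (φ ⁻¹' s) (fun e => I.mem_iff s hs e) with h | h
    · left
      ext v'
      obtain ⟨v, rfl⟩ := I.h1.2 v'
      have : v ∈ φ ⁻¹' s ↔ v ∈ (∅ : Set V) := by rw [h]
      exact this
    · right
      ext v'
      obtain ⟨v, rfl⟩ := I.h1.2 v'
      have : v ∈ φ ⁻¹' s ↔ v ∈ (Set.univ : Set V) := by rw [h]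
      exact this
  · rw [I.card_V, I.card_E, ← h3]
    congr 2
    exact (finsum_eq_of_bijective φ I.h1 fun v => by rw [I.h4]).symm
  · intro v'
    obtain ⟨v, rfl⟩ := I.h1.2 v'
    rw [I.h4, I.nv_eq]
    exact h4 v

lemma IsoData.sum_at (I : IsoData G G' φ ρ) (v : V) :
    ∑ᶠ (y) (_ : (G'.hf y).1 = φ v), (G'.hf y).2 = ∑ᶠ (y) (_ : (G.hf y).1 = v), (G.hf y).2 := by
  rw [← finsum_subtype_eq_finsum_cond, ← finsum_subtype_eq_finsum_cond,
    ← finsum_comp_equiv (I.equivAt v)]
  exact finsum_congr fun y => I.hf_snd y.1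

lemma finite_prod_bool {E : Type} : Finite (E × Bool) ↔ Finite E := by
  constructor
  · intro h
    exact Finite.of_injective (fun e : E => (e, true)) (fun a b h => by simpa using h)
  · intro h
    infer_instance

lemma IsoData.valid (I : IsoData G G' φ ρ) {g : ℕ} (h : G.Valid g) : G'.Valid g := by
  obtain ⟨hV, hE, hS, hD⟩ := h
  refine ⟨Finite.of_surjective φ I.h1.2, ?_, I.stab hS, ?_⟩
  · rw [← finite_prod_bool] at hE ⊢
    exact Finite.of_surjective ρ I.h2.2
  · intro v'
    obtain ⟨v, rfl⟩ := I.h1.2 v'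
    rw [I.h4, I.nv_eq, I.sum_at]
    exact hD v

lemma Gr.Iso.data (h : G.Iso G') : ∃ φ ρ, IsoData G G' φ ρ := by
  obtain ⟨φ, ρ, h1, h2, h3, h4, h5⟩ := h
  exact ⟨φ, ρ, ⟨h1, h2, h3, h4, h5⟩⟩

lemma IsoData.symm (I : IsoData G G' φ ρ) :
    IsoData G' G (Equiv.ofBijective φ I.h1).symm (Equiv.ofBijective ρ I.h2).symm where
  h1 := Equiv.bijective _
  h2 := Equiv.bijective _
  h3 := by
    intro e'
    rw [← I.ρ_fst_inj]
    rw [Equiv.ofBijective_apply_symm_apply ρ I.h2, Equiv.ofBijective_apply_symm_apply ρ I.h2]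
  h4 := by
    intro v'
    rw [← I.h4, Equiv.ofBijective_apply_symm_apply φ I.h1]
  h5 := by
    intro y'
    obtain ⟨y, rfl⟩ := I.bij.2 y'
    have : Sum.map (Equiv.ofBijective ρ I.h2).symm id (Sum.map ρ id y) = y := by
      rcases y with y | x
      · simp only [Sum.map_inl]
        rw [Equiv.ofBijective_symm_apply_apply]
      · rfl
    rw [this, I.h5]
    refine Prod.ext ?_ rfl
    simp only [Prod.map_fst]
    rw [Equiv.ofBijective_symm_apply_apply]

lemma Gr.Iso.valid_iff (h : G.Iso G') {g : ℕ} : G.Valid g ↔ G'.Valid g := by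
  obtain ⟨φ, ρ, I⟩ := h.data
  exact ⟨I.valid, I.symm.valid⟩

lemma Gr.Iso.stab_iff (h : G.Iso G') {g : ℕ} : G.Stab g ↔ G'.Stab g := by
  obtain ⟨φ, ρ, I⟩ := h.data
  exact ⟨I.stab, I.symm.stab⟩

end Vale.Agent.P273
end
end
end

section

section

noncomputable section
namespace Vale.Agent.P273
open Sum
open scoped Classical

variable {V E L : Type}

lemma Gr.ext' {G G' : Gr V E L} (h1 : ∀ v, G.dec v = G'.dec v) (h2 : ∀ y, G.hf y = G'.hf y) :
    G = G' := by
  cases G; cases G'
  congr
  · funext v; exact h1 v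
  · funext y; exact h2 y

/-- a connected graph has at most one vertex more than edges -/
theorem Gr.Stab.conn_card {G : Gr V E L} {g : ℕ} (h : G.Stab g) [Finite V] [Finite E] :
    Nat.card V ≤ Nat.card E + 1 := by
  obtain ⟨⟨v0⟩, hc, -, -⟩ := h
  have := Fintype.ofFinite V
  have := Fintype.ofFinite E
  let φ : (V → ℚ) →ₗ[ℚ] (E → ℚ) :=
    LinearMap.pi (fun e => (LinearMap.proj (G.hf (inl (e, true))).1 : (V → ℚ) →ₗ[ℚ] ℚ) -
      LinearMap.proj (G.hf (inl (e, false))).1)
  have hφ : ∀ f e, φ f e = f (G.hf (inl (e, true))).1 - f (G.hf (inl (e, false))).1 := by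
    intro f e
    simp only [LinearMap.pi_apply, LinearMap.sub_apply, LinearMap.coe_proj, Function.eval, φ]
  have hker : LinearMap.ker φ ≤ Submodule.span ℚ {(fun _ => 1 : V → ℚ)} := by
    intro f hf
    rw [LinearMap.mem_ker] at hf
    rw [Submodule.mem_span_singleton]
    refine ⟨f v0, ?_⟩
    have h1 := hc {v | f v = f v0} (by
      intro e
      have := congrFun hf e
      rw [hφ] at this
      have h2 : f (G.hf (inl (e, true))).1 = f (G.hf (inl (e, false))).1 := by
        have : f (G.hf (inl (e, true))).1 - f (G.hf (inl (e, false))).1 = 0 := this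
        linarith only [this]
      change f _ = f v0 ↔ f _ = f v0
      rw [h2])
    rcases h1 with h1 | h1
    · exfalso
      have : v0 ∈ ({v | f v = f v0} : Set V) := rfl
      rw [h1] at this
      exact this
    · funext v
      have : v ∈ ({v | f v = f v0} : Set V) := by rw [h1]; trivial
      simp only [Pi.smul_apply, smul_eq_mul, mul_one]
      exact this.symm
  have h1 := LinearMap.finrank_range_add_finrank_ker φ
  have h2 : Module.finrank ℚ (LinearMap.ker φ) ≤ 1 := by
    refine (Submodule.finrank_mono hker).trans ?_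
    have := finrank_span_le_card (R := ℚ) ({(fun _ => 1 : V → ℚ)} : Set (V → ℚ))
    simpa only [ge_iff_le, Set.toFinset_singleton, Finset.card_singleton] using this
  have h3 : Module.finrank ℚ (LinearMap.range φ) ≤ Fintype.card E := by
    have := Submodule.finrank_le (LinearMap.range φ)
    rwa [Module.finrank_fintype_fun_eq_card] at this
  rw [Module.finrank_fintype_fun_eq_card] at h1
  rw [Nat.card_eq_fintype_card, Nat.card_eq_fintype_card]
  omega

theorem Gr.Stab.sum_gen_le {G : Gr V E L} {g : ℕ} (h : G.Stab g) [Finite V] [Finite E] :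
    ∑ᶠ v, (G.dec v).1 ≤ g := by
  have h1 := h.conn_card
  have h2 := h.2.2.1
  omega

theorem Gr.Stab.gen_le {G : Gr V E L} {g : ℕ} (h : G.Stab g) [Finite V] [Finite E] (v : V) :
    (G.dec v).1 ≤ g := by
  refine le_trans ?_ h.sum_gen_le
  have := Fintype.ofFinite V
  rw [finsum_eq_sum_of_fintype]
  exact Finset.single_le_sum (f := fun v => (G.dec v).1) (fun _ _ => Nat.zero_le _)
    (Finset.mem_univ v)

lemma B_zero_zero (ζ : ℚ) : B 0 ζ 0 = 1 := by simp only [B, add_zero, pow_zero, CharP.cast_eq_zero, mul_zero, sub_zero, ne_eq, one_ne_zero, not_false_eq_true, div_self, mul_one, Nat.factorial_zero, Nat.cast_one]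

lemma kapF_of_mem {μ : Multiset ℕ} (h : 0 ∈ μ) (ζ : ℚ) : kapF μ ζ = 0 := by
  unfold kapF
  have : (μ.map fun c => (0 : ℚ) ^ c - B 0 ζ c).prod = 0 := by
    apply Multiset.prod_eq_zero
    rw [Multiset.mem_map]
    exact ⟨0, h, by simp [B_zero_zero]⟩
  rw [this, zero_div]

/-- the support conditions of the weight -/
theorem wt_ne_zero {G : Gr V E L} [Finite V] {γ d : ℕ} {A : L → ℕ} (h : wt G γ A d ≠ 0) :
    G.Stab γ ∧ G.deg = d ∧ ∀ v, 0 ∉ (G.dec v).2 := by
  unfold wt at h
  rw [finsum_eq_if] at h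
  have hs : G.Stab γ ∧ G.deg = d := by
    by_contra hcon
    rw [if_neg hcon] at h
    exact h rfl
  refine ⟨hs.1, hs.2, ?_⟩
  intro v hv
  apply h
  rw [if_pos hs]
  apply finsum_eq_zero_of_forall_eq_zero
  intro ζ
  have : (∏ᶠ v, (cond (ζ v) (1 : ℚ) (-1)) ^ ((G.dec v).1 + 1) *
      kapF (G.dec v).2 (cond (ζ v) (1 : ℚ) (-1))) = 0 := by
    have := Fintype.ofFinite V
    rw [finprod_eq_prod_of_fintype]
    apply Finset.prod_eq_zero (Finset.mem_univ v)
    rw [kapF_of_mem hv, mul_zero]
  simp only [this]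
  simp only [one_div, inv_pow, mul_zero, zero_mul]

lemma finite_multisets (d : ℕ) : {μ : Multiset ℕ | μ.sum ≤ d ∧ 0 ∉ μ}.Finite := by
  have hfin : (Set.Iic (∑ c ∈ Finset.range (d + 1), Multiset.replicate d c)).Finite :=
    Set.finite_Iic _
  apply hfin.subset
  rintro μ ⟨h1, h2⟩
  rw [Set.mem_Iic, Multiset.le_iff_count]
  intro c
  by_cases hc : c ∈ μ
  · have hcle : c ≤ d := (Multiset.single_le_sum (fun _ _ => Nat.zero_le _) c hc).trans h1
    have hc0 : 1 ≤ c := Nat.one_le_iff_ne_zero.mpr (fun h => h2 (h ▸ hc))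
    have hcount : μ.count c ≤ d := by
      have h3 : Multiset.replicate (μ.count c) c ≤ μ := Multiset.le_count_iff_replicate_le.mp le_rfl
      have h4 : (Multiset.replicate (μ.count c) c).sum ≤ μ.sum := by
        obtain ⟨ν, hν⟩ := Multiset.le_iff_exists_add.mp h3
        conv_rhs => rw [hν]
        rw [Multiset.sum_add]
        exact Nat.le_add_right _ _
      rw [Multiset.sum_replicate, smul_eq_mul] at h4
      nlinarith only [h1, hc0, h4]
    refine hcount.trans ?_
    rw [Multiset.count_sum']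
    refine le_trans ?_ (Finset.single_le_sum (f := fun a => Multiset.count c (Multiset.replicate d a))
      (fun _ _ => Nat.zero_le _) (Finset.mem_range.mpr (Nat.lt_succ_of_le hcle)))
    simp
  · rw [Multiset.count_eq_zero_of_notMem hc]
    exact Nat.zero_le _

theorem finite_wt_km [Finite L] (γ d : ℕ) (A : L → ℕ) (k m : ℕ) :
    {G : Gr (Fin k) (Fin m) L | wt G γ A d ≠ 0}.Finite := by
  have h1 : {f : Fin k → ℕ × Multiset ℕ | ∀ v, f v ∈ (Set.Iic γ) ×ˢ
      {μ : Multiset ℕ | μ.sum ≤ d ∧ 0 ∉ μ}}.Finite :=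
    Set.Finite.pi' (fun _ => (Set.finite_Iic γ).prod (finite_multisets d))
  have h2 : {f : (Fin m × Bool) ⊕ L → Fin k × ℕ | ∀ y, f y ∈ (Set.univ : Set (Fin k)) ×ˢ
      (Set.Iic d)}.Finite :=
    Set.Finite.pi' (fun _ => (Set.finite_univ).prod (Set.finite_Iic d))
  have h3 := (h1.prod h2).image (fun p => (⟨p.1, p.2⟩ : Gr (Fin k) (Fin m) L))
  apply h3.subset
  intro G hG
  obtain ⟨hs, hd, h0⟩ := wt_ne_zero hG
  refine ⟨(G.dec, G.hf), ⟨?_, ?_⟩, rfl⟩
  · intro v
    refine ⟨hs.gen_le v, ?_, h0 v⟩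
    change (G.dec v).2.sum ≤ d
    rw [← hd]
    unfold Gr.deg
    rw [finsum_eq_sum_of_fintype]
    have : (G.dec v).2.sum ≤ ∑ v, (G.dec v).2.sum :=
      Finset.single_le_sum (f := fun v => (G.dec v).2.sum) (fun _ _ => Nat.zero_le _)
      (Finset.mem_univ v)
    omega
  · intro y
    refine ⟨trivial, ?_⟩
    change (G.hf y).2 ≤ d
    rw [← hd]
    unfold Gr.deg
    have := Fintype.ofFinite L
    rw [finsum_eq_sum_of_fintype (fun y => (G.hf y).2)]
    have : (G.hf y).2 ≤ ∑ y, (G.hf y).2 :=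
      Finset.single_le_sum (f := fun y => (G.hf y).2) (fun _ _ => Nat.zero_le _)
      (Finset.mem_univ y)
    omega

theorem wt_bound [Finite L] {γ d : ℕ} {A : L → ℕ} {k m : ℕ} {G : Gr (Fin k) (Fin m) L}
    (h : wt G γ A d ≠ 0) : k < d + 2 ∧ m < d + 1 := by
  obtain ⟨hs, hd, h0⟩ := wt_ne_zero h
  have h1 := hs.conn_card
  rw [Nat.card_eq_fintype_card, Nat.card_eq_fintype_card, Fintype.card_fin, Fintype.card_fin] at h1
  unfold Gr.deg at hd
  rw [Nat.card_eq_fintype_card, Fintype.card_fin] at hd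
  omega

/-- the finite set of labelled graphs in a relation -/
def supp [Finite L] (γ : ℕ) (A : L → ℕ) (d : ℕ) : Finset (Σ k m : ℕ, Gr (Fin k) (Fin m) L) :=
  (Finset.range (d + 2)).sigma (fun k => (Finset.range (d + 1)).sigma
    (fun m => (finite_wt_km γ d A k m).toFinset))

theorem not_mem_supp [Finite L] {γ : ℕ} {A : L → ℕ} {d : ℕ} {p : Σ k m : ℕ, Gr (Fin k) (Fin m) L}
    (h : p ∉ supp γ A d) : wt p.2.2 γ A d = 0 := by
  by_contra hne
  apply h
  have hb := wt_bound hne
  rw [supp, Finset.mem_sigma, Finset.mem_sigma]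
  refine ⟨Finset.mem_range.mpr hb.1, Finset.mem_range.mpr hb.2, ?_⟩
  rw [Set.Finite.mem_toFinset]
  exact hne

/-- A general finite sum formula -/
theorem finsum_supp [Finite L] {M : Type*} [AddCommMonoid M] (γ d : ℕ) (A : L → ℕ)
    (f : ∀ k m : ℕ, Gr (Fin k) (Fin m) L → M)
    (hf : ∀ k m G, wt G γ A d = 0 → f k m G = 0) :
    ∑ᶠ (k : ℕ) (m : ℕ) (G : Gr (Fin k) (Fin m) L), f k m G =
      ∑ p ∈ supp γ A d, f p.1 p.2.1 p.2.2 := by
  rw [supp, Finset.sum_sigma]
  have h1 : ∀ k m, ∑ᶠ (G : Gr (Fin k) (Fin m) L), f k m G =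
      ∑ G ∈ (finite_wt_km γ d A k m).toFinset, f k m G := by
    intro k m
    apply finsum_eq_sum_of_support_subset
    intro G hG
    rw [Set.Finite.coe_toFinset]
    intro h0
    exact hG (hf k m G h0)
  have h2 : ∀ k, ∑ᶠ (m : ℕ) (G : Gr (Fin k) (Fin m) L), f k m G =
      ∑ m ∈ Finset.range (d + 1), ∑ G ∈ (finite_wt_km γ d A k m).toFinset, f k m G := by
    intro k
    rw [finsum_eq_sum_of_support_subset]
    · apply Finset.sum_congr rfl
      intro m _
      exact h1 k m
    · intro m hm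
      rw [Finset.coe_range, Set.mem_Iio]
      by_contra hcon
      apply hm
      apply finsum_eq_zero_of_forall_eq_zero
      intro G
      apply hf
      by_contra hne
      exact hcon (wt_bound hne).2
  rw [finsum_eq_sum_of_support_subset]
  · apply Finset.sum_congr rfl
    intro k _
    rw [h2 k, Finset.sum_sigma]
  · intro k hk
    rw [Finset.coe_range, Set.mem_Iio]
    by_contra hcon
    apply hk
    apply finsum_eq_zero_of_forall_eq_zero
    intro m
    apply finsum_eq_zero_of_forall_eq_zero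
    intro G
    apply hf
    by_contra hne
    exact hcon (wt_bound hne).1

/-- the relation as a finite sum -/
theorem Env.pix_eq_sum [Finite L] {R T N : Type} (Q : Env R T L N) (γ : ℕ) (A : L → ℕ) (d : ℕ) :
    Q.pix γ A d = ∑ p ∈ supp γ A d, dl (Q.graft p.2.2)
      (wt p.2.2 γ A d / (p.1.factorial * p.2.1.factorial * 2 ^ p.2.1)) := by
  unfold Env.pix
  apply finsum_supp γ d A (fun k m G => dl (Q.graft G)
      (wt G γ A d / (k.factorial * m.factorial * 2 ^ m)))
  intro k m G h
  rw [h, zero_div]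
  unfold dl
  exact Finsupp.single_zero _

end Vale.Agent.P273
end
end
end

section

section

noncomputable section

namespace Vale.Agent.P273

open Sum
open scoped Classical

variable {V E L L' N V' E' : Type}

lemma IsTail.cut_fst {G : Gr V E L} {h : ℕ} {y : E × Bool} (ht : IsTail G h y)
    (z : ({e // e ≠ y.1} × Bool) ⊕ Option L) :
    (ht.cut.hf z).1.1 = (G.hf (emb y.1 y.2 id z)).1 := rfl

lemma IsTail.cut_snd_none {G : Gr V E L} {h : ℕ} {y : E × Bool} (ht : IsTail G h y) :
    (ht.cut.hf (inr none)).2 = (G.hf (emb y.1 y.2 id (inr none))).2 + (G.hf (inl y)).2 := by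
  unfold IsTail.cut Gr.cut
  simp only [if_true]

lemma IsTail.cut_snd_ne {G : Gr V E L} {h : ℕ} {y : E × Bool} (ht : IsTail G h y)
    {z : ({e // e ≠ y.1} × Bool) ⊕ Option L} (hz : z ≠ inr none) :
    (ht.cut.hf z).2 = (G.hf (emb y.1 y.2 id z)).2 := by
  unfold IsTail.cut Gr.cut
  simp only [if_neg hz, add_zero]

/-- The half-edge of the new vertex. -/
def y0 (E : Type) : Option E × Bool := (none, true)

lemma Gr.Valid.gen_le {G : Gr V E L} {g : ℕ} (h : G.Valid g) (v : V) :
    (G.dec v).1 ≤ g := by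
  obtain ⟨h1, h2, h3, _⟩ := h
  exact h3.gen_le v

lemma isTail_tail (G : Gr V E (Option L)) (h : ℕ) : IsTail (G.tail h) h (y0 E) where
  gen := rfl
  kap := by
    intro k hk
    change k ∈ (0 : Multiset ℕ) at hk
    simp at hk
  only := by
    rintro (⟨_ | e, _ | _⟩ | x) hz
    · have hz' : (some (G.hf (inr none)).1 : Option V) = none := hz
      simp at hz'
    · rfl
    · have hz' : (some (G.hf (inl (e, false))).1 : Option V) = none := hz
      simp at hz'
    · have hz' : (some (G.hf (inl (e, true))).1 : Option V) = none := hz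
      simp at hz'
    · have hz' : (some (G.hf (inr (some x))).1 : Option V) = none := hz
      simp at hz'
  le := Nat.zero_le _

lemma iso_cut_tail (G : Gr V E (Option L)) (h : ℕ) : G.Iso (isTail_tail G h).cut := by
  refine ⟨fun v => ⟨some v, Option.some_ne_none v⟩, fun y => (⟨some y.1, Option.some_ne_none _⟩, y.2),
    ⟨?_, ?_⟩, ⟨?_, ?_⟩, ?_, ?_, ?_⟩
  · intro a b hab
    have := congrArg Subtype.val hab
    simpa using this
  · rintro ⟨v, hv⟩
    have hv' : v ≠ none := hv
    obtain ⟨v, rfl⟩ := Option.ne_none_iff_exists'.1 hv'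
    exact ⟨v, rfl⟩
  · rintro ⟨a, s⟩ ⟨b, t⟩ hab
    have h1 := congrArg Subtype.val (congrArg Prod.fst hab)
    have h2 := congrArg Prod.snd hab
    simp only [Option.some.injEq] at h1
    exact Prod.ext h1 h2
  · rintro ⟨⟨e, he⟩, s⟩
    have he' : e ≠ none := he
    obtain ⟨e, rfl⟩ := Option.ne_none_iff_exists'.1 he'
    exact ⟨(e, s), rfl⟩
  · intro e
    rfl
  · intro v
    rfl
  · rintro (⟨e, s⟩ | (_ | x))
    · rfl
    · rfl
    · rfl

lemma gen_ne_of_tail {g h : ℕ} (hgh : g < h) {G : Gr V E (Option L)} (hG : G.Valid g)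
    {y : Option E × Bool} (ht : IsTail (G.tail h) h y) : y = y0 E := by
  have key : ∀ v : V, (G.dec v).1 ≠ h := by
    intro v
    have := hG.gen_le v
    omega
  rcases y with ⟨_ | e, _ | _⟩
  · exact absurd ht.gen (key (G.hf (inr none)).1)
  · rfl
  · exact absurd ht.gen (key (G.hf (inl (e, false))).1)
  · exact absurd ht.gen (key (G.hf (inl (e, true))).1)

lemma IsTail.cut_valid {g h : ℕ} (hh : 1 ≤ h) {G : Gr V E L} {y : E × Bool} (ht : IsTail G h y)
    (h0 : (G.hf (inl y)).2 = 0) (H : G.Valid (g + h)) : ht.cut.Valid g := by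
  obtain ⟨hV, hE, hS, hD⟩ := H
  have C := ht.cutData
  refine ⟨inferInstance, inferInstance, (C.stab_iff ht.gen hh ht.nv_eq_one.ge).2 hS, ?_⟩
  intro v
  have h1 : ht.cut.nv v = G.nv v.1 := C.nv_eq v
  have h2 := hD v.1
  have h3 : ∑ᶠ (z) (_ : (ht.cut.hf z).1 = v), (ht.cut.hf z).2 =
      ∑ᶠ (z) (_ : (G.hf z).1 = v.1), (G.hf z).2 := by
    rw [← finsum_subtype_eq_finsum_cond, ← finsum_subtype_eq_finsum_cond,
      ← finsum_comp_equiv (C.equivAt v)]
    apply finsum_congr
    rintro ⟨x, hx⟩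
    have : ht.cut.hf x = (⟨(G.hf (emb y.1 y.2 id x)).1, C.hne x⟩, (G.hf (emb y.1 y.2 id x)).2 +
      if x = inr none then (G.hf (inl y)).2 else 0) := rfl
    simp only [this, h0]
    simp only [ne_eq, ite_self, add_zero]
    rfl
  rw [h1, h3]
  exact h2

lemma valid_of_tail {g h : ℕ} (hh : 1 ≤ h) {G : Gr V E (Option L)}
    (H : (G.tail h).Valid (g + h)) : G.Valid g :=
  (iso_cut_tail G h).valid_iff.2 ((isTail_tail G h).cut_valid hh rfl H)

lemma lamG_tail {g h : ℕ} (hh : 1 ≤ h) (hgh : g < h) (G : Gr V E (Option L)) :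
    lamG g h (G.tail h) = - mk g (Option L) (dl G 1) := by
  by_cases hG : G.Valid g
  · rw [lamG, finsum_eq_single _ (y0 E), term_of (isTail_tail G h)]
    · rw [← mk_iso (iso_cut_tail G h)]
      have : Multiset.card ((G.tail h).dec ((G.tail h).hf (inl (y0 E))).1).2 = 0 := rfl
      rw [this, zfac_zero, one_smul]
    · intro y hy
      exact term_not fun ht => hy (gen_ne_of_tail hgh hG ht)
  · rw [mk_invalid hG, neg_zero]
    exact lamG_invalid hh fun H => hG (valid_of_tail hh H)

lemma lam_tail {g h : ℕ} (hh : 1 ≤ h) (hgh : g < h) (x : F (Option L)) :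
    lam g h L (x.sum fun D => dl (D.G.tail h)) = - mk g (Option L) x := by
  have : x = x.sum fun D c => dl D.G c := by
    unfold dl
    exact (Finsupp.sum_single x).symm
  conv_rhs => rw [this]
  rw [Finsupp.sum, Finsupp.sum, map_sum, map_sum, ← Finset.sum_neg_distrib]
  refine Finset.sum_congr rfl fun D _ => ?_
  rw [lam_dl, lamG_tail hh hgh, smul_neg, ← map_smul, smul_dl, mul_one]

end Vale.Agent.P273
end
end
end

section

section

noncomputable section
namespace Vale.Agent.P273
open Sum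
open scoped Classical

variable {V E L N : Type}

/-- Turn the leg `none` with exponent `c` into the kappa index `c` at its vertex
(the pushforward of `ψ` times the class). -/
def Gr.pushG (G : Gr V E (Option L)) : Gr V E L :=
  ⟨Function.update G.dec (G.hf (inr none)).1 ((G.dec (G.hf (inr none)).1).1,
    (G.hf (inr none)).2 ::ₘ (G.dec (G.hf (inr none)).1).2),
   Sum.elim (fun y => G.hf (inl y)) (fun x => G.hf (inr (some x)))⟩

lemma Gr.pushG_dec_fst (G : Gr V E (Option L)) (v : V) : (G.pushG.dec v).1 = (G.dec v).1 := by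
  unfold Gr.pushG
  by_cases h : v = (G.hf (inr none)).1
  · subst h; simp
  · simp [Function.update_of_ne h]

lemma Gr.pushG_dec_self (G : Gr V E (Option L)) {v : V} (h : (G.hf (inr none)).1 = v) :
    G.pushG.dec v = ((G.dec v).1, (G.hf (inr none)).2 ::ₘ (G.dec v).2) := by
  subst h; simp [Gr.pushG]

lemma Gr.pushG_dec_ne (G : Gr V E (Option L)) {v : V} (h : (G.hf (inr none)).1 ≠ v) :
    G.pushG.dec v = G.dec v := by
  simp [Gr.pushG, Function.update_of_ne (Ne.symm h)]

/-- flags of the new graph -/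
def optEquiv (E L : Type) : Option ((E × Bool) ⊕ L) ≃ (E × Bool) ⊕ Option L where
  toFun := fun y => y.elim (inr none) (Sum.elim inl (fun x => inr (some x)))
  invFun := Sum.elim (fun e => some (inl e)) (fun x => x.elim none (fun x => some (inr x)))
  left_inv := by rintro (_ | _ | _) <;> rfl
  right_inv := by rintro (_ | _ | _) <;> rfl

lemma Gr.pushG_hf (G : Gr V E (Option L)) (y : (E × Bool) ⊕ L) :
    G.pushG.hf y = G.hf (optEquiv E L (some y)) := by
  rcases y with e | x <;> rfl

lemma finsum_flags {M : Type*} [AddCommMonoid M] [Finite E] [Finite L]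
    (f : (E × Bool) ⊕ Option L → M) :
    ∑ᶠ y, f y = f (inr none) + ∑ᶠ y, f (optEquiv E L (some y)) := by
  have := Fintype.ofFinite E
  have := Fintype.ofFinite L
  rw [← finsum_comp_equiv (optEquiv E L), finsum_eq_sum_of_fintype, finsum_eq_sum_of_fintype,
    Fintype.sum_option]
  rfl

lemma nv_eq_finsum [Finite E] [Finite L] (G : Gr V E L) (v : V) :
    G.nv v = ∑ᶠ y, if (G.hf y).1 = v then 1 else 0 := by
  have := Fintype.ofFinite E
  have := Fintype.ofFinite L
  rw [finsum_eq_sum_of_fintype, Gr.nv, Nat.card_eq_fintype_card, Fintype.card_subtype,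
    Finset.card_filter]

lemma Gr.nv_pushG [Finite E] [Finite L] (G : Gr V E (Option L)) (v : V) :
    G.nv v = G.pushG.nv v + if (G.hf (inr none)).1 = v then 1 else 0 := by
  rw [nv_eq_finsum, nv_eq_finsum, finsum_flags, add_comm]
  simp_rw [Gr.pushG_hf]

lemma psi_eq_finsum (G : Gr V E L) (v : V) :
    ∑ᶠ (y) (_ : (G.hf y).1 = v), (G.hf y).2 = ∑ᶠ y, if (G.hf y).1 = v then (G.hf y).2 else 0 := by
  apply finsum_congr
  intro y
  rw [finsum_eq_if]

lemma Gr.pushG_sum (G : Gr V E (Option L)) (v : V) :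
    (G.pushG.dec v).2.sum = (G.dec v).2.sum +
      if (G.hf (inr none)).1 = v then (G.hf (inr none)).2 else 0 := by
  unfold Gr.pushG
  by_cases h : v = (G.hf (inr none)).1
  · subst h; simp only [Function.update_self, Multiset.sum_cons, ↓reduceIte, add_comm, Nat.add_left_cancel_iff]
  · rw [if_neg (Ne.symm h)]
    simp [Function.update_of_ne h]

lemma Gr.Valid.of_pushG [Finite L] {G : Gr V E (Option L)} {g : ℕ} (h : G.pushG.Valid g) :
    G.Valid g := by
  obtain ⟨hV, hE, ⟨h1, h2, h3, h4⟩, h5⟩ := h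
  refine ⟨hV, hE, ⟨h1, ?_, ?_, ?_⟩, ?_⟩
  · exact h2
  · rw [← h3]
    congr 2
    apply finsum_congr
    intro v
    rw [Gr.pushG_dec_fst]
  · intro v
    have := h4 v
    rw [Gr.pushG_dec_fst] at this
    have h6 := G.nv_pushG v
    omega
  · intro v
    have := h5 v
    rw [Gr.pushG_dec_fst, psi_eq_finsum, Gr.pushG_sum] at this
    simp_rw [Gr.pushG_hf] at this
    rw [psi_eq_finsum, finsum_flags]
    have h6 := G.nv_pushG v
    split_ifs at this h6 ⊢ with h7 <;> (clear * - this h6; omega)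

/-- linear extension of `pushG` -/
def pushF (L : Type) : F (Option L) →ₗ[ℚ] F L := lift (fun D => dl D.G.pushG 1)

lemma pushF_dl (G : Gr V E (Option L)) (c : ℚ) : pushF L (dl G c) = dl G.pushG c := by
  rw [pushF, lift_dl, smul_dl, mul_one]

lemma Isub_of_not_valid {g : ℕ} {G : Gr V E L} (h : ¬ G.Valid g) (c : ℚ) :
    dl G c ∈ Isub g L := by
  rw [← mk_eq_zero, mk_invalid h]

lemma pushF_Triv [Finite L] {g : ℕ} {x : F (Option L)} (h : Triv g x) : pushF L x ∈ Isub g L := by
  induction h with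
  | iso G G' φ ρ h1 h2 h3 h4 h5 =>
    rw [map_add, pushF_dl, pushF_dl]
    apply Submodule.subset_span
    have h6 := h5 (inr none)
    change G'.hf (inr none) = (G.hf (inr none)).map φ id at h6
    apply Triv.iso _ _ φ ρ h1 h2 h3
    · intro v
      unfold Gr.pushG
      dsimp only
      rw [h6]
      simp only [Prod.map_fst, Prod.map_snd, id]
      by_cases hv : v = (G.hf (inr none)).1
      · subst hv
        simp [h4]
      · rw [Function.update_of_ne hv, Function.update_of_ne (fun h => hv (h1.1 h)), h4]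
    · rintro (y | x)
      · exact h5 (inl y)
      · exact h5 (inr (some x))
  | zero G hG =>
    rw [pushF_dl]
    apply Isub_of_not_valid
    exact fun h => hG h.of_pushG
  | dilaton G v =>
    rename_i V E
    by_cases hE : Finite E
    · rw [map_add, pushF_dl, pushF_dl]
      have h1 : (⟨Function.update G.dec v ((G.dec v).1, 0 ::ₘ (G.dec v).2), G.hf⟩ :
          Gr V E (Option L)).pushG =
          ⟨Function.update G.pushG.dec v ((G.pushG.dec v).1, 0 ::ₘ (G.pushG.dec v).2),
            G.pushG.hf⟩ := by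
        unfold Gr.pushG
        dsimp only
        congr 1
        funext u
        by_cases hv : v = (G.hf (inr none)).1
        · subst hv
          by_cases hu : u = (G.hf (inr none)).1
          · subst hu
            simp [Multiset.cons_swap]
          · simp only [Function.update_self, Function.update_of_ne hu]
        · rw [Function.update_of_ne (Ne.symm hv)]
          by_cases hu : u = (G.hf (inr none)).1
          · subst hu
            rw [Function.update_of_ne (Ne.symm hv)]
            simp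
          · rw [Function.update_of_ne hu]
            by_cases hu' : u = v
            · subst hu'
              simp [Function.update_of_ne hv]
            · rw [Function.update_of_ne hu', Function.update_of_ne hu', Function.update_of_ne hu]
      have h2 : (2 - 2 * ((G.dec v).1 : ℚ) - G.nv v - (G.dec v).2.card) =
          2 - 2 * ((G.pushG.dec v).1 : ℚ) - G.pushG.nv v - (G.pushG.dec v).2.card := by
        rw [Gr.pushG_dec_fst, G.nv_pushG v]
        by_cases hv : v = (G.hf (inr none)).1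
        · subst hv
          simp only [if_true, Gr.pushG]
          simp only [Nat.cast_add, Nat.cast_one, Function.update_self, Multiset.card_cons]
          ring
        · rw [if_neg (Ne.symm hv)]
          simp only [Gr.pushG, add_zero, Function.update_of_ne hv]
      rw [h1, h2]
      exact Submodule.subset_span (Triv.dilaton G.pushG v)
    · rw [map_add, pushF_dl, pushF_dl]
      apply Submodule.add_mem
      · exact Isub_of_not_valid (fun h => hE h.2.1) _
      · exact Isub_of_not_valid (fun h => hE h.2.1) _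

/-! ### the relations -/

/-- the environment after forgetting the leg `none` -/
def Env.pushE {R T L N : Type} (Q : Env R T L (Option N)) : Env R T L N :=
  ⟨(Q.use (inr none)).elim (fun _ => Q.dec)
    (fun p => Function.update Q.dec p.1 ((Q.dec p.1).1, p.2 ::ₘ (Q.dec p.1).2)),
   fun y => Q.use (optEquiv T N (some y)), Q.b⟩

section

variable {R T : Type}

/-- contribution of the unused legs -/
def Env.unused (Q : Env R T L N) (G : Gr V E L) (v : V) : Multiset ℕ :=
  ∑ᶠ (x) (_ : inl x ∉ Set.range Q.use ∧ (G.hf (inr x)).1 = v), {(G.hf (inr x)).2 + Q.b x}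

lemma Env.graft_dec_inl (Q : Env R T L N) (G : Gr V E L) (v : V) :
    (Q.graft G).dec (inl v) = ((G.dec v).1, (G.dec v).2 + Q.unused G v) := rfl

lemma Env.graft_dec_inr (Q : Env R T L N) (G : Gr V E L) (r : R) :
    (Q.graft G).dec (inr r) = Q.dec r := rfl

lemma Env.graft_hf_inl (Q : Env R T L N) (G : Gr V E L) (e : E) (s : Bool) :
    (Q.graft G).hf (inl (inl e, s)) = (inl (G.hf (inl (e, s))).1, (G.hf (inl (e, s))).2) := rfl

/-- the part of the half-edge function coming from the environment -/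
def Env.usehf (Q : Env R T L N) (G : Gr V E L) (y : (T × Bool) ⊕ N) : (V ⊕ R) × ℕ :=
  (Q.use y).elim (fun x => (inl (G.hf (inr x)).1, (G.hf (inr x)).2 + Q.b x))
    (fun p => (inr p.1, p.2))

lemma Env.graft_hf_inr (Q : Env R T L N) (G : Gr V E L) (t : T) (s : Bool) :
    (Q.graft G).hf (inl (inr t, s)) = Q.usehf G (inl (t, s)) := rfl

lemma Env.graft_hf_leg (Q : Env R T L N) (G : Gr V E L) (i : N) :
    (Q.graft G).hf (inr i) = Q.usehf G (inr i) := rfl

lemma Env.usehf_inl {Q : Env R T L N} {y : (T × Bool) ⊕ N} {x : L} (h : Q.use y = inl x)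
    (G : Gr V E L) : Q.usehf G y = (inl (G.hf (inr x)).1, (G.hf (inr x)).2 + Q.b x) := by
  unfold Env.usehf
  rw [h]
  rfl

lemma Env.usehf_inr {Q : Env R T L N} {y : (T × Bool) ⊕ N} {p : R × ℕ} (h : Q.use y = inr p)
    (G : Gr V E L) : Q.usehf G y = (inr p.1, p.2) := by
  unfold Env.usehf
  rw [h]
  rfl

end

lemma Env.unused_pushE_inl {R T L N : Type} [Finite L] (Q : Env R T L (Option N))
    (hQ : ∀ y z x, Q.use y = inl x → Q.use z = inl x → y = z) (G : Gr V E L)
    {x0 : L} (hn : Q.use (inr none) = inl x0) (v : V) :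
    Q.pushE.unused G v = (if (G.hf (inr x0)).1 = v then {(G.hf (inr x0)).2 + Q.b x0} else 0) +
      Q.unused G v := by
  have hrange : ∀ x, inl x ∉ Set.range Q.pushE.use ↔
      (inl x ∉ Set.range Q.use ∨ x = x0) := by
    intro x
    constructor
    · intro h
      by_contra hcon
      push Not at hcon
      obtain ⟨⟨y, hy⟩, hne⟩ := hcon
      apply h
      obtain ⟨y', rfl⟩ := (optEquiv T N).surjective y
      rcases y' with _ | y'
      · exfalso
        change Q.use (inr none) = inl x at hy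
        rw [hn] at hy
        exact hne (inl.inj hy).symm
      · exact ⟨y', hy⟩
    · rintro (h | h) ⟨y, hy⟩
      · exact h ⟨_, hy⟩
      · subst h
        have := hQ _ _ _ hy hn
        have h2 : optEquiv T N (some y) = optEquiv T N none := this
        exact absurd ((optEquiv T N).injective h2) (by simp)
  have hx0 : inl x0 ∈ Set.range Q.use := ⟨_, hn⟩
  have := Fintype.ofFinite L
  have hb : Q.pushE.b = Q.b := rfl
  unfold Env.unused
  simp_rw [finsum_eq_if, hb]
  rw [finsum_eq_sum_of_fintype, finsum_eq_sum_of_fintype,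
    ← Finset.add_sum_erase _ _ (Finset.mem_univ x0),
    ← Finset.add_sum_erase (a := x0) (f := fun x => if inl x ∉ Set.range Q.use ∧
      (G.hf (inr x)).1 = v then ({(G.hf (inr x)).2 + Q.b x} : Multiset ℕ) else 0)
      _ (Finset.mem_univ x0)]
  have e1 : (if inl x0 ∉ Set.range Q.use ∧ (G.hf (inr x0)).1 = v then
      ({(G.hf (inr x0)).2 + Q.b x0} : Multiset ℕ) else 0) = 0 := if_neg (fun h => h.1 hx0)
  rw [e1, zero_add]
  congr 1
  · apply if_congr _ rfl rfl
    rw [hrange]
    (clear * - hx0; tauto)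
  · apply Finset.sum_congr rfl
    intro x hx
    apply if_congr _ rfl rfl
    rw [hrange]
    have := Finset.ne_of_mem_erase hx
    (clear * - this; tauto)

lemma Env.unused_pushE_inr {R T L N : Type} (Q : Env R T L (Option N))
    (G : Gr V E L) {p : R × ℕ} (hn : Q.use (inr none) = inr p) (v : V) :
    Q.pushE.unused G v = Q.unused G v := by
  have hrange : ∀ x, inl x ∉ Set.range Q.pushE.use ↔ inl x ∉ Set.range Q.use := by
    intro x
    constructor
    · rintro h ⟨y, hy⟩
      apply h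
      obtain ⟨y', rfl⟩ := (optEquiv T N).surjective y
      rcases y' with _ | y'
      · exfalso
        change Q.use (inr none) = inl x at hy
        rw [hn] at hy
        exact absurd hy (by simp)
      · exact ⟨y', hy⟩
    · rintro h ⟨y, hy⟩
      exact h ⟨_, hy⟩
  have hb : Q.pushE.b = Q.b := rfl
  unfold Env.unused
  simp_rw [hrange, hb]

lemma Env.pushG_graft {R T L N : Type} [Finite L] (Q : Env R T L (Option N))
    (hQ : ∀ y z x, Q.use y = inl x → Q.use z = inl x → y = z) (G : Gr V E L) :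
    (Q.graft G).pushG = Q.pushE.graft G := by
  have hhf : (Q.graft G).pushG.hf = (Q.pushE.graft G).hf := by
    funext y
    rw [Gr.pushG_hf]
    rcases y with ⟨e | t, s⟩ | x <;> rfl
  have hdec : (Q.graft G).pushG.dec = (Q.pushE.graft G).dec := by
    funext w
    rcases hn : Q.use (inr none) with x0 | p
    · have e1 : (Q.graft G).hf (inr none) = (inl (G.hf (inr x0)).1, (G.hf (inr x0)).2 + Q.b x0) := by
        rw [Env.graft_hf_leg, Env.usehf_inl hn]
      rcases w with v | r
      · by_cases hv : (G.hf (inr x0)).1 = v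
        · rw [Gr.pushG_dec_self _ (by rw [e1, hv]), Env.graft_dec_inl, Env.graft_dec_inl,
            Q.unused_pushE_inl hQ G hn, if_pos hv, e1, Multiset.singleton_add, Multiset.add_cons]
        · rw [Gr.pushG_dec_ne _ (by rw [e1]; simpa using hv), Env.graft_dec_inl,
            Env.graft_dec_inl, Q.unused_pushE_inl hQ G hn, if_neg hv, zero_add]
      · rw [Gr.pushG_dec_ne _ (by rw [e1]; simp), Env.graft_dec_inr, Env.graft_dec_inr]
        simp only [Env.pushE, hn, Sum.elim_inl]
    · have e1 : (Q.graft G).hf (inr none) = (inr p.1, p.2) := by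
        rw [Env.graft_hf_leg, Env.usehf_inr hn]
      rcases w with v | r
      · rw [Gr.pushG_dec_ne _ (by rw [e1]; simp), Env.graft_dec_inl,
            Env.graft_dec_inl, Q.unused_pushE_inr G hn]
      · by_cases hr : p.1 = r
        · subst hr
          rw [Gr.pushG_dec_self _ (by rw [e1]), Env.graft_dec_inr, Env.graft_dec_inr, e1]
          simp only [Env.pushE, hn, Sum.elim_inr]
          rw [Function.update_self]
        · rw [Gr.pushG_dec_ne _ (by rw [e1]; simpa using hr), Env.graft_dec_inr,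
            Env.graft_dec_inr]
          simp only [Env.pushE, hn, Sum.elim_inr]
          rw [Function.update_of_ne (Ne.symm hr)]
  calc (Q.graft G).pushG = ⟨(Q.graft G).pushG.dec, (Q.graft G).pushG.hf⟩ := rfl
    _ = ⟨(Q.pushE.graft G).dec, (Q.pushE.graft G).hf⟩ := by rw [hhf, hdec]
    _ = Q.pushE.graft G := rfl

lemma pushF_pix {R T L N : Type} [Finite L] (Q : Env R T L (Option N))
    (hQ : ∀ y z x, Q.use y = inl x → Q.use z = inl x → y = z) (γ : ℕ) (A : L → ℕ) (d : ℕ) :
    pushF N (Q.pix γ A d) = Q.pushE.pix γ A d := by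
  rw [Env.pix_eq_sum, Env.pix_eq_sum, map_sum]
  apply Finset.sum_congr rfl
  intro p _
  rw [pushF_dl, Q.pushG_graft hQ]

theorem P_pushF {g : ℕ} [Finite N] {x : F (Option N)} (h : P g x) : P g (pushF N x) := by
  induction h with
  | triv x hx => exact Isub_le_Psub g N (pushF_Triv hx)
  | @pix R T L Q γ d A hR hT hL hQ hA hd =>
    rw [pushF_pix Q hQ]
    apply P.pix Q.pushE γ d A hR hT hL _ hA hd
    intro y z x hy hz
    have := hQ _ _ _ hy hz
    exact Option.some.inj ((optEquiv T N).injective this)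
  | lin x y c _ _ ihx ihy =>
    rw [map_add, map_smul]
    exact P.lin _ _ c ihx ihy

end Vale.Agent.P273
end
end
end

section

section

noncomputable section
namespace Vale.Agent.P273
open Sum
open scoped Classical

variable {V E L N : Type}

lemma addLeg_hf_none (G : Gr V E L) (v : V) (K : Multiset ℕ) (c : ℕ) :
    (G.addLeg v K c).hf (inr none) = (v, c) := rfl

lemma addLeg_dec_self (G : Gr V E L) (v : V) (K : Multiset ℕ) (c : ℕ) :
    (G.addLeg v K c).dec v = ((G.dec v).1, K) := by
  simp [Gr.addLeg]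

lemma addLeg_dec_ne (G : Gr V E L) {v w : V} (h : w ≠ v) (K : Multiset ℕ) (c : ℕ) :
    (G.addLeg v K c).dec w = G.dec w := by
  simp [Gr.addLeg, Function.update_of_ne h]

lemma pushG_addLeg (G : Gr V E L) (v : V) (K : Multiset ℕ) (c : ℕ) :
    (G.addLeg v K c).pushG = G.upd v (c ::ₘ K) := by
  apply Gr.ext'
  · intro w
    by_cases h : w = v
    · subst h
      rw [Gr.pushG_dec_self _ (by rw [addLeg_hf_none]), addLeg_dec_self, addLeg_hf_none]
      simp [Gr.upd]
    · rw [Gr.pushG_dec_ne _ (by rw [addLeg_hf_none]; exact fun h' => h h'.symm),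
        addLeg_dec_ne G h]
      simp [Gr.upd, Function.update_of_ne h]
  · rintro (y | x) <;> rfl

lemma upd_self (G : Gr V E L) (v : V) : G.upd v (G.dec v).2 = G := by
  apply Gr.ext'
  · intro w
    unfold Gr.upd
    simp
  · intro y; rfl

/-- the vertex of genus 0 and valence 2 in the pushforward of a bubble -/
lemma bubble_not_valid {g : ℕ} (G : Gr V E L) (z : (E × Bool) ⊕ L) :
    ¬ (G.bubble z).pushG.Valid g := by
  intro h
  have h1 := h.2.2.1.2.2.2 none
  rw [Gr.pushG_dec_fst] at h1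
  have h2 : ((G.bubble z).dec none).1 = 0 := rfl
  rw [h2] at h1
  -- the flags at the new vertex
  have h3 : ∀ y, ((G.bubble z).pushG.hf y).1 = none → y = inl (none, true) ∨
      y = z.map (fun p => (some p.1, p.2)) id := by
    intro y hy
    rcases y with ⟨_ | e, s⟩ | x
    · cases s
      · exfalso
        have : ((G.bubble z).pushG.hf (inl (none, false))).1 = some (G.hf z).1 := rfl
        rw [this] at hy
        exact absurd hy (by simp)
      · left; rfl
    · right
      have : ((G.bubble z).pushG.hf (inl (some e, s))) =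
        Function.update (fun y => (some (G.hf y).1, (G.hf y).2)) z (none, 0) (inl (e, s)) := rfl
      rw [this] at hy
      by_cases hz : inl (e, s) = z
      · rw [← hz]; rfl
      · rw [Function.update_of_ne hz] at hy
        exact absurd hy (by simp)
    · right
      have : ((G.bubble z).pushG.hf (inr x)) =
        Function.update (fun y => (some (G.hf y).1, (G.hf y).2)) z (none, 0) (inr x) := rfl
      rw [this] at hy
      by_cases hz : inr x = z
      · rw [← hz]; rfl
      · rw [Function.update_of_ne hz] at hy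
        exact absurd hy (by simp)
  have h4 : (G.bubble z).pushG.nv none ≤ 2 := by
    unfold Gr.nv
    have h5 : {y | ((G.bubble z).pushG.hf y).1 = none} ⊆
        {inl (none, true), z.map (fun p => (some p.1, p.2)) id} := h3
    have h6 := Set.ncard_le_ncard h5 (Set.toFinite _)
    refine le_trans ?_ (h6.trans ?_)
    · rw [← Nat.card_coe_set_eq]
      rfl
    · refine (Set.ncard_insert_le _ _).trans ?_
      rw [Set.ncard_singleton]
  omega

lemma Gr.Stab.sum_chi [Finite L] {G : Gr V E L} {g : ℕ} [Fintype V] (hE : Finite E)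
    (h : G.Stab g) : ∑ v, (2 * ((G.dec v).1 : ℚ) - 2 + G.nv v) = 2 * g - 2 + Nat.card L := by
  have h3 := h.2.2.1
  have := Fintype.ofFinite E
  have := Fintype.ofFinite L
  rw [finsum_eq_sum_of_fintype, Nat.card_eq_fintype_card, Nat.card_eq_fintype_card] at h3
  have h4 : ∑ v, G.nv v = 2 * Fintype.card E + Fintype.card L := by
    have : ∀ v, G.nv v = ∑ y : (E × Bool) ⊕ L, if (G.hf y).1 = v then 1 else 0 := by
      intro v
      rw [nv_eq_finsum, finsum_eq_sum_of_fintype]
    simp_rw [this]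
    rw [Finset.sum_comm]
    simp only [Finset.sum_ite_eq, Finset.mem_univ, if_true, Finset.sum_const, Finset.card_univ,
      smul_eq_mul, mul_one, Fintype.card_sum, Fintype.card_prod, Fintype.card_bool]
    ring
  rw [Finset.sum_add_distrib, Finset.sum_sub_distrib, ← Finset.mul_sum]
  have h5 : (∑ v, (G.nv v : ℚ)) = 2 * Fintype.card E + Fintype.card L := by
    exact_mod_cast h4
  have h6 : (∑ v, ((G.dec v).1 : ℚ)) + Fintype.card E + 1 = g + Fintype.card V := by
    exact_mod_cast h3
  rw [h5, Nat.card_eq_fintype_card]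
  simp only [Finset.sum_const, Finset.card_univ, nsmul_eq_mul]
  linarith only [h6]

lemma pushF_pull [Finite L] (g : ℕ) (G : Gr V E L) (c : ℚ) :
    pushF L (pull g G c) - (2 * (g : ℚ) - 2 + Nat.card L) • dl G c ∈ Isub g L := by
  by_cases hG : G.Valid g
  · have hV : Finite V := hG.1
    have hE : Finite E := hG.2.1
    have := Fintype.ofFinite V
    have := Fintype.ofFinite E
    have := Fintype.ofFinite L
    rw [← mk_eq_zero, map_sub, map_smul, ← (hG.2.2.1).sum_chi hE, sub_eq_zero]
    unfold pull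
    rw [finsum_eq_if, if_pos hG, finsum_eq_sum_of_fintype, finsum_eq_sum_of_fintype, map_add,
      map_add, map_sum, map_sum, map_sum, map_sum]
    have h1 : ∀ z : (E × Bool) ⊕ L, mk g L (pushF L (∑ᶠ (_ : (G.hf z).2 ≠ 0),
        dl (G.bubble z) (-c))) = 0 := by
      intro z
      rw [finsum_eq_if]
      split_ifs
      · rw [pushF_dl, mk_invalid (bubble_not_valid G z)]
      · rw [map_zero, map_zero]
    rw [Finset.sum_congr rfl (fun z _ => h1 z), Finset.sum_const_zero, add_zero, Finset.sum_smul]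
    apply Finset.sum_congr rfl
    intro v _
    rw [map_add, map_add, pushF_dl, pushG_addLeg, mk_dilaton]
    have h2 : mk g L (pushF L ((G.dec v).2.map fun k =>
        dl (G.addLeg v ((G.dec v).2.erase k) k) (-c)).sum) =
        - ((G.dec v).2.card : ℚ) • mk g L (dl G c) := by
      rw [map_multiset_sum, map_multiset_sum, Multiset.map_map, Multiset.map_map]
      have h3 : ∀ k ∈ (G.dec v).2, ((mk g L ∘ pushF L) ∘ fun k =>
          dl (G.addLeg v ((G.dec v).2.erase k) k) (-c)) k = - mk g L (dl G c) := by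
        intro k hk
        simp only [Function.comp]
        rw [pushF_dl, pushG_addLeg, Multiset.cons_erase hk, upd_self, dl_neg, map_neg]
      rw [Multiset.map_congr rfl h3, Multiset.map_const', Multiset.sum_replicate]
      rw [smul_neg, neg_smul, Nat.cast_smul_eq_nsmul]
    rw [h2, ← add_smul]
    congr 1
    ring
  · have h0 : pull g G c = 0 := by
      unfold pull
      rw [finsum_eq_if, if_neg hG]
    rw [h0, map_zero, zero_sub]
    apply Submodule.neg_mem
    apply Submodule.smul_mem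
    exact Isub_of_not_valid hG c

theorem pushF_pull_sum [Finite L] (g : ℕ) (x : F L) :
    pushF L (x.sum fun D => pull g D.G) - (2 * (g : ℚ) - 2 + Nat.card L) • x ∈ Isub g L := by
  have h1 : (2 * (g : ℚ) - 2 + Nat.card L) • x =
      ∑ D ∈ x.support, (2 * (g : ℚ) - 2 + Nat.card L) • dl D.G (x D) := by
    rw [← Finset.smul_sum]
    congr 1
    conv_lhs => rw [← Finsupp.sum_single x]
    rfl
  rw [h1, Finsupp.sum, map_sum, ← Finset.sum_sub_distrib]
  apply Submodule.sum_mem
  intro D _
  exact pushF_pull g D.G (x D)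

/-- if the pullback of `x` is in Pixton's span then so is `x` -/
theorem P_of_pull [Finite L] {g : ℕ} (hg : 2 < 2 * g + Nat.card L) {x : F L}
    (h : P g (x.sum fun D => pull g D.G)) : P g x := by
  have h1 := P_pushF h
  have h2 := Isub_le_Psub g L (pushF_pull_sum g x)
  have h3 := (Psub g L).sub_mem h1 h2
  rw [sub_sub_cancel] at h3
  have hne : (2 * (g : ℚ) - 2 + Nat.card L) ≠ 0 := by
    have : (2 : ℚ) < 2 * g + Nat.card L := by exact_mod_cast hg
    intro h
    linarith only [this, h]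
  have h4 := (Psub g L).smul_mem (2 * (g : ℚ) - 2 + Nat.card L)⁻¹ h3
  rw [smul_smul, inv_mul_cancel₀ hne, one_smul] at h4
  exact h4

end Vale.Agent.P273
end
end
end

section

section

noncomputable section

namespace Vale.Agent.P273

open Sum
open scoped Classical

variable {V E L N R T : Type}

/-- A tail inside the environment. -/
structure Env.ETail (Q : Env R T L N) (h : ℕ) (y : T × Bool) (r : R) (c : ℕ) : Prop where
  use : Q.use (inl y) = inr (r, c)
  gen : (Q.dec r).1 = h
  kap : ∀ k ∈ (Q.dec r).2, k = 0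
  le : c ≤ 1
  only : ∀ z p, Q.use z = inr (r, p) → z = inl y

/-- Half-edges of the environment, inside the graft. -/
def lft (E : Type) (z : (T × Bool) ⊕ N) : ((E ⊕ T) × Bool) ⊕ N :=
  z.map (fun y => (inr y.1, y.2)) id

lemma graft_hf_lft (Q : Env R T L N) (G : Gr V E L) (z : (T × Bool) ⊕ N) :
    (Q.graft G).hf (lft E z) = Q.usehf G z := by
  rcases z with ⟨t, s⟩ | n
  · rfl
  · rfl

lemma graft_cases (z : ((E ⊕ T) × Bool) ⊕ N) :
    (∃ e s, z = inl (inl e, s)) ∨ ∃ y, z = lft E y := by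
  rcases z with ⟨e | t, s⟩ | n
  · exact Or.inl ⟨e, s, rfl⟩
  · exact Or.inr ⟨inl (t, s), rfl⟩
  · exact Or.inr ⟨inr n, rfl⟩

lemma isTail_graft_inr {Q : Env R T L N} {G : Gr V E L} {h : ℕ} {y : T × Bool} {r : R} {c : ℕ}
    (hu : Q.use (inl y) = inr (r, c)) :
    IsTail (Q.graft G) h (inr y.1, y.2) ↔ Q.ETail h y r c := by
  have e1 : (Q.graft G).hf (inl (inr y.1, y.2)) = (inr r, c) := by
    have := graft_hf_lft Q G (inl y)
    rw [Env.usehf_inr hu] at this
    exact this
  have e2 : (Q.graft G).dec (inr r) = Q.dec r := rfl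
  constructor
  · intro H
    have h1 := H.gen
    have h2 := H.kap
    have h3 := H.only
    have h4 := H.le
    rw [e1] at h1 h2 h3 h4
    refine ⟨hu, h1, h2, h4, ?_⟩
    intro z p hz
    have h5 := h3 (lft E z) (by rw [graft_hf_lft, Env.usehf_inr hz])
    rcases z with z | n
    · simp only [lft, Sum.map_inl, inl.injEq, Prod.mk.injEq, inr.injEq] at h5
      rw [show z = y from Prod.ext h5.1 h5.2]
    · simp [lft] at h5
  · intro H
    refine ⟨?_, ?_, ?_, ?_⟩
    · rw [e1]
      exact H.gen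
    · rw [e1]
      exact H.kap
    · intro z hz
      rw [e1] at hz
      rcases graft_cases z with ⟨e, s, rfl⟩ | ⟨z, rfl⟩
      · rw [Env.graft_hf_inl] at hz
        simp at hz
      · rw [graft_hf_lft] at hz
        rcases hz' : Q.use z with x | p
        · rw [Env.usehf_inl hz'] at hz
          simp at hz
        · rw [Env.usehf_inr hz'] at hz
          simp only [inr.injEq] at hz
          have h5 := H.only z p.2 (by rw [hz', ← hz])
          rw [h5]
          rfl
    · rw [e1]
      exact H.le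

/-- The environment with a tail removed. -/
structure Env.CutRel (Q : Env R T L N) (y : T × Bool) (r : R) (c : ℕ)
    (Q' : Env {r' // r' ≠ r} {t' // t' ≠ y.1} L (Option N)) : Prop where
  dec : ∀ r', Q'.dec r' = Q.dec r'.1
  usel : ∀ z x, Q.use (emb y.1 y.2 id z) = inl x → Q'.use z = inl x
  user : ∀ z p, Q.use (emb y.1 y.2 id z) = inr p →
    ∃ hp, Q'.use z = inr (⟨p.1, hp⟩, p.2 + if z = inr none then c else 0)
  b : ∀ x, Q'.b x = Q.b x + if Q.use (emb y.1 y.2 id (inr none)) = inl x then c else 0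

lemma Env.ETail.exists_cut {Q : Env R T L N} {h : ℕ} {y : T × Bool} {r : R} {c : ℕ}
    (H : Q.ETail h y r c) : ∃ Q' : Env {r' // r' ≠ r} {t' // t' ≠ y.1} L (Option N),
      Q.CutRel y r c Q' := by
  have : ∀ z : ({t' // t' ≠ y.1} × Bool) ⊕ Option N, ∃ u : L ⊕ ({r' // r' ≠ r} × ℕ),
      (∀ x, Q.use (emb y.1 y.2 id z) = inl x → u = inl x) ∧
      (∀ p, Q.use (emb y.1 y.2 id z) = inr p →
        ∃ hp, u = inr (⟨p.1, hp⟩, p.2 + if z = inr none then c else 0)) := by
    intro z
    rcases hz : Q.use (emb y.1 y.2 id z) with x | p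
    · refine ⟨inl x, ?_, ?_⟩
      · intro x' hx'
        rw [inl.injEq] at hx'
        rw [hx']
      · intro p hp
        simp at hp
    · have hp : p.1 ≠ r := by
        intro hpr
        apply emb_ne y.1 y.2 id z
        exact H.only _ p.2 (by rw [hz, ← hpr])
      refine ⟨inr (⟨p.1, hp⟩, p.2 + if z = inr none then c else 0), ?_, ?_⟩
      · intro x' hx'
        simp at hx'
      · intro p' hp'
        rw [inr.injEq] at hp'
        subst hp'
        exact ⟨hp, rfl⟩
  choose u hu using this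
  exact ⟨⟨fun r' => Q.dec r'.1, u,
    fun x => Q.b x + if Q.use (emb y.1 y.2 id (inr none)) = inl x then c else 0⟩,
    fun _ => rfl, fun z => (hu z).1, fun z => (hu z).2, fun _ => rfl⟩

variable {Q : Env R T L N} {h : ℕ} {y : T × Bool} {r : R} {c : ℕ}
  {Q' : Env {r' // r' ≠ r} {t' // t' ≠ y.1} L (Option N)}

lemma Env.CutRel.use_inl (C : Q.CutRel y r c Q') {z : ({t' // t' ≠ y.1} × Bool) ⊕ Option N} {x : L}
    (hz : Q'.use z = inl x) : Q.use (emb y.1 y.2 id z) = inl x := by
  rcases hz' : Q.use (emb y.1 y.2 id z) with x' | p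
  · rw [C.usel z x' hz', inl.injEq] at hz
    rw [hz]
  · obtain ⟨hp, h1⟩ := C.user z p hz'
    rw [h1] at hz
    simp at hz

lemma Env.CutRel.inj (C : Q.CutRel y r c Q')
    (hQ : ∀ y z x, Q.use y = inl x → Q.use z = inl x → y = z) :
    ∀ y z x, Q'.use y = inl x → Q'.use z = inl x → y = z := by
  intro y' z x h1 h2
  exact emb_injective _ _ Function.injective_id (hQ _ _ x (C.use_inl h1) (C.use_inl h2))

lemma Env.CutRel.range_iff (C : Q.CutRel y r c Q') (hu : Q.use (inl y) = inr (r, c)) (x : L) :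
    inl x ∈ Set.range Q'.use ↔ inl x ∈ Set.range Q.use := by
  constructor
  · rintro ⟨z, hz⟩
    exact ⟨_, C.use_inl hz⟩
  · rintro ⟨z, hz⟩
    obtain ⟨z', rfl⟩ := mem_range_emb y.1 y.2 (id : N → N) z (by
      rintro rfl
      rw [show (inl (y.1, y.2) : (T × Bool) ⊕ N) = inl y from rfl, hu] at hz
      simp at hz) (fun x _ => Set.mem_range_self x)
    exact ⟨z', C.usel z' x hz⟩

lemma Env.CutRel.unused_eq (C : Q.CutRel y r c Q') (hu : Q.use (inl y) = inr (r, c))
    (G : Gr V E L) (v : V) : Q'.unused G v = Q.unused G v := by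
  unfold Env.unused
  apply finsum_congr
  intro x
  rw [C.range_iff hu]
  apply finsum_congr
  intro hx
  rw [C.b, if_neg, add_zero]
  intro h1
  exact hx.1 ⟨_, h1⟩

lemma Env.CutRel.usehf_snd (C : Q.CutRel y r c Q')
    (hQ : ∀ y z x, Q.use y = inl x → Q.use z = inl x → y = z)
    (G : Gr V E L) (z : ({t' // t' ≠ y.1} × Bool) ⊕ Option N) :
    (Q'.usehf G z).2 = (Q.usehf G (emb y.1 y.2 id z)).2 + if z = inr none then c else 0 := by
  rcases hz : Q.use (emb y.1 y.2 id z) with x | p
  · rw [Env.usehf_inl (C.usel z x hz), Env.usehf_inl hz]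
    simp only
    rw [C.b, add_assoc]
    congr 2
    by_cases hn : z = inr none
    · subst hn
      simp only [if_true]
      rw [if_pos hz]
    · rw [if_neg hn, if_neg]
      intro h1
      exact hn (emb_injective _ _ Function.injective_id (hQ _ _ x hz h1))
  · obtain ⟨hp, h1⟩ := C.user z p hz
    rw [Env.usehf_inr h1, Env.usehf_inr hz]

lemma Env.CutRel.usehf_fst (C : Q.CutRel y r c Q')
    (G : Gr V E L) (z : ({t' // t' ≠ y.1} × Bool) ⊕ Option N) :
    Sum.map id Subtype.val (Q'.usehf G z).1 = (Q.usehf G (emb y.1 y.2 id z)).1 := by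
  rcases hz : Q.use (emb y.1 y.2 id z) with x | p
  · rw [Env.usehf_inl (C.usel z x hz), Env.usehf_inl hz]
    rfl
  · obtain ⟨hp, h1⟩ := C.user z p hz
    rw [Env.usehf_inr h1, Env.usehf_inr hz]
    rfl

lemma Env.CutRel.iso (C : Q.CutRel y r c Q')
    (hQ : ∀ y z x, Q.use y = inl x → Q.use z = inl x → y = z) (H : Q.ETail h y r c)
    (G : Gr V E L) (ht : IsTail (Q.graft G) h (inr y.1, y.2)) :
    (Q'.graft G).Iso ht.cut := by
  have hu := H.use
  have e1 : (Q.graft G).hf (inl (inr y.1, y.2)) = (inr r, c) := by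
    have := graft_hf_lft Q G (inl y)
    rw [Env.usehf_inr hu] at this
    exact this
  have k1 : ∀ v : V, (inl v : V ⊕ R) ≠ ((Q.graft G).hf (inl (inr y.1, y.2))).1 := by
    intro v
    rw [e1]
    simp
  have k2 : ∀ r' : {r' // r' ≠ r}, (inr r'.1 : V ⊕ R) ≠
      ((Q.graft G).hf (inl (inr y.1, y.2))).1 := by
    intro r'
    rw [e1]
    simp only [ne_eq, inr.injEq]
    exact r'.2
  have k3 : ∀ e : E ⊕ {t' // t' ≠ y.1}, Sum.map id Subtype.val e ≠ (inr y.1 : E ⊕ T) := by
    rintro (e | t)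
    · simp
    · simp only [Sum.map_inr, ne_eq, inr.injEq]
      exact t.2
  let φ : V ⊕ {r' // r' ≠ r} → {v // v ≠ ((Q.graft G).hf (inl (inr y.1, y.2))).1} :=
    Sum.elim (fun v => ⟨inl v, k1 v⟩) fun r' => ⟨inr r'.1, k2 r'⟩
  let ρ : (E ⊕ {t' // t' ≠ y.1}) × Bool → {e : E ⊕ T // e ≠ inr y.1} × Bool :=
    fun z => (⟨Sum.map id Subtype.val z.1, k3 z.1⟩, z.2)
  have hφ : ∀ v, (φ v).1 = Sum.map id Subtype.val v := by
    rintro (v | v)
    · rfl
    · rfl
  refine ⟨φ, ρ, ⟨?_, ?_⟩, ⟨?_, ?_⟩, fun e => rfl, ?_, ?_⟩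
  · intro a b hab
    have h1 := congrArg Subtype.val hab
    rw [hφ, hφ] at h1
    exact Function.Injective.sumMap Function.injective_id Subtype.val_injective h1
  · rintro ⟨v | r', hv⟩
    · exact ⟨inl v, rfl⟩
    · have : r' ≠ r := by
        rintro rfl
        rw [e1] at hv
        exact hv rfl
      exact ⟨inr ⟨r', this⟩, rfl⟩
  · rintro ⟨a, s⟩ ⟨b, t⟩ hab
    have h1 := congrArg Subtype.val (congrArg Prod.fst hab)
    have h2 := congrArg Prod.snd hab
    exact Prod.ext (Function.Injective.sumMap Function.injective_id Subtype.val_injective h1) h2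
  · rintro ⟨⟨e | t, he⟩, s⟩
    · exact ⟨(inl e, s), rfl⟩
    · have : t ≠ y.1 := by
        rintro rfl
        exact he rfl
      exact ⟨(inr ⟨t, this⟩, s), rfl⟩
  · rintro (v | r')
    · change (Q.graft G).dec (inl v) = (Q'.graft G).dec (inl v)
      rw [Env.graft_dec_inl, Env.graft_dec_inl, C.unused_eq hu]
    · change (Q.graft G).dec (inr r'.1) = (Q'.graft G).dec (inr r')
      rw [Env.graft_dec_inr, Env.graft_dec_inr, C.dec]
  · intro z
    rcases graft_cases z with ⟨e, s, rfl⟩ | ⟨z, rfl⟩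
    · rfl
    · have k4 : emb (inr y.1) y.2 (id : N → N) (Sum.map ρ id (lft E z)) =
          lft E (emb y.1 y.2 id z) := by
        rcases z with ⟨t, s⟩ | (_ | n)
        · rfl
        · rfl
        · rfl
      have k5 : (Sum.map ρ id (lft E z) = inr none) ↔ z = inr none := by
        rcases z with ⟨t, s⟩ | (_ | n)
        · simp [lft]
        · simp [lft]
        · simp [lft]
      have k6 := ht.cut_fst (Sum.map ρ id (lft E z))
      have k6' : (ht.cut.hf (Sum.map ρ id (lft E z))).1.1 = (Q.usehf G (emb y.1 y.2 id z)).1 := by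
        rw [k6]
        exact congrArg Prod.fst ((congrArg _ k4).trans (graft_hf_lft Q G _))
      have k7 : (ht.cut.hf (Sum.map ρ id (lft E z))).2 =
          (Q.usehf G (emb y.1 y.2 id z)).2 + if z = inr none then c else 0 := by
        by_cases hz : z = inr none
        · rw [if_pos hz]
          subst hz
          have h1 := ht.cut_snd_none
          have h2 : ((Q.graft G).hf (inl (inr y.1, y.2))).2 = c := congrArg Prod.snd e1
          rw [h2] at h1
          exact h1
        · rw [if_neg hz, add_zero]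
          have h1 := ht.cut_snd_ne (fun h => hz (k5.1 h))
          rw [h1]
          exact congrArg Prod.snd ((congrArg _ k4).trans (graft_hf_lft Q G _))
      refine Prod.ext (Subtype.ext ?_) ?_
      · rw [k6', graft_hf_lft]
        simp only [Prod.map_fst]
        rw [hφ]
        exact (C.usehf_fst G z).symm
      · rw [k7, graft_hf_lft]
        simp only [Prod.map_snd, id]
        rw [C.usehf_snd hQ]

/-- The sum of the environment tails lies in Pixton's span. -/
theorem envTail_mem {g : ℕ} [Finite R] [Finite T] [Finite L] (Q : Env R T L N)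
    (hQ : ∀ y z x, Q.use y = inl x → Q.use z = inl x → y = z) (γ d h : ℕ) (A : L → ℕ)
    (hA : ∀ x, A x ≤ 1) (hγ : γ + ∑ᶠ x, A x < 3 * d) (y : T × Bool) (r : R) (c : ℕ)
    (hu : Q.use (inl y) = inr (r, c)) :
    ∑ p ∈ supp γ A d, (wt p.2.2 γ A d / (p.1.factorial * p.2.1.factorial * 2 ^ p.2.1)) •
      term g h (Q.graft p.2.2) (inr y.1, y.2) ∈ Pbar g (Option N) := by
  by_cases H : Q.ETail h y r c
  · obtain ⟨Q', C⟩ := H.exists_cut
    have h1 : ∀ (p : Σ k m : ℕ, Gr (Fin k) (Fin m) L),
        (wt p.2.2 γ A d / (p.1.factorial * p.2.1.factorial * 2 ^ p.2.1)) •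
        term g h (Q.graft p.2.2) (inr y.1, y.2) = zfac h (Multiset.card (Q.dec r).2) •
          mk g (Option N) (dl (Q'.graft p.2.2)
            (wt p.2.2 γ A d / (p.1.factorial * p.2.1.factorial * 2 ^ p.2.1))) := by
      intro p
      have ht : IsTail (Q.graft p.2.2) h (inr y.1, y.2) := (isTail_graft_inr hu).2 H
      have h2 : ∀ c : ℚ, mk g (Option N) (dl (Q'.graft p.2.2) c) =
          c • mk g (Option N) (dl (Q'.graft p.2.2) 1) := by
        intro c
        rw [← map_smul, smul_dl, mul_one]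
      rw [term_of ht, ← mk_iso (C.iso hQ H p.2.2 ht), h2 (_ / _), smul_comm]
      congr 2
      have e1 : (Q.graft p.2.2).hf (inl (inr y.1, y.2)) = (inr r, c) := by
        have := graft_hf_lft Q p.2.2 (inl y)
        rw [Env.usehf_inr hu] at this
        exact this
      rw [e1]
      rfl
    rw [Finset.sum_congr rfl fun p _ => h1 p, ← Finset.smul_sum, ← map_sum, ← Env.pix_eq_sum]
    apply Submodule.smul_mem
    rw [mk_mem_Pbar]
    exact P.pix Q' γ d A inferInstance inferInstance inferInstance (C.inj hQ) hA hγ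
  · rw [Finset.sum_eq_zero]
    · exact Submodule.zero_mem _
    · intro p _
      rw [term_not fun ht => H ((isTail_graft_inr hu).1 ht), smul_zero]

end Vale.Agent.P273
end
end
end

section

section

namespace Vale.Agent.P273.Alg

open Finset MvPolynomial

/-- coefficient of `T^m` in `B_0` -/
def b0 (m : ℕ) : ℚ := (-1) ^ m * ((6 * m).factorial : ℚ) / ((2 * m).factorial * (3 * m).factorial)

/-- coefficient of `T^m` in `B_1` -/
def b1 (m : ℕ) : ℚ := (1 + 6 * m) / (1 - 6 * m) * b0 m

/-- coefficient of `T^c` in `B_a` -/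
def Bc (a c : ℕ) : ℚ :=
  if c < a / 3 then 0 else
    if a % 3 = 0 then b0 (c - a / 3) else if a % 3 = 1 then b1 (c - a / 3) else 0

lemma b0_zero : b0 0 = 1 := by simp only [b0, pow_zero, mul_zero, Nat.factorial_zero, Nat.cast_one, mul_one, ne_eq, one_ne_zero, not_false_eq_true, div_self]

lemma b0_succ (m : ℕ) : (m + 1) * b0 (m + 1) = -12 * (6 * m + 1) * (6 * m + 5) * b0 m := by
  have h6 : ((6 * (m + 1)).factorial : ℚ) = (6 * m + 6) * (6 * m + 5) * (6 * m + 4) * (6 * m + 3) *
      (6 * m + 2) * (6 * m + 1) * ((6 * m).factorial : ℚ) := by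
    have : 6 * (m + 1) = 6 * m + 6 := by ring
    rw [this]
    simp only [Nat.factorial_succ]
    push_cast
    ring
  have h2 : ((2 * (m + 1)).factorial : ℚ) = (2 * m + 2) * (2 * m + 1) * ((2 * m).factorial : ℚ) := by
    have : 2 * (m + 1) = 2 * m + 2 := by ring
    rw [this]
    simp only [Nat.factorial_succ]
    push_cast
    ring
  have h3 : ((3 * (m + 1)).factorial : ℚ) = (3 * m + 3) * (3 * m + 2) * (3 * m + 1) *
      ((3 * m).factorial : ℚ) := by
    have : 3 * (m + 1) = 3 * m + 3 := by ring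
    rw [this]
    simp only [Nat.factorial_succ]
    push_cast
    ring
  unfold b0
  rw [h6, h2, h3]
  have e2 : ((2 * m).factorial : ℚ) ≠ 0 := by positivity
  have e3 : ((3 * m).factorial : ℚ) ≠ 0 := by positivity
  have e4 : (2 * (m : ℚ) + 2) ≠ 0 := by (clear * -; positivity)
  have e5 : (2 * (m : ℚ) + 1) ≠ 0 := by (clear * -; positivity)
  have e6 : (3 * (m : ℚ) + 3) ≠ 0 := by (clear * -; positivity)
  have e7 : (3 * (m : ℚ) + 2) ≠ 0 := by (clear * -; positivity)
  have e8 : (3 * (m : ℚ) + 1) ≠ 0 := by (clear * -; positivity)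
  field_simp
  ring

lemma b1_zero : b1 0 = 1 := by simp [b1, b0_zero]

/-- `B_1 - B_0 = 144 T (1 + 6 θ) B_0` -/
lemma b1_sub_b0 (m : ℕ) : b1 (m + 1) - b0 (m + 1) = 144 * (1 + 6 * m) * b0 m := by
  have h := b0_succ m
  have e1 : (1 - 6 * ((m : ℚ) + 1)) ≠ 0 := by
    have : (0 : ℚ) ≤ m := by positivity
    intro hh
    linarith
  have e2 : ((m : ℚ) + 1) ≠ 0 := by positivity
  have h' : b0 (m + 1) = -12 * (6 * m + 1) * (6 * m + 5) * b0 m / (m + 1) := by
    field_simp
    linarith only [h]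
  unfold b1
  rw [h']
  push_cast
  field_simp
  ring


/-- rising product -/
def rp (a : ℚ) (m : ℕ) : ℚ := ∏ j ∈ range m, (a + j)

lemma rp_zero (a : ℚ) : rp a 0 = 1 := by simp [rp]

lemma rp_succ (a : ℚ) (m : ℕ) : rp a (m + 1) = rp a m * (a + m) := by
  simp [rp, prod_range_succ]

lemma rp_succ' (a : ℚ) (m : ℕ) : rp a (m + 1) = a * rp (a + 1) m := by
  simp only [rp]
  rw [prod_range_succ']
  simp only [Nat.cast_zero, add_zero, Nat.cast_add, Nat.cast_one]
  rw [mul_comm]
  congr 1
  apply prod_congr rfl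
  intro j _
  ring

/-- coefficients of the hypergeometric series `2F0 (a, b; ; -432 T)` -/
def hg (a b : ℚ) (m : ℕ) : ℚ := (-432) ^ m * rp a m * rp b m / (m.factorial : ℚ)

lemma hg_zero (a b : ℚ) : hg a b 0 = 1 := by simp [hg, rp_zero]

lemma hg_sub_left (a b : ℚ) (m : ℕ) :
    hg a b (m + 1) - hg (a + 1) b (m + 1) = 432 * b * hg (a + 1) (b + 1) m := by
  have hf : ((m + 1).factorial : ℚ) = (m + 1) * (m.factorial : ℚ) := by
    rw [Nat.factorial_succ]; push_cast; ring
  have e1 : ((m : ℚ) + 1) ≠ 0 := by positivity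
  have e2 : ((m.factorial : ℕ) : ℚ) ≠ 0 := by positivity
  unfold hg
  rw [hf, rp_succ' a, rp_succ' b, rp_succ (a + 1)]
  field_simp
  ring

lemma hg_comm (a b : ℚ) (m : ℕ) : hg a b m = hg b a m := by
  unfold hg; ring

lemma hg_sub_right (a b : ℚ) (m : ℕ) :
    hg a b (m + 1) - hg a (b + 1) (m + 1) = 432 * a * hg (a + 1) (b + 1) m := by
  rw [hg_comm a b, hg_comm a (b + 1), hg_comm (a + 1) (b + 1)]
  exact hg_sub_left b a m

lemma b0_eq_hg (m : ℕ) : b0 m = hg (1 / 6) (5 / 6) m := by
  induction m with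
  | zero => rw [b0_zero, hg_zero]
  | succ m ih =>
    have h := b0_succ m
    have e1 : ((m : ℚ) + 1) ≠ 0 := by positivity
    have h' : b0 (m + 1) = -12 * (6 * m + 1) * (6 * m + 5) * b0 m / (m + 1) := by
      field_simp
      linarith only [h]
    have hf : ((m + 1).factorial : ℚ) = (m + 1) * (m.factorial : ℚ) := by
      rw [Nat.factorial_succ]; push_cast; ring
    have e2 : ((m.factorial : ℕ) : ℚ) ≠ 0 := by positivity
    rw [h', ih]
    unfold hg
    rw [hf, rp_succ (1 / 6), rp_succ (5 / 6)]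
    field_simp
    ring

lemma b1_sub_b0_hg (m : ℕ) : b1 (m + 1) - b0 (m + 1) = 144 * hg (7 / 6) (5 / 6) m := by
  rw [b1_sub_b0, b0_eq_hg]
  unfold hg
  have h : (1 + 6 * (m : ℚ)) * rp (1 / 6) m = rp (7 / 6) m := by
    have h1 := rp_succ (1 / 6) m
    have h2 := rp_succ' (1 / 6) m
    rw [h1] at h2
    have h3 : (1 / 6 : ℚ) + 1 = 7 / 6 := by norm_num
    rw [h3] at h2
    linarith only [h2]
  rw [← h]
  ring

/-- the Gauss chain: a series of order exactly `c` -/
def Y (c j : ℕ) : ℚ :=
  if j < c then 0 else hg (1 / 6 + ((c + 1) / 2 : ℕ)) (5 / 6 + (c / 2 : ℕ)) (j - c)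

lemma Y_lt {c j : ℕ} (h : j < c) : Y c j = 0 := by simp [Y, h]

lemma Y_self (c : ℕ) : Y c c = 1 := by simp only [Y, lt_self_iff_false, ↓reduceIte, one_div, tsub_self, hg_zero]

lemma Y_rec (c : ℕ) : ∃ γ : ℚ, γ ≠ 0 ∧ ∀ j, γ * Y (c + 2) j =
    (if j = 0 then 0 else Y c (j - 1)) - Y (c + 1) j := by
  rcases Nat.even_or_odd' c with ⟨q, rfl | rfl⟩
  · refine ⟨432 * (5 / 6 + q), by positivity, ?_⟩
    intro j
    have e1 : (2 * q + 2 + 1) / 2 = q + 1 := by omega
    have e2 : (2 * q + 2) / 2 = q + 1 := by omega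
    have e3 : (2 * q + 1) / 2 = q := by omega
    have e4 : (2 * q) / 2 = q := by omega
    have e5 : (2 * q + 1 + 1) / 2 = q + 1 := by omega
    unfold Y
    rw [e1, e2, e3, e4]
    rcases Nat.lt_or_ge j (2 * q + 1) with h | h
    · have h1 : j < 2 * q + 2 := by omega
      rw [if_pos h1, if_pos h]
      rcases Nat.eq_zero_or_pos j with h0 | h0
      · simp [h0]
      · have h2 : j - 1 < 2 * q := by (clear * - e2 e3 e4 e5 h h0; omega)
        simp only [mul_zero, h2, ↓reduceIte, ite_self, sub_self]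
    · have h0 : j ≠ 0 := by (clear * - e2 e3 e4 e5 h; omega)
      have h2 : ¬ (j - 1 < 2 * q) := by (clear * - e2 e3 e4 e5 h; omega)
      rw [if_neg h0, if_neg h2, if_neg (by omega : ¬ j < 2 * q + 1)]
      obtain ⟨m, rfl⟩ : ∃ m, j = 2 * q + 1 + m := ⟨j - (2 * q + 1), by (clear * - e2 e3 e4 e5 h; omega)⟩
      have e6 : 2 * q + 1 + m - 1 - 2 * q = m := by omega
      have e7 : 2 * q + 1 + m - (2 * q + 1) = m := by omega
      rw [e6, e7]
      rcases m with _ | m
      · simp only [add_zero, add_lt_add_iff_left, Order.lt_two_iff, Std.le_refl, ↓reduceIte, mul_zero, one_div, hg_zero, Nat.cast_add, Nat.cast_one, sub_self]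
      · have h3 : ¬ (2 * q + 1 + (m + 1) < 2 * q + 2) := by omega
        have e8 : 2 * q + 1 + (m + 1) - (2 * q + 2) = m := by (clear * - e6 e7; omega)
        rw [if_neg h3, e8]
        have := hg_sub_left (1 / 6 + q) (5 / 6 + q) m
        push_cast
        rw [show (1 / 6 + ((q : ℚ) + 1)) = 1 / 6 + q + 1 by ring,
          show (5 / 6 + ((q : ℚ) + 1)) = 5 / 6 + q + 1 by ring]
        rw [this]
  · refine ⟨432 * (7 / 6 + q), by positivity, ?_⟩
    intro j
    have e1 : (2 * q + 1 + 2 + 1) / 2 = q + 2 := by omega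
    have e2 : (2 * q + 1 + 2) / 2 = q + 1 := by omega
    have e3 : (2 * q + 1 + 1) / 2 = q + 1 := by omega
    have e4 : (2 * q + 1) / 2 = q := by omega
    have e5 : (2 * q + 1 + 1 + 1) / 2 = q + 1 := by omega
    unfold Y
    rw [e1, e2, e3, e4]
    rcases Nat.lt_or_ge j (2 * q + 1 + 1) with h | h
    · have h1 : j < 2 * q + 1 + 2 := by omega
      rw [if_pos h1, if_pos h]
      rcases Nat.eq_zero_or_pos j with h0 | h0
      · simp [h0]
      · have h2 : j - 1 < 2 * q + 1 := by omega
        simp only [mul_zero, h2, ↓reduceIte, ite_self, sub_self]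
    · have h0 : j ≠ 0 := by omega
      have h2 : ¬ (j - 1 < 2 * q + 1) := by omega
      rw [if_neg h0, if_neg h2, if_neg (by omega : ¬ j < 2 * q + 1 + 1)]
      obtain ⟨m, rfl⟩ : ∃ m, j = 2 * q + 1 + 1 + m := ⟨j - (2 * q + 1 + 1), by (clear * - e2 e3 e4 e5 h; omega)⟩
      have e6 : 2 * q + 1 + 1 + m - 1 - (2 * q + 1) = m := by (clear * - h; omega)
      have e7 : 2 * q + 1 + 1 + m - (2 * q + 1 + 1) = m := by omega
      rw [e6, e7]
      rcases m with _ | m
      · simp only [add_zero, add_lt_add_iff_left, Order.lt_two_iff, Std.le_refl, ↓reduceIte, mul_zero, one_div, Nat.cast_add, Nat.cast_one, hg_zero, sub_self]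
      · have h3 : ¬ (2 * q + 1 + 1 + (m + 1) < 2 * q + 1 + 2) := by omega
        have e8 : 2 * q + 1 + 1 + (m + 1) - (2 * q + 1 + 2) = m := by (clear * - e6 e7; omega)
        rw [if_neg h3, e8]
        have := hg_sub_right (1 / 6 + (q + 1)) (5 / 6 + q) m
        push_cast
        rw [show (1 / 6 + ((q : ℚ) + 2)) = 1 / 6 + (q + 1) + 1 by ring,
          show (5 / 6 + ((q : ℚ) + 1)) = 5 / 6 + q + 1 by ring]
        rw [this]
        ring

lemma Bc_shift (a j : ℕ) : Bc (a + 3) j = if j = 0 then 0 else Bc a (j - 1) := by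
  unfold Bc
  have e1 : (a + 3) / 3 = a / 3 + 1 := by omega
  have e2 : (a + 3) % 3 = a % 3 := by (clear * - e1; omega)
  rw [e1, e2]
  rcases Nat.eq_zero_or_pos j with h0 | h0
  · subst h0; simp only [lt_add_iff_pos_left, Order.lt_add_one_iff, zero_le, ↓reduceIte]
  · rw [if_neg (by omega : ¬ j = 0)]
    by_cases h : j - 1 < a / 3
    · rw [if_pos h, if_pos (by omega)]
    · rw [if_neg h, if_neg (by omega)]
      have : j - (a / 3 + 1) = j - 1 - a / 3 := by omega
      rw [this]

lemma Bc_zero (j : ℕ) : Bc 0 j = b0 j := by simp only [Bc, Nat.zero_div, not_lt_zero, ↓reduceIte, Nat.zero_mod, tsub_zero]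

lemma Bc_one (j : ℕ) : Bc 1 j = b1 j := by simp only [Bc, Nat.reduceDiv, not_lt_zero, ↓reduceIte, Nat.one_mod, one_ne_zero, tsub_zero]

lemma Y_zero (j : ℕ) : Y 0 j = Bc 0 j := by
  rw [Bc_zero, b0_eq_hg]
  simp only [Y, not_lt_zero, ↓reduceIte, one_div, zero_add, Nat.reduceDiv, CharP.cast_eq_zero, add_zero, Nat.zero_div, tsub_zero]

lemma Y_one (j : ℕ) : 144 * Y 1 j = Bc 1 j - Bc 0 j := by
  rw [Bc_zero, Bc_one]
  rcases j with _ | j
  · simp [Y, b0_zero, b1_zero]
  · rw [b1_sub_b0_hg]
    have : (1 / 6 : ℚ) + 1 = 7 / 6 := by norm_num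
    simp only [Y, Order.lt_one_iff, Nat.add_eq_zero_iff, one_ne_zero, and_false, ↓reduceIte, one_div, Nat.reduceAdd, Order.lt_two_iff, zero_le, Nat.div_self, Nat.cast_one, Nat.reduceDiv, CharP.cast_eq_zero, add_zero, add_tsub_cancel_right, mul_eq_mul_left_iff, OfNat.ofNat_ne_zero, or_false]
    norm_num

/-- each element of the chain is a combination of the `B_a` with `a ≤ 3c/2` -/
lemma Y_span (c : ℕ) : ∃ α : ℕ → ℚ, ∀ j, Y c j = ∑ a ∈ range (3 * c / 2 + 1), α a * Bc a j := by
  induction c using Nat.strong_induction_on with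
  | _ c ih =>
    rcases c with _ | _ | c
    · refine ⟨fun _ => 1, fun j => ?_⟩
      simp only [Y_zero, mul_zero, Nat.zero_div, zero_add, range_one, one_mul, sum_singleton]
    · refine ⟨fun a => if a = 1 then 1 / 144 else -1 / 144, fun j => ?_⟩
      have h := Y_one j
      simp only [zero_add, mul_one, Nat.reduceDiv, Nat.reduceAdd, one_div, ite_mul, sum_range_succ, range_one, sum_singleton, zero_ne_one, ↓reduceIte]
      linarith
    · obtain ⟨γ, hγ, hrec⟩ := Y_rec c
      obtain ⟨α, hα⟩ := ih c (by omega)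
      obtain ⟨β, hβ⟩ := ih (c + 1) (by omega)
      refine ⟨fun a => (1 / γ) * ((if 3 ≤ a then α (a - 3) else 0) -
        (if a < 3 * (c + 1) / 2 + 1 then β a else 0)), fun j => ?_⟩
      have h1 : Y (c + 2) j = (1 / γ) * ((if j = 0 then 0 else Y c (j - 1)) - Y (c + 1) j) := by
        rw [← hrec j]; field_simp
      rw [show c + 1 + 1 = c + 2 by ring, h1]
      have h2 : (if j = 0 then 0 else Y c (j - 1)) =
          ∑ a ∈ range (3 * (c + 2) / 2 + 1), (if 3 ≤ a then α (a - 3) else 0) * Bc a j := by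
        have e : 3 * (c + 2) / 2 + 1 = 3 + (3 * c / 2 + 1) := by omega
        rw [e, sum_range_add]
        have z : ∑ a ∈ range 3, (if 3 ≤ a then α (a - 3) else 0) * Bc a j = 0 := by
          apply sum_eq_zero
          intro a ha
          rw [mem_range] at ha
          rw [if_neg (by omega)]
          ring
        rw [z, zero_add]
        have z2 : ∀ a, (if 3 ≤ 3 + a then α (3 + a - 3) else 0) * Bc (3 + a) j =
            if j = 0 then 0 else α a * Bc a (j - 1) := by
          intro a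
          rw [if_pos (by omega), show 3 + a - 3 = a by omega, add_comm 3 a, Bc_shift]
          split_ifs <;> simp
        simp_rw [z2]
        split_ifs with h0
        · simp
        · exact hα (j - 1)
      have h3 : Y (c + 1) j =
          ∑ a ∈ range (3 * (c + 2) / 2 + 1),
            (if a < 3 * (c + 1) / 2 + 1 then β a else 0) * Bc a j := by
        rw [hβ j]
        rw [← sum_subset (range_subset_range.mpr
          (by omega : 3 * (c + 1) / 2 + 1 ≤ 3 * (c + 2) / 2 + 1))]
        · apply sum_congr rfl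
          intro a ha
          rw [mem_range] at ha
          rw [if_pos ha]
        · intro a _ ha
          rw [mem_range] at ha
          rw [if_neg ha]
          ring
      rw [h2, h3, ← sum_sub_distrib, mul_sum]
      apply sum_congr rfl
      intro a _
      ring

end Vale.Agent.P273.Alg
end
end

section

section

noncomputable section
namespace Vale.Agent.P273
open Sum Alg
open scoped Classical

lemma B_zero_eq (ζ : ℚ) (m : ℕ) : B 0 ζ m = ζ ^ m * b0 m := by
  unfold B b0
  ring

lemma B_one_eq (ζ : ℚ) (m : ℕ) : B 1 ζ m = ζ ^ (m + 1) * b1 m := by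
  unfold B b1 b0
  rw [add_comm 1 m]
  ring

section series

open PowerSeries

/-- the two series and their reflections -/
def F0 : PowerSeries ℚ := PowerSeries.mk b0
def F1 : PowerSeries ℚ := PowerSeries.mk b1
def G0 : PowerSeries ℚ := PowerSeries.mk fun m => (-1) ^ m * b0 m
def G1 : PowerSeries ℚ := PowerSeries.mk fun m => (-1) ^ m * b1 m

lemma coeff_X_deriv (f : PowerSeries ℚ) (m : ℕ) :
    coeff m (X * d⁄dX ℚ f) = m * coeff m f := by
  rcases m with _ | m
  · simp
  · rw [coeff_succ_X_mul, coeff_derivative]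
    push_cast
    ring

lemma b1_b0 (m : ℕ) : (1 - 6 * (m : ℚ)) * b1 m = (1 + 6 * m) * b0 m := by
  unfold b1
  have h : (1 - 6 * (m : ℚ)) ≠ 0 := by
    intro h
    have h1 : (6 * m : ℚ) = 1 := by linarith only [h]
    have h2 : 6 * m = 1 := by exact_mod_cast h1
    omega
  field_simp

lemma rel1 : F1 - F0 = 144 * (X * (F0 + 6 * (X * d⁄dX ℚ F0))) := by
  ext m
  have h144 : (144 : PowerSeries ℚ) = C (144 : ℚ) := (map_ofNat C 144).symm
  have h6 : (6 : PowerSeries ℚ) = C (6 : ℚ) := (map_ofNat C 6).symm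
  rw [h144, h6, coeff_C_mul]
  rcases m with _ | m
  · simp [F0, F1, b0_zero, b1_zero]
  · rw [coeff_succ_X_mul, map_sub, map_add, coeff_C_mul, coeff_X_deriv]
    simp only [F0, F1, coeff_mk]
    rw [b1_sub_b0]
    ring

lemma rel2 : F1 - 6 * (X * d⁄dX ℚ F1) = F0 + 6 * (X * d⁄dX ℚ F0) := by
  ext m
  have h6 : (6 : PowerSeries ℚ) = C (6 : ℚ) := (map_ofNat C 6).symm
  rw [h6, map_sub, map_add, coeff_C_mul, coeff_C_mul, coeff_X_deriv, coeff_X_deriv]
  simp only [F0, F1, coeff_mk]
  have := b1_b0 m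
  linarith only [this]

lemma rel3 : G1 - G0 = - (144 * (X * (G0 + 6 * (X * d⁄dX ℚ G0)))) := by
  ext m
  have h144 : (144 : PowerSeries ℚ) = C (144 : ℚ) := (map_ofNat C 144).symm
  have h6 : (6 : PowerSeries ℚ) = C (6 : ℚ) := (map_ofNat C 6).symm
  rw [h144, h6, map_neg, coeff_C_mul]
  rcases m with _ | m
  · simp only [G1, G0, coeff_zero_eq_constantCoeff, map_sub, constantCoeff_mk, pow_zero, b1_zero, mul_one, b0_zero, sub_self, map_mul, constantCoeff_X, map_add, constantCoeff_C, zero_mul, mul_zero, add_zero, neg_zero]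
  · rw [coeff_succ_X_mul, map_sub, map_add, coeff_C_mul, coeff_X_deriv]
    simp only [G0, G1, coeff_mk]
    rw [← mul_sub, b1_sub_b0]
    ring

lemma rel4 : G1 - 6 * (X * d⁄dX ℚ G1) = G0 + 6 * (X * d⁄dX ℚ G0) := by
  ext m
  have h6 : (6 : PowerSeries ℚ) = C (6 : ℚ) := (map_ofNat C 6).symm
  rw [h6, map_sub, map_add, coeff_C_mul, coeff_C_mul, coeff_X_deriv, coeff_X_deriv]
  simp only [G0, G1, coeff_mk]
  have := b1_b0 m
  linear_combination (-1) ^ m * this

lemma wronskian : F0 * G1 + F1 * G0 = 2 := by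
  apply derivative.ext (R := ℚ)
  · have h : (864 * X ^ 2 : PowerSeries ℚ) ≠ 0 := by
      apply mul_ne_zero
      · have h864 : (864 : PowerSeries ℚ) = C (864 : ℚ) := (map_ofNat C 864).symm
        rw [h864]
        intro h
        have := congrArg (coeff 0) h
        rw [coeff_zero_C] at this
        simp at this
      · exact pow_ne_zero _ X_ne_zero
    have h2 : d⁄dX ℚ (2 : PowerSeries ℚ) = 0 := by
      have : (2 : PowerSeries ℚ) = C (2 : ℚ) := (map_ofNat C 2).symm
      rw [this, derivative_C]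
    rw [h2]
    apply mul_left_cancel₀ h
    rw [map_add, Derivation.leibniz, Derivation.leibniz]
    simp only [smul_eq_mul]
    have r1 := rel1
    have r2 := rel2
    have r3 := rel3
    have r4 := rel4
    linear_combination (-G1) * r1 + G0 * (r1 - 144 * X * r2) + F1 * r3 -
      F0 * (r3 + 144 * X * r4)
  · rw [map_add, map_mul, map_mul, map_ofNat]
    simp only [F0, constantCoeff_mk, b0_zero, G1, pow_zero, b1_zero, mul_one, F1, G0]
    norm_num

end series

/-- the symmetric identity -/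
lemma sum_antidiagonal_zero {c : ℕ} (hc : c ≠ 0) :
    ∑ p ∈ Finset.HasAntidiagonal.antidiagonal c,
      (-1 : ℚ) ^ p.2 * (b0 p.1 * b1 p.2 + b1 p.1 * b0 p.2) = 0 := by
  have h := congrArg (PowerSeries.coeff c) wronskian
  rw [map_add, PowerSeries.coeff_mul, PowerSeries.coeff_mul] at h
  have h2 : PowerSeries.coeff c (2 : PowerSeries ℚ) = 0 := by
    have : (2 : PowerSeries ℚ) = PowerSeries.C (2 : ℚ) := (map_ofNat PowerSeries.C 2).symm
    rw [this, PowerSeries.coeff_C, if_neg hc]
  rw [h2] at h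
  rw [← h, ← Finset.sum_add_distrib]
  apply Finset.sum_congr rfl
  intro p _
  simp only [F0, F1, G0, G1, PowerSeries.coeff_mk]
  ring

lemma sum_range_zero' {c : ℕ} (hc : c ≠ 0) :
    ∑ i ∈ Finset.range (c + 1),
      (-1 : ℚ) ^ (c - i) * (b0 i * b1 (c - i) + b1 i * b0 (c - i)) = 0 := by
  rw [← sum_antidiagonal_zero hc, Finset.Nat.sum_antidiagonal_eq_sum_range_succ_mk]

/-- the numerator of the edge factor, up to sign -/
def TT (ζ ξ : ℚ) (a b : ℕ) : ℚ := B 0 ζ a * B 1 ξ b + B 1 ζ a * B 0 ξ b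

lemma TT_symm (ζ ξ : ℚ) (a b : ℕ) : TT ζ ξ a b = TT ξ ζ b a := by
  unfold TT; ring

lemma TT_alt {ζ ξ : ℚ} (hζ : ζ ^ 2 = 1) (hξ : ξ ^ 2 = 1) {c : ℕ} (hc : c ≠ 0) :
    ∑ i ∈ Finset.range (c + 1), (-1 : ℚ) ^ i * TT ζ ξ i (c - i) = 0 := by
  have h1 : ∀ i ∈ Finset.range (c + 1), (-1 : ℚ) ^ i * TT ζ ξ i (c - i) =
      ξ ^ (c + 1) * ((-1) ^ i * (b0 i * b1 (c - i) * (ζ * ξ) ^ i +
        b1 i * b0 (c - i) * (ζ * ξ) ^ (i + 1))) := by
    intro i hi
    rw [Finset.mem_range] at hi
    have e1 : ξ ^ (c - i) = ξ ^ c * ξ ^ i := by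
      have : ξ ^ c = ξ ^ (c - i) * ξ ^ i := by rw [← pow_add]; congr 1; omega
      rw [this, mul_assoc, ← pow_add, ← two_mul, pow_mul, hξ, one_pow, mul_one]
    unfold TT
    rw [B_zero_eq, B_one_eq, B_one_eq, B_zero_eq, pow_succ ξ (c - i), e1, mul_pow, mul_pow,
      pow_succ ξ i]
    have e2 : ξ ^ (c + 1) * (ζ ^ (i + 1) * (ξ ^ i * ξ)) = ζ ^ (i + 1) * (ξ ^ c * ξ ^ i) := by
      rw [pow_succ ξ c]
      linear_combination (ξ ^ c * ζ ^ (i + 1) * ξ ^ i) * hξ
    linear_combination (-(-1 : ℚ) ^ i * b1 i * b0 (c - i)) * e2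
  rw [Finset.sum_congr rfl h1, ← Finset.mul_sum]
  have h2 : (ζ * ξ) ^ 2 = 1 := by rw [mul_pow, hζ, hξ, mul_one]
  have h3 : ζ * ξ = 1 ∨ ζ * ξ = -1 := by
    have : (ζ * ξ - 1) * (ζ * ξ + 1) = 0 := by linear_combination h2
    rcases mul_eq_zero.mp this with h | h
    · left; linarith only [h]
    · right; linarith
  have h4 : ∑ i ∈ Finset.range (c + 1), ((-1 : ℚ) ^ i * (b0 i * b1 (c - i) * (ζ * ξ) ^ i +
        b1 i * b0 (c - i) * (ζ * ξ) ^ (i + 1))) = 0 := by
    rcases h3 with h3 | h3
    · rw [h3]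
      have h5 := sum_range_zero' hc
      have h6 : ∀ i ∈ Finset.range (c + 1), ((-1 : ℚ) ^ i * (b0 i * b1 (c - i) * 1 ^ i +
        b1 i * b0 (c - i) * 1 ^ (i + 1))) = (-1) ^ c * ((-1 : ℚ) ^ (c - i) *
          (b0 i * b1 (c - i) + b1 i * b0 (c - i))) := by
        intro i hi
        rw [Finset.mem_range] at hi
        have e3 : (-1 : ℚ) ^ c = (-1) ^ (c - i) * (-1) ^ i := by
          rw [← pow_add]; congr 1; omega
        have e4 : ((-1 : ℚ) ^ (c - i)) * (-1) ^ (c - i) = 1 := by
          rw [← mul_pow]; simp only [mul_neg, mul_one, neg_neg, one_pow]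
        rw [one_pow, one_pow, mul_one, mul_one, e3]
        linear_combination (-(-1 : ℚ) ^ i * (b0 i * b1 (c - i) + b1 i * b0 (c - i))) * e4
      rw [Finset.sum_congr rfl h6, ← Finset.mul_sum, h5, mul_zero]
    · rw [h3]
      have h6 : ∀ i ∈ Finset.range (c + 1), ((-1 : ℚ) ^ i * (b0 i * b1 (c - i) * (-1) ^ i +
        b1 i * b0 (c - i) * (-1) ^ (i + 1))) = b0 i * b1 (c - i) - b1 i * b0 (c - i) := by
        intro i _
        have e4 : ((-1 : ℚ) ^ i) * (-1) ^ i = 1 := by
          rw [← mul_pow]; simp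
        rw [pow_succ]
        linear_combination (b0 i * b1 (c - i) - b1 i * b0 (c - i)) * e4
      rw [Finset.sum_congr rfl h6, Finset.sum_sub_distrib, sub_eq_zero]
      rw [← Finset.sum_range_reflect]
      apply Finset.sum_congr rfl
      intro i hi
      rw [Finset.mem_range] at hi
      have e5 : c + 1 - 1 - i = c - i := by omega
      have e6 : c - (c - i) = i := by omega
      rw [e5, e6]
      ring
  rw [h4, mul_zero]

lemma edgeF_eq (ζ ξ : ℚ) (p q : ℕ) :
    edgeF (ζ, p) (ξ, q) = - ∑ j ∈ Finset.range (q + 1), (-1) ^ j * TT ζ ξ (p + 1 + j) (q - j) := by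
  unfold edgeF TT
  rw [← Finset.sum_neg_distrib]
  apply Finset.sum_congr rfl
  intro j _
  dsimp only
  ring

/-- the edge factor is symmetric -/
theorem edgeF_symm {ζ ξ : ℚ} (hζ : ζ ^ 2 = 1) (hξ : ξ ^ 2 = 1) (p q : ℕ) :
    edgeF (ζ, p) (ξ, q) = edgeF (ξ, q) (ζ, p) := by
  rw [edgeF_eq, edgeF_eq, neg_inj]
  have h := TT_alt hζ hξ (c := p + q + 1) (by omega)
  rw [show p + q + 1 + 1 = (p + 1) + (q + 1) by ring, Finset.sum_range_add] at h
  have h1 : ∑ x ∈ Finset.range (q + 1), (-1 : ℚ) ^ (p + 1 + x) *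
      TT ζ ξ (p + 1 + x) (p + q + 1 - (p + 1 + x)) =
      (-1) ^ (p + 1) * ∑ j ∈ Finset.range (q + 1), (-1) ^ j * TT ζ ξ (p + 1 + j) (q - j) := by
    rw [Finset.mul_sum]
    apply Finset.sum_congr rfl
    intro j hj
    rw [show p + q + 1 - (p + 1 + j) = q - j by omega, pow_add]
    ring
  have h2 : ∑ i ∈ Finset.range (p + 1), (-1 : ℚ) ^ i * TT ζ ξ i (p + q + 1 - i) =
      (-1) ^ p * ∑ j ∈ Finset.range (p + 1), (-1) ^ j * TT ξ ζ (q + 1 + j) (p - j) := by
    rw [← Finset.sum_range_reflect, Finset.mul_sum]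
    apply Finset.sum_congr rfl
    intro j hj
    rw [Finset.mem_range] at hj
    rw [show p + 1 - 1 - j = p - j by omega, show p + q + 1 - (p - j) = q + 1 + j by omega,
      TT_symm]
    have e1 : (-1 : ℚ) ^ p = (-1) ^ (p - j) * (-1) ^ j := by
      rw [← pow_add]; congr 1; omega
    have e2 : (-1 : ℚ) ^ j * (-1) ^ j = 1 := by rw [← mul_pow]; simp
    rw [e1]
    linear_combination (-(-1 : ℚ) ^ (p - j) * TT ξ ζ (q + 1 + j) (p - j)) * e2
  rw [h1, h2, pow_succ] at h
  have h3 : ((-1 : ℚ) ^ p) ≠ 0 := by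
    apply pow_ne_zero; norm_num
  apply mul_left_cancel₀ h3
  linear_combination -h

lemma B_zero_one (ξ : ℚ) : B 0 ξ 1 = -60 * ξ := by
  rw [B_zero_eq]
  have := b0_succ 0
  rw [b0_zero] at this
  norm_num at this
  rw [this]; ring

lemma B_one_zero (ξ : ℚ) : B 1 ξ 0 = ξ := by
  rw [B_one_eq, b1_zero]; ring

lemma B_one_one (ξ : ℚ) : B 1 ξ 1 = 84 * ξ ^ 2 := by
  rw [B_one_eq]
  have h0 := b0_succ 0
  rw [b0_zero] at h0
  norm_num at h0
  have := b1_sub_b0 0
  rw [b0_zero, h0] at this
  norm_num at this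
  have h1 : b1 1 = 84 := by linarith only [this]
  rw [h1]; ring

/-- the edge to a tail vertex -/
theorem edgeF_tail {ζ ξ : ℚ} (hζ : ζ ^ 2 = 1) (hξ : ξ ^ 2 = 1) (a : ℕ) :
    edgeF (ζ, a) (ξ, 0) + (if a = 0 then 0 else edgeF (ζ, a - 1) (ξ, 1)) =
      -84 * B 0 ζ a + 60 * ξ * B 1 ζ a := by
  have h1 : -TT ζ ξ a 1 = -84 * B 0 ζ a + 60 * ξ * B 1 ζ a := by
    unfold TT
    rw [B_one_one, B_zero_one, hξ]
    ring
  rw [← h1]
  split_ifs with ha
  · subst ha
    rw [edgeF_eq]
    have h := TT_alt hζ hξ (c := 1) (by omega)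
    simp only [Nat.reduceAdd, Finset.sum_range_succ, Finset.range_one, Finset.sum_singleton, pow_zero, tsub_zero, one_mul, pow_one, tsub_self, neg_mul, zero_add, zero_tsub, add_zero, neg_inj] at h ⊢
    linarith only [h]
  · obtain ⟨a, rfl⟩ : ∃ b, a = b + 1 := ⟨a - 1, by omega⟩
    rw [edgeF_eq, edgeF_eq]
    simp only [zero_add, Finset.range_one, zero_tsub, Finset.sum_singleton, pow_zero, add_zero, one_mul, Nat.reduceAdd, add_tsub_cancel_right, Finset.sum_range_succ, tsub_zero, pow_one, tsub_self, neg_mul, neg_add_rev, neg_neg, neg_add_cancel_left]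

end Vale.Agent.P273
end
end
end

section

section

noncomputable section

namespace Vale.Agent.P273

open Sum
open scoped Classical

variable {V E L L' N V' E' : Type}

namespace Gr

/-- Inverse of `cut`: add the vertex `w` of genus `h` and the edge `f`, with exponent `c` at `w` and
with the exponent of the leg `none` lowered by `c` at the other side; the legs outside the range of
`i` are put at `w`, with exponent `0`. -/
def ins (w : V) (f : E) (s : Bool) (i : L' → L) (h c : ℕ)
    (G' : Gr {v // v ≠ w} {e // e ≠ f} (Option L')) : Gr V E L :=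
  ⟨fun v => if hv : v = w then (h, 0) else G'.dec ⟨v, hv⟩,
   fun z => if hz : ∃ y, emb f s i y = z then
      ((G'.hf hz.choose).1.1, (G'.hf hz.choose).2 - if hz.choose = inr none then c else 0)
    else (w, if z = inl (f, s) then c else 0)⟩

variable {w : V} {f : E} {s : Bool} {i : L' → L} {h c : ℕ}
  {G' : Gr {v // v ≠ w} {e // e ≠ f} (Option L')}

/-- The graph `G` has a tail at `(f, s)` with vertex `w` of genus `h`, no kappa decoration, exponent
`c` at `(f, s)`, carrying in addition exactly the legs outside the range of `i`, with exponent `0`. -/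
structure TailAt (G : Gr V E L) (w : V) (f : E) (s : Bool) (i : L' → L) (h c : ℕ) : Prop where
  cd : G.CutData w f s i
  dec : G.dec w = (h, 0)
  exp : (G.hf (inl (f, s))).2 = c
  leg : ∀ x, x ∉ Set.range i → (G.hf (inr x)).2 = 0

lemma ins_emb (hi : i.Injective) (y : ({e // e ≠ f} × Bool) ⊕ Option L') :
    (ins w f s i h c G').hf (emb f s i y) =
      ((G'.hf y).1.1, (G'.hf y).2 - if y = inr none then c else 0) := by
  have hz : ∃ y', emb f s i y' = emb f s i y := ⟨y, rfl⟩
  have : hz.choose = y := emb_injective f s hi hz.choose_spec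
  unfold ins
  simp only
  rw [dif_pos hz, this]

lemma ins_not {z : (E × Bool) ⊕ L} (hz : z ∉ Set.range (emb f s i)) :
    (ins w f s i h c G').hf z = (w, if z = inl (f, s) then c else 0) := by
  have : ¬ ∃ y, emb f s i y = z := fun ⟨y, hy⟩ => hz ⟨y, hy⟩
  unfold ins
  simp only
  rw [dif_neg this]

lemma inl_not_range : (inl (f, s) : (E × Bool) ⊕ L) ∉ Set.range (emb f s i) := by
  rintro ⟨y, hy⟩
  exact emb_ne f s i y hy

lemma inr_not_range {x : L} (hx : x ∉ Set.range i) :
    (inr x : (E × Bool) ⊕ L) ∉ Set.range (emb f s i) := by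
  rintro ⟨(y | (_ | y)), hy⟩
  · simp at hy
  · simp at hy
  · simp at hy
    exact hx ⟨y, hy⟩

lemma ins_tailAt (hi : i.Injective) : (ins w f s i h c G').TailAt w f s i h c where
  cd := ⟨hi, by rw [ins_not inl_not_range], fun y => by rw [ins_emb hi]; exact (G'.hf y).1.2,
    fun x hx => by rw [ins_not (inr_not_range hx)]⟩
  dec := by simp only [ins, ne_eq, Sum.exists, emb_inl, Prod.exists, Bool.exists_bool, Subtype.exists, exists_prop, ↓reduceDIte]
  exp := by rw [ins_not inl_not_range]; simp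
  leg := fun x hx => by rw [ins_not (inr_not_range hx)]; simp

lemma cut_ins (hi : i.Injective) (hc : c ≤ (G'.hf (inr none)).2) :
    (ins w f s i h c G').cut w f s i (ins_tailAt hi).cd.hne = G' := by
  apply Gr.ext'
  · intro v
    have : (ins w f s i h c G').dec v.1 = G'.dec v := by
      simp only [ins, ne_eq, Sum.exists, emb_inl, Prod.exists, Bool.exists_bool, Subtype.exists, exists_prop, v.2, ↓reduceDIte, Subtype.coe_eta]
    exact this
  · intro y
    have h1 : ((ins w f s i h c G').cut w f s i (ins_tailAt hi).cd.hne).hf y =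
      (⟨((ins w f s i h c G').hf (emb f s i y)).1, (ins_tailAt hi).cd.hne y⟩,
        ((ins w f s i h c G').hf (emb f s i y)).2 +
          if y = inr none then ((ins w f s i h c G').hf (inl (f, s))).2 else 0) := rfl
    rw [h1]
    apply Prod.ext
    · apply Subtype.ext
      change ((ins w f s i h c G').hf (emb f s i y)).1 = _
      rw [ins_emb hi]
    · change ((ins w f s i h c G').hf (emb f s i y)).2 + _ = _
      rw [ins_emb hi, ins_not inl_not_range]
      by_cases hy : y = inr none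
      · subst hy
        simp only [if_true]
        omega
      · simp [hy]

lemma ins_cut {G : Gr V E L} (T : G.TailAt w f s i h c) :
    ins w f s i h c (G.cut w f s i T.cd.hne) = G := by
  apply Gr.ext'
  · intro v
    by_cases hv : v = w
    · subst hv
      rw [T.dec]
      simp only [ins, ne_eq, Sum.exists, emb_inl, Prod.exists, Bool.exists_bool, Subtype.exists, exists_prop, ↓reduceDIte]
    · simp only [ins, ne_eq, cut, dite_eq_ite, Sum.exists, emb_inl, Prod.exists, Bool.exists_bool, Subtype.exists, exists_prop, hv, ↓reduceIte]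
  · intro z
    by_cases hz : z ∈ Set.range (emb f s i)
    · obtain ⟨y, rfl⟩ := hz
      rw [ins_emb T.cd.hi]
      apply Prod.ext
      · rfl
      · change (G.hf (emb f s i y)).2 + (if y = inr none then (G.hf (inl (f, s))).2 else 0) -
          (if y = inr none then c else 0) = _
        rw [T.exp, Nat.add_sub_cancel]
    · rw [ins_not hz]
      have h1 : (G.hf z).1 = w := by
        by_contra hne
        exact hz ((T.cd.at_w_iff z).1 hne)
      apply Prod.ext
      · exact h1.symm
      · change (if z = inl (f, s) then c else 0) = _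
        by_cases hz2 : z = inl (f, s)
        · rw [if_pos hz2, hz2, T.exp]
        · rw [if_neg hz2]
          rcases z with y | x
          · exfalso
            exact hz (mem_range_emb f s i _ hz2 (fun x hx => by simp at hx))
          · rw [T.leg]
            intro hx
            exact hz (mem_range_emb f s i _ hz2 (fun x' hx' => by
              rw [inr.injEq] at hx'; rwa [← hx']))

lemma le_cut {G : Gr V E L} (T : G.TailAt w f s i h c) :
    c ≤ ((G.cut w f s i T.cd.hne).hf (inr none)).2 := by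
  change c ≤ (G.hf (emb f s i (inr none))).2 + (if (inr none : ({e // e ≠ f} × Bool) ⊕ Option L') =
    inr none then (G.hf (inl (f, s))).2 else 0)
  rw [if_pos rfl, T.exp]
  omega

end Gr

/-! ### the weights -/

/-- the sign of a boolean -/
def sg (b : Bool) : ℚ := cond b 1 (-1)

lemma sg_sq (b : Bool) : sg b ^ 2 = 1 := by cases b <;> simp [sg]

/-- the summand of the weight -/
def wsum (G : Gr V E L) (A : L → ℕ) (s : V → ℚ) : ℚ :=
  (∏ᶠ v, s v ^ ((G.dec v).1 + 1) * kapF (G.dec v).2 (s v)) *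
  (∏ᶠ e, edgeF (s (G.hf (inl (e, true))).1, (G.hf (inl (e, true))).2)
    (s (G.hf (inl (e, false))).1, (G.hf (inl (e, false))).2)) *
  ∏ᶠ x, B (A x) (s (G.hf (inr x)).1) (G.hf (inr x)).2

lemma wt_eq_wsum (G : Gr V E L) (γ : ℕ) (A : L → ℕ) (d : ℕ) :
    wt G γ A d = if (G.Stab γ ∧ G.deg = d) then
      ∑ᶠ ζ : V → Bool, (1 / 2) ^ (Nat.card E + 1) * wsum G A (fun v => sg (ζ v)) else 0 := by
  unfold wt wsum
  rw [finsum_eq_if]
  congr 1
  apply finsum_congr
  intro ζ
  simp only [sg]
  ring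

lemma wsum_relabel (G : Gr V E L) (G' : Gr V' E' L) (φ : V ≃ V') (ρ : E ≃ E')
    (h4 : ∀ v, G'.dec (φ v) = G.dec v)
    (h5 : ∀ e s, G'.hf (inl (ρ e, s)) = ((φ (G.hf (inl (e, s))).1), (G.hf (inl (e, s))).2))
    (h6 : ∀ x, G'.hf (inr x) = ((φ (G.hf (inr x)).1), (G.hf (inr x)).2))
    (A : L → ℕ) (s : V' → ℚ) : wsum G' A s = wsum G A (fun v => s (φ v)) := by
  unfold wsum
  congr 1
  · congr 1
    · rw [← finprod_comp_equiv φ]
      apply finprod_congr
      intro v
      rw [h4]
    · rw [← finprod_comp_equiv ρ]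
      apply finprod_congr
      intro e
      rw [h5, h5]
  · apply finprod_congr
    intro x
    rw [h6]

/-- Relabelling invariance of `wt` (sides of edges preserved). -/
theorem wt_relabel (G : Gr V E L) (G' : Gr V' E' L) (φ : V ≃ V') (ρ : E ≃ E')
    (h4 : ∀ v, G'.dec (φ v) = G.dec v)
    (h5 : ∀ e s, G'.hf (inl (ρ e, s)) = ((φ (G.hf (inl (e, s))).1), (G.hf (inl (e, s))).2))
    (h6 : ∀ x, G'.hf (inr x) = ((φ (G.hf (inr x)).1), (G.hf (inr x)).2))
    (γ : ℕ) (A : L → ℕ) (d : ℕ) : wt G' γ A d = wt G γ A d := by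
  have hiso : G.Iso G' := Gr.Iso.mk' φ ρ h4 h5 h6
  obtain ⟨φ', ρ', I⟩ := hiso.data
  rw [wt_eq_wsum, wt_eq_wsum]
  have h1 : (G'.Stab γ ∧ G'.deg = d) ↔ (G.Stab γ ∧ G.deg = d) := by
    rw [hiso.stab_iff, I.deg_eq]
  rw [if_congr h1 rfl rfl, Nat.card_congr ρ]
  congr 1
  rw [← finsum_comp_equiv (Equiv.arrowCongr φ (Equiv.refl Bool))]
  apply finsum_congr
  intro ζ
  rw [wsum_relabel G G' φ ρ h4 h5 h6]
  simp only [one_div, inv_pow, Equiv.arrowCongr_apply, Equiv.coe_refl, Function.comp_apply, Equiv.symm_apply_apply, id_eq]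

lemma finprod_ne {V : Type} [Finite V] {M : Type*} [CommMonoid M] (w : V) (φ : V → M) :
    ∏ᶠ v, φ v = φ w * ∏ᶠ v : {v // v ≠ w}, φ v.1 := by
  have := Fintype.ofFinite V
  rw [finprod_eq_prod_of_fintype, finprod_eq_prod_of_fintype]
  exact Fintype.prod_eq_mul_prod_subtype_ne φ w

lemma finprod_range {α β M : Type*} [CommMonoid M] [Finite α] {i : β → α} (hi : i.Injective)
    (φ : α → M) :
    ∏ᶠ x, φ x = (∏ᶠ x : {x // x ∉ Set.range i}, φ x.1) * ∏ᶠ x', φ (i x') := by
  have := Fintype.ofFinite α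
  have hf : Finite β := Finite.of_injective i hi
  have := Fintype.ofFinite β
  rw [finprod_eq_prod_of_fintype, finprod_eq_prod_of_fintype, finprod_eq_prod_of_fintype,
    ← Fintype.prod_subtype_mul_prod_subtype (fun x => x ∉ Set.range i)]
  congr 1
  rw [← Finset.prod_subtype (Finset.univ.map ⟨i, hi⟩) (by simp only [Finset.mem_map, Finset.mem_univ, Function.Embedding.coeFn_mk, true_and, Set.mem_range, not_exists, not_forall, Decidable.not_not, implies_true]) φ, Finset.prod_map]
  rfl

lemma finsum_range {α β M : Type*} [AddCommMonoid M] [Finite α] {i : β → α} (hi : i.Injective)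
    (φ : α → M) :
    ∑ᶠ x, φ x = (∑ᶠ x : {x // x ∉ Set.range i}, φ x.1) + ∑ᶠ x', φ (i x') := by
  have := Fintype.ofFinite α
  have hf : Finite β := Finite.of_injective i hi
  have := Fintype.ofFinite β
  rw [finsum_eq_sum_of_fintype, finsum_eq_sum_of_fintype, finsum_eq_sum_of_fintype,
    ← Fintype.sum_subtype_add_sum_subtype (fun x => x ∉ Set.range i)]
  congr 1
  rw [← Finset.sum_subtype (Finset.univ.map ⟨i, hi⟩) (by simp only [Finset.mem_map, Finset.mem_univ, Function.Embedding.coeFn_mk, true_and, Set.mem_range, not_exists, not_forall, Decidable.not_not, implies_true]) φ, Finset.sum_map]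
  rfl

lemma B_at_zero (a : ℕ) (ζ : ℚ) : B a ζ 0 = ζ ^ a := by simp only [B, add_zero, CharP.cast_eq_zero, mul_zero, sub_zero, ne_eq, one_ne_zero, not_false_eq_true, div_self, one_pow, mul_one, Nat.factorial_zero, Nat.cast_one, pow_zero]

/-- the common factor -/
def Wc (w : V) (f : E) (i : L' → L) (G' : Gr {v // v ≠ w} {e // e ≠ f} (Option L'))
    (A : L → ℕ) (σ : {v // v ≠ w} → ℚ) : ℚ :=
  (∏ᶠ v, σ v ^ ((G'.dec v).1 + 1) * kapF (G'.dec v).2 (σ v)) *
  (∏ᶠ e, edgeF (σ (G'.hf (inl (e, true))).1, (G'.hf (inl (e, true))).2)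
    (σ (G'.hf (inl (e, false))).1, (G'.hf (inl (e, false))).2)) *
  ∏ᶠ x, B (A (i x)) (σ (G'.hf (inr (some x))).1) (G'.hf (inr (some x))).2

lemma wsum_cut [Finite L'] (w : V) (f : E) (i : L' → L)
    (G' : Gr {v // v ≠ w} {e // e ≠ f} (Option L')) (A : L → ℕ) (σ : {v // v ≠ w} → ℚ) (k : ℕ) :
    wsum G' (Option.elim' k (A ∘ i)) σ =
      B k (σ (G'.hf (inr none)).1) (G'.hf (inr none)).2 * Wc w f i G' A σ := by
  have := Fintype.ofFinite L'
  unfold wsum Wc
  have h1 : ∏ᶠ x, B (Option.elim' k (A ∘ i) x) (σ (G'.hf (inr x)).1) (G'.hf (inr x)).2 =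
      B k (σ (G'.hf (inr none)).1) (G'.hf (inr none)).2 *
        ∏ᶠ x, B (A (i x)) (σ (G'.hf (inr (some x))).1) (G'.hf (inr (some x))).2 := by
    rw [finprod_eq_prod_of_fintype, finprod_eq_prod_of_fintype, Fintype.prod_option]
    rfl
  rw [h1]
  ring

/-- the edge factor of the new edge -/
def EF (s : Bool) (z w : ℚ × ℕ) : ℚ := cond s (edgeF z w) (edgeF w z)

lemma wsum_ins [Finite V] [Finite E] [Finite L] (w : V) (f : E) (s : Bool) (i : L' → L)
    (hi : i.Injective) (h c : ℕ) (G' : Gr {v // v ≠ w} {e // e ≠ f} (Option L'))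
    (A : L → ℕ) (σ : V → ℚ) :
    wsum (Gr.ins w f s i h c G') A σ = σ w ^ (h + 1) * EF s (σ w, c) (σ (G'.hf (inr none)).1.1,
      (G'.hf (inr none)).2 - c) * σ w ^ (∑ᶠ x : {x // x ∉ Set.range i}, A x) *
      Wc w f i G' A (fun v => σ v.1) := by
  unfold wsum Wc
  rw [finprod_ne w, finprod_ne f, finprod_range hi (fun x => B (A x)
    (σ ((Gr.ins w f s i h c G').hf (inr x)).1) ((Gr.ins w f s i h c G').hf (inr x)).2)]
  have e1 : (Gr.ins w f s i h c G').dec w = (h, 0) := by simp only [Gr.ins, ne_eq, Sum.exists, emb_inl, Prod.exists, Bool.exists_bool, Subtype.exists, exists_prop, ↓reduceDIte]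
  have e2 : ∀ v : {v // v ≠ w}, (Gr.ins w f s i h c G').dec v.1 = G'.dec v := by
    intro v; simp only [Gr.ins, ne_eq, Sum.exists, emb_inl, Prod.exists, Bool.exists_bool, Subtype.exists, exists_prop, v.2, ↓reduceDIte, Subtype.coe_eta]
  have e3 : ∀ (e : {e // e ≠ f}) (t : Bool), (Gr.ins w f s i h c G').hf (inl (e.1, t)) =
      ((G'.hf (inl (e, t))).1.1, (G'.hf (inl (e, t))).2) := by
    intro e t
    have := Gr.ins_emb (w := w) (f := f) (s := s) (h := h) (c := c) (G' := G') hi (inl (e, t))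
    simpa only [ne_eq, emb_inl, reduceCtorEq, ↓reduceIte, tsub_zero] using this
  have e4 : ∀ x : L', (Gr.ins w f s i h c G').hf (inr (i x)) =
      ((G'.hf (inr (some x))).1.1, (G'.hf (inr (some x))).2) := by
    intro x
    have := Gr.ins_emb (w := w) (f := f) (s := s) (h := h) (c := c) (G' := G') hi (inr (some x))
    simpa only [ne_eq, emb_some, inr.injEq, reduceCtorEq, ↓reduceIte, tsub_zero] using this
  have e5 : (Gr.ins w f s i h c G').hf (inl (f, !s)) =
      ((G'.hf (inr none)).1.1, (G'.hf (inr none)).2 - c) := by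
    have := Gr.ins_emb (w := w) (f := f) (s := s) (h := h) (c := c) (G' := G') hi (inr none)
    simpa only [ne_eq, emb_none, ↓reduceIte] using this
  have e6 : (Gr.ins w f s i h c G').hf (inl (f, s)) = (w, c) := by
    rw [Gr.ins_not Gr.inl_not_range, if_pos rfl]
  have e7 : ∀ x : {x // x ∉ Set.range i}, (Gr.ins w f s i h c G').hf (inr x.1) = (w, 0) := by
    intro x
    rw [Gr.ins_not (Gr.inr_not_range x.2), if_neg (by simp)]
  simp only [e1, e2, e3, e4, e7]
  have e8 : edgeF (σ ((Gr.ins w f s i h c G').hf (inl (f, true))).1,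
      ((Gr.ins w f s i h c G').hf (inl (f, true))).2)
      (σ ((Gr.ins w f s i h c G').hf (inl (f, false))).1,
      ((Gr.ins w f s i h c G').hf (inl (f, false))).2) =
      EF s (σ w, c) (σ (G'.hf (inr none)).1.1, (G'.hf (inr none)).2 - c) := by
    cases s
    · have e5' := e5
      simp only [Bool.not_false] at e5'
      rw [e5', e6]
      rfl
    · have e5' := e5
      simp only [Bool.not_true] at e5'
      rw [e5', e6]
      rfl
  have e9 : ∏ᶠ x : {x // x ∉ Set.range i}, B (A x.1) (σ w) 0 =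
      σ w ^ (∑ᶠ x : {x // x ∉ Set.range i}, A x) := by
    have := Fintype.ofFinite {x // x ∉ Set.range i}
    rw [finprod_eq_prod_of_fintype, finsum_eq_sum_of_fintype, ← Finset.prod_pow_eq_pow_sum]
    simp only [B_at_zero]
  have e10 : kapF 0 (σ w) = 1 := by simp only [kapF, Multiset.map_zero, Multiset.prod_zero, Multiset.toFinset_zero, Multiset.notMem_zero, not_false_eq_true, Multiset.count_eq_zero_of_notMem, Nat.factorial_zero, Nat.cast_one, Finset.prod_const_one, ne_eq, one_ne_zero, div_self]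
  rw [e8, e9, e10]
  ring

lemma EF_tail (s : Bool) {ζ ξ : ℚ} (hζ : ζ ^ 2 = 1) (hξ : ξ ^ 2 = 1) (a : ℕ) :
    EF s (ξ, 0) (ζ, a - 0) + (if 1 ≤ a then EF s (ξ, 1) (ζ, a - 1) else 0) =
      -84 * B 0 ζ a + 60 * ξ * B 1 ζ a := by
  rw [← edgeF_tail hζ hξ a]
  have h1 : ∀ c b, EF s (ξ, c) (ζ, b) = edgeF (ζ, b) (ξ, c) := by
    intro c b
    cases s
    · rfl
    · exact edgeF_symm hξ hζ c b
  rw [h1, h1, Nat.sub_zero]
  congr 1
  by_cases ha : a = 0
  · subst ha; simp
  · rw [if_neg ha, if_pos (by omega)]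

lemma deg_ins [Finite V] [Finite E] [Finite L] (w : V) (f : E) (s : Bool) (i : L' → L)
    (hi : i.Injective) (h c : ℕ) (G' : Gr {v // v ≠ w} {e // e ≠ f} (Option L'))
    (hc : c ≤ (G'.hf (inr none)).2) : (Gr.ins w f s i h c G').deg = G'.deg + 1 := by
  have hL' : Finite L' := Finite.of_injective i hi
  unfold Gr.deg
  rw [Gr.card_ne E f, Gr.finsum_ne w, finsum_range (emb_injective f s hi)
    (fun y => ((Gr.ins w f s i h c G').hf y).2)]
  have e1 : (Gr.ins w f s i h c G').dec w = (h, 0) := by simp only [Gr.ins, ne_eq, Sum.exists, emb_inl, Prod.exists, Bool.exists_bool, Subtype.exists, exists_prop, ↓reduceDIte]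
  have e2 : ∀ v : {v // v ≠ w}, (Gr.ins w f s i h c G').dec v.1 = G'.dec v := by
    intro v; simp only [Gr.ins, ne_eq, Sum.exists, emb_inl, Prod.exists, Bool.exists_bool, Subtype.exists, exists_prop, v.2, ↓reduceDIte, Subtype.coe_eta]
  simp only [e1, e2]
  have e3 : ∑ᶠ z : {z // z ∉ Set.range (emb f s i)}, ((Gr.ins w f s i h c G').hf z.1).2 = c := by
    rw [finsum_eq_single _ ⟨inl (f, s), Gr.inl_not_range⟩]
    · rw [Gr.ins_not Gr.inl_not_range, if_pos rfl]
    · rintro ⟨z, hz⟩ hne
      rw [Gr.ins_not hz, if_neg]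
      intro h
      exact hne (Subtype.ext h)
  have e4 : ∑ᶠ y, ((Gr.ins w f s i h c G').hf (emb f s i y)).2 + c = ∑ᶠ y, (G'.hf y).2 := by
    have := Fintype.ofFinite (({e // e ≠ f} × Bool) ⊕ Option L')
    rw [finsum_eq_sum_of_fintype, finsum_eq_sum_of_fintype,
      ← Finset.add_sum_erase _ _ (Finset.mem_univ (inr none)),
      ← Finset.add_sum_erase _ (fun y => (G'.hf y).2) (Finset.mem_univ (inr none))]
    have e5 : ∑ y ∈ Finset.univ.erase (inr none), ((Gr.ins w f s i h c G').hf (emb f s i y)).2 =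
        ∑ y ∈ Finset.univ.erase (inr none), (G'.hf y).2 := by
      apply Finset.sum_congr rfl
      intro y hy
      rw [Gr.ins_emb hi, if_neg (Finset.ne_of_mem_erase hy), Nat.sub_zero]
    rw [e5, Gr.ins_emb hi, if_pos rfl]
    simp only
    omega
  rw [e3]
  simp only [Multiset.sum_zero]
  omega

/-- The main identity. -/
theorem wt_ins [Finite V] [Finite E] [Finite L] (w : V) (f : E) (s : Bool) (i : L' → L)
    (hi : i.Injective) (h : ℕ) (hh : 1 ≤ h) (G' : Gr {v // v ≠ w} {e // e ≠ f} (Option L'))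
    (γ : ℕ) (A : L → ℕ) (d : ℕ) :
    wt (Gr.ins w f s i h 0 G') (γ + h) A (d + 1) +
      (if 1 ≤ (G'.hf (inr none)).2 then wt (Gr.ins w f s i h 1 G') (γ + h) A (d + 1) else 0) =
    if Even (h + 1 + ∑ᶠ x : {x // x ∉ Set.range i}, A x) then
      -84 * wt G' γ (Option.elim' 0 (A ∘ i)) d
    else 60 * wt G' γ (Option.elim' 1 (A ∘ i)) d := by
  have hL' : Finite L' := Finite.of_injective i hi
  have hcond : ∀ c, c ≤ (G'.hf (inr none)).2 →
      (((Gr.ins w f s i h c G').Stab (γ + h) ∧ (Gr.ins w f s i h c G').deg = d + 1) ↔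
      (G'.Stab γ ∧ G'.deg = d)) := by
    intro c hc
    rw [deg_ins w f s i hi h c G' hc]
    have T := Gr.ins_tailAt (w := w) (f := f) (s := s) (h := h) (c := c) (G' := G') hi
    have h1 : 1 ≤ (Gr.ins w f s i h c G').nv w := by
      unfold Gr.nv
      have : Nonempty {y // ((Gr.ins w f s i h c G').hf y).1 = w} := ⟨⟨inl (f, s), T.cd.hw⟩⟩
      exact Nat.card_pos
    have h2 := T.cd.stab_iff (γ := γ) (by rw [T.dec]) hh h1
    rw [← h2]
    have h3 : (Gr.ins w f s i h c G').cut w f s i T.cd.hne = G' := Gr.cut_ins hi hc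
    rw [h3]
    simp
  by_cases hG : G'.Stab γ ∧ G'.deg = d
  · rw [wt_eq_wsum, wt_eq_wsum, if_pos ((hcond 0 (Nat.zero_le _)).2 hG)]
    have h1 : (if 1 ≤ (G'.hf (inr none)).2 then if (Gr.ins w f s i h 1 G').Stab (γ + h) ∧
        (Gr.ins w f s i h 1 G').deg = d + 1 then ∑ᶠ (ζ : V → Bool), (1 / 2) ^ (Nat.card E + 1) *
        wsum (Gr.ins w f s i h 1 G') A fun v => sg (ζ v) else (0 : ℚ) else 0) =
        ∑ᶠ (ζ : V → Bool), (1 / 2) ^ (Nat.card E + 1) *
          (if 1 ≤ (G'.hf (inr none)).2 then wsum (Gr.ins w f s i h 1 G') A fun v => sg (ζ v)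
            else 0) := by
      by_cases h2 : 1 ≤ (G'.hf (inr none)).2
      · simp only [if_pos h2]
        rw [if_pos ((hcond 1 h2).2 hG)]
      · simp only [if_neg h2]
        simp only [one_div, inv_pow, mul_zero, finsum_zero]
    have := Fintype.ofFinite V
    have hsum : ∀ F : (V → Bool) → ℚ, ∑ᶠ ζ, F ζ = ∑ ζ' : {v // v ≠ w} → Bool,
        (F ((Equiv.funSplitAt w Bool).symm (true, ζ')) +
          F ((Equiv.funSplitAt w Bool).symm (false, ζ'))) := by
      intro F
      rw [← finsum_comp_equiv (Equiv.funSplitAt w Bool).symm, finsum_eq_sum_of_fintype,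
        Fintype.sum_prod_type, Fintype.sum_bool, ← Finset.sum_add_distrib]
    rw [h1, hsum, hsum, ← Finset.sum_add_distrib]
    have hσ1 : ∀ (b : Bool) (ζ' : {v // v ≠ w} → Bool),
        (Equiv.funSplitAt w Bool).symm (b, ζ') w = b := by
      intro b ζ'
      simp only [ne_eq, Equiv.funSplitAt, Equiv.piSplitAt, eq_rec_constant, Equiv.symm_mk, Equiv.coe_fn_mk, ↓reduceDIte]
    have hσ2 : ∀ (b : Bool) (ζ' : {v // v ≠ w} → Bool) (v : {v // v ≠ w}),
        (Equiv.funSplitAt w Bool).symm (b, ζ') v.1 = ζ' v := by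
      intro b ζ' v
      simp only [ne_eq, Equiv.funSplitAt, Equiv.piSplitAt, eq_rec_constant, Equiv.symm_mk, Equiv.coe_fn_mk, v.2, ↓reduceDIte, Subtype.coe_eta]
    have key : ∀ (ζ' : {v // v ≠ w} → Bool) (b : Bool),
        wsum (Gr.ins w f s i h 0 G') A (fun v => sg ((Equiv.funSplitAt w Bool).symm (b, ζ') v)) +
        (if 1 ≤ (G'.hf (inr none)).2 then wsum (Gr.ins w f s i h 1 G') A
          (fun v => sg ((Equiv.funSplitAt w Bool).symm (b, ζ') v)) else 0) =
        sg b ^ (h + 1 + ∑ᶠ x : {x // x ∉ Set.range i}, A x) *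
          (-84 * B 0 (sg (ζ' (G'.hf (inr none)).1)) (G'.hf (inr none)).2 +
            60 * sg b * B 1 (sg (ζ' (G'.hf (inr none)).1)) (G'.hf (inr none)).2) *
          Wc w f i G' A (fun v => sg (ζ' v)) := by
      intro ζ' b
      rw [wsum_ins w f s i hi, wsum_ins w f s i hi]
      simp only [hσ1, hσ2]
      have h2 := EF_tail s (sg_sq (ζ' (G'.hf (inr none)).1)) (sg_sq b) (G'.hf (inr none)).2
      rw [← h2, pow_add]
      split_ifs <;> ring
    have key2 : ∀ ζ' : {v // v ≠ w} → Bool,
        ((1 / 2 : ℚ) ^ (Nat.card E + 1) * wsum (Gr.ins w f s i h 0 G') A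
            (fun v => sg ((Equiv.funSplitAt w Bool).symm (true, ζ') v)) +
          (1 / 2) ^ (Nat.card E + 1) * wsum (Gr.ins w f s i h 0 G') A
            (fun v => sg ((Equiv.funSplitAt w Bool).symm (false, ζ') v)) +
        ((1 / 2) ^ (Nat.card E + 1) * (if 1 ≤ (G'.hf (inr none)).2 then
            wsum (Gr.ins w f s i h 1 G') A
              (fun v => sg ((Equiv.funSplitAt w Bool).symm (true, ζ') v)) else 0) +
          (1 / 2) ^ (Nat.card E + 1) * (if 1 ≤ (G'.hf (inr none)).2 then
            wsum (Gr.ins w f s i h 1 G') A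
              (fun v => sg ((Equiv.funSplitAt w Bool).symm (false, ζ') v)) else 0))) =
        if Even (h + 1 + ∑ᶠ x : {x // x ∉ Set.range i}, A x) then
          -84 * ((1 / 2) ^ (Nat.card {e // e ≠ f} + 1) *
            wsum G' (Option.elim' 0 (A ∘ i)) (fun v => sg (ζ' v)))
        else 60 * ((1 / 2) ^ (Nat.card {e // e ≠ f} + 1) *
            wsum G' (Option.elim' 1 (A ∘ i)) (fun v => sg (ζ' v))) := by
      intro ζ'
      have k1 := key ζ' true
      have k2 := key ζ' false
      rw [wsum_cut w f i G' A _ 0, wsum_cut w f i G' A _ 1, Gr.card_ne E f]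
      have e1 : sg true = 1 := rfl
      have e2 : sg false = -1 := rfl
      rw [e1, one_pow] at k1
      rw [e2] at k2
      by_cases hev : Even (h + 1 + ∑ᶠ x : {x // x ∉ Set.range i}, A x)
      · rw [if_pos hev]
        rw [hev.neg_one_pow] at k2
        rw [pow_succ (1 / 2 : ℚ) (Nat.card {e // e ≠ f} + 1)]
        linear_combination ((1 / 2 : ℚ) ^ (Nat.card {e // e ≠ f} + 1) * (1 / 2)) * (k1 + k2)
      · rw [if_neg hev]
        rw [(Nat.not_even_iff_odd.mp hev).neg_one_pow] at k2
        rw [pow_succ (1 / 2 : ℚ) (Nat.card {e // e ≠ f} + 1)]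
        linear_combination ((1 / 2 : ℚ) ^ (Nat.card {e // e ≠ f} + 1) * (1 / 2)) * (k1 + k2)
    rw [Finset.sum_congr rfl (fun ζ' _ => key2 ζ'), wt_eq_wsum, wt_eq_wsum, if_pos hG, if_pos hG,
      finsum_eq_sum_of_fintype (fun ζ : {v // v ≠ w} → Bool => (1 / 2 : ℚ) ^
        (Nat.card {e // e ≠ f} + 1) * wsum G' (Option.elim' 0 (A ∘ i)) (fun v => sg (ζ v))),
      finsum_eq_sum_of_fintype (fun ζ : {v // v ≠ w} → Bool => (1 / 2 : ℚ) ^
        (Nat.card {e // e ≠ f} + 1) * wsum G' (Option.elim' 1 (A ∘ i)) (fun v => sg (ζ v))),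
      Finset.mul_sum, Finset.mul_sum]
    by_cases hev : Even (h + 1 + ∑ᶠ x : {x // x ∉ Set.range i}, A x)
    · simp only [if_pos hev]
    · simp only [if_neg hev]
  · rw [wt_eq_wsum, wt_eq_wsum, if_neg (fun h => hG ((hcond 0 (Nat.zero_le _)).1 h))]
    have h1 : (if 1 ≤ (G'.hf (inr none)).2 then if (Gr.ins w f s i h 1 G').Stab (γ + h) ∧
        (Gr.ins w f s i h 1 G').deg = d + 1 then ∑ᶠ (ζ : V → Bool), (1 / 2) ^ (Nat.card E + 1) *
        wsum (Gr.ins w f s i h 1 G') A fun v => sg (ζ v) else (0 : ℚ) else 0) = 0 := by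
      split_ifs with h2 h3
      · exact absurd ((hcond 1 h2).1 h3) hG
      · rfl
      · rfl
    rw [h1, wt_eq_wsum, wt_eq_wsum, if_neg hG, if_neg hG]
    simp only [add_zero, mul_zero, ite_self]

end Vale.Agent.P273
end
end
end

section

section

noncomputable section

namespace Vale.Agent.P273

open Sum
open scoped Classical

variable {V E L N R T : Type}

/-! ### Tails with one half in the environment and one at the relation -/

lemma mixed_absurd [Finite V] [Finite E] [Finite L] {Q : Env R T L N} {G : Gr V E L}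
    {γ d h : ℕ} {A : L → ℕ} (hh : 3 ≤ h)
    (hγ : γ + ∑ᶠ x, A x < 3 * d) (hw : wt G γ A d ≠ 0) {y : T × Bool} {x : L}
    (hu : Q.use (inl y) = inl x) (H : IsTail (Q.graft G) h (inr y.1, y.2)) : False := by
  obtain ⟨⟨hS1, hS2, hS3, _⟩, hd, _⟩ := wt_ne_zero hw
  have e1 : (Q.graft G).hf (inl (inr y.1, y.2)) =
      (inl (G.hf (inr x)).1, (G.hf (inr x)).2 + Q.b x) := by
    have := graft_hf_lft Q G (inl y)
    rw [Env.usehf_inl hu] at this
    exact this
  have h1 := H.gen
  have h2 := H.kap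
  have h3 := H.only
  have h4 := H.le
  rw [e1] at h1 h2 h3 h4
  rw [Env.graft_dec_inl] at h1 h2
  simp only at h1 h2 h3 h4
  set w := (G.hf (inr x)).1 with hwdef
  -- no edge at `w`
  have h5 : ∀ e s, (G.hf (inl (e, s))).1 ≠ w := by
    intro e s h6
    have := h3 (inl (inl e, s)) (by rw [Env.graft_hf_inl, h6])
    simp at this
  have h6 : ∀ v, v = w := by
    rcases hS2 {w} (by intro e; simp [h5]) with h | h
    · exact absurd h (Set.singleton_ne_empty w)
    · intro v
      have : v ∈ ({w} : Set V) := by rw [h]; trivial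
      exact this
  have h7 : IsEmpty E := ⟨fun e => h5 e true (h6 _)⟩
  have h8 : Unique V := ⟨⟨w⟩, h6⟩
  have h9 : Nat.card V = 1 := Nat.card_unique
  have h10 : Nat.card E = 0 := Nat.card_of_isEmpty
  have h11 : ∑ᶠ v, (G.dec v).1 = h := by
    rw [finsum_unique]
    rw [h6 default]
    exact h1
  have h12 : ∑ᶠ v, (G.dec v).2.sum = 0 := by
    rw [finsum_unique, h6 default]
    apply Multiset.sum_eq_zero
    intro k hk
    exact h2 k (Multiset.mem_add.2 (Or.inl hk))
  have h13 : ∀ x', x' ≠ x → (G.hf (inr x')).2 = 0 := by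
    intro x' hx'
    by_cases hused : inl x' ∈ Set.range Q.use
    · obtain ⟨z, hz⟩ := hused
      have h14 := h3 (lft E z) (by
        rw [graft_hf_lft, Env.usehf_inl hz]
        simp only
        rw [h6 (G.hf (inr x')).1])
      have h15 : z = inl y := by
        rcases z with z | n
        · simp only [lft, Sum.map_inl, inl.injEq, Prod.mk.injEq, inr.injEq] at h14
          rw [show z = y from Prod.ext h14.1 h14.2]
        · simp [lft] at h14
      rw [h15, hu, inl.injEq] at hz
      exact absurd hz.symm hx'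
    · have h14 : (G.hf (inr x')).2 + Q.b x' ∈ Q.unused G w := by
        unfold Env.unused
        have hfin : (Function.support fun x'' => ∑ᶠ (_ : inl x'' ∉ Set.range Q.use ∧
            (G.hf (inr x'')).1 = w), ({(G.hf (inr x'')).2 + Q.b x''} : Multiset ℕ)).Finite :=
          Set.toFinite _
        have := Fintype.ofFinite L
        rw [finsum_eq_sum_of_fintype]
        rw [← Finset.add_sum_erase _ _ (Finset.mem_univ x')]
        apply Multiset.mem_add.2
        left
        have hc : inl x' ∉ Set.range Q.use ∧ (G.hf (inr x')).1 = w := ⟨hused, h6 _⟩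
        rw [finsum_eq_if, if_pos hc]
        simp
      have := h2 _ (Multiset.mem_add.2 (Or.inr h14))
      omega
  have h16 : ∑ᶠ y, (G.hf y).2 ≤ 1 := by
    rw [finsum_eq_single _ (inr x)]
    · omega
    · rintro (z | x') hz
      · exact (h7.false z.1).elim
      · exact h13 x' (fun h => hz (by rw [h]))
  unfold Gr.deg at hd
  rw [h10, h12] at hd
  rw [h11, h9, h10] at hS3
  omega

namespace Gr

variable {L' : Type} {G : Gr V E L} {w : V} {f : E} {s : Bool} {i : L' → L}

lemma cut_snd_none (hne : ∀ y, (G.hf (emb f s i y)).1 ≠ w) :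
    ((G.cut w f s i hne).hf (inr none)).2 =
      (G.hf (emb f s i (inr none))).2 + (G.hf (inl (f, s))).2 := by
  unfold Gr.cut
  simp only [if_true]

lemma cut_snd_ne (hne : ∀ y, (G.hf (emb f s i y)).1 ≠ w)
    {z : ({e // e ≠ f} × Bool) ⊕ Option L'} (hz : z ≠ inr none) :
    ((G.cut w f s i hne).hf z).2 = (G.hf (emb f s i z)).2 := by
  unfold Gr.cut
  simp only [if_neg hz, add_zero]

end Gr

/-! ### Tails inside the relation -/

/-- The projection of the legs. -/
def proj (J : Set L) (x : L) : Option {x // x ∉ J} := if hx : x ∉ J then some ⟨x, hx⟩ else none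

lemma proj_of {J : Set L} {x : L} (hx : x ∉ J) : proj J x = some ⟨x, hx⟩ := dif_pos hx

/-- The environment after removal of a tail inside the relation that carries the legs in `J`. -/
def Env.plus (Q : Env R T L N) (J : Set L) : Env R T (Option {x // x ∉ J}) (Option N) :=
  ⟨Q.dec, Sum.elim (fun y => (Q.use (inl y)).map (proj J) id)
    (Option.elim' (inl none) fun n => (Q.use (inr n)).map (proj J) id),
    Option.elim' 0 fun x => Q.b x.1⟩

/-- Old half-edges of the environment. -/
def oldz (z : (T × Bool) ⊕ N) : (T × Bool) ⊕ Option N := z.map id some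

lemma oldz_cases (z : (T × Bool) ⊕ Option N) : z = inr none ∨ ∃ z', z = oldz z' := by
  rcases z with y | (_ | n)
  · exact Or.inr ⟨inl y, rfl⟩
  · exact Or.inl rfl
  · exact Or.inr ⟨inr n, rfl⟩

lemma plus_use_old (Q : Env R T L N) (J : Set L) (z : (T × Bool) ⊕ N) :
    (Q.plus J).use (oldz z) = (Q.use z).map (proj J) id := by
  rcases z with y | n
  · rfl
  · rfl

lemma plus_use_none (Q : Env R T L N) (J : Set L) :
    (Q.plus J).use (inr none) = inl none := rfl

/-- `J` consists of unused legs with `b = 0`. -/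
def Env.Allowed (Q : Env R T L N) (J : Set L) : Prop :=
  ∀ x ∈ J, inl x ∉ Set.range Q.use ∧ Q.b x = 0

lemma Env.Allowed.plus_use_inl {Q : Env R T L N} {J : Set L} (hJ : Q.Allowed J)
    {z : (T × Bool) ⊕ N} {x : L} (hz : Q.use z = inl x) :
    ∃ hx : x ∉ J, (Q.plus J).use (oldz z) = inl (some ⟨x, hx⟩) := by
  have hx : x ∉ J := fun h => (hJ x h).1 ⟨z, hz⟩
  refine ⟨hx, ?_⟩
  rw [plus_use_old, hz, Sum.map_inl, proj_of hx]

lemma plus_use_inr {Q : Env R T L N} {J : Set L}
    {z : (T × Bool) ⊕ N} {p : R × ℕ} (hz : Q.use z = inr p) :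
    (Q.plus J).use (oldz z) = inr p := by
  rw [plus_use_old, hz]
  rfl

lemma Env.Allowed.plus_use_eq {Q : Env R T L N} {J : Set L} (hJ : Q.Allowed J)
    {z : (T × Bool) ⊕ Option N} {x' : Option {x // x ∉ J}} (hz : (Q.plus J).use z = inl x') :
    (z = inr none ∧ x' = none) ∨ ∃ z' x, z = oldz z' ∧ x' = some x ∧ Q.use z' = inl x.1 := by
  rcases oldz_cases z with rfl | ⟨z', rfl⟩
  · left
    refine ⟨rfl, ?_⟩
    rw [plus_use_none, inl.injEq] at hz
    exact hz.symm
  · right
    rcases hz' : Q.use z' with x | p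
    · obtain ⟨hx, h1⟩ := hJ.plus_use_inl hz'
      rw [h1, inl.injEq] at hz
      exact ⟨z', ⟨x, hx⟩, rfl, hz.symm, hz'⟩
    · rw [plus_use_inr hz'] at hz
      simp at hz

lemma Env.Allowed.plus_inj {Q : Env R T L N} {J : Set L} (hJ : Q.Allowed J)
    (hQ : ∀ y z x, Q.use y = inl x → Q.use z = inl x → y = z) :
    ∀ y z x, (Q.plus J).use y = inl x → (Q.plus J).use z = inl x → y = z := by
  intro y z x hy hz
  rcases hJ.plus_use_eq hy with ⟨rfl, rfl⟩ | ⟨y', x1, rfl, rfl, h1⟩
  · rcases hJ.plus_use_eq hz with ⟨rfl, _⟩ | ⟨z', x2, rfl, h3, _⟩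
    · rfl
    · simp at h3
  · rcases hJ.plus_use_eq hz with ⟨rfl, h3⟩ | ⟨z', x2, rfl, h3, h4⟩
    · simp at h3
    · rw [Option.some.injEq] at h3
      rw [← h3] at h4
      rw [hQ _ _ _ h1 h4]

variable {G : Gr V E L} {w : V} {f : E} {s : Bool} {h c : ℕ}

lemma range_val (J : Set L) (x : L) :
    x ∉ Set.range (Subtype.val : {x // x ∉ J} → L) ↔ x ∈ J := by
  rw [Subtype.range_coe_subtype]
  simp

lemma Gr.TailAt.mem_iff {J : Set L} (H : G.TailAt w f s (Subtype.val : {x // x ∉ J} → L) h c)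
    (x : L) : (G.hf (inr x)).1 = w ↔ x ∈ J := by
  constructor
  · intro hx
    by_contra hJ
    exact H.cd.hne (inr (some ⟨x, hJ⟩)) hx
  · intro hx
    exact H.cd.hJ x ((range_val J x).2 hx)

lemma Env.Allowed.unused_eq {Q : Env R T L N} {J : Set L} (hJ : Q.Allowed J)
    (H : G.TailAt w f s (Subtype.val : {x // x ∉ J} → L) h c) (v : {v // v ≠ w}) :
    (Q.plus J).unused (G.cut w f s _ H.cd.hne) v = Q.unused G v.1 := by
  unfold Env.unused
  symm
  have key : ∀ x : L, (inl x ∉ Set.range Q.use ∧ (G.hf (inr x)).1 = v.1) → x ∉ J := by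
    intro x hx hxJ
    exact v.2 (hx.2.symm.trans ((H.mem_iff x).2 hxJ))
  have hBij : Set.BijOn (proj J) {x | inl x ∉ Set.range Q.use ∧ (G.hf (inr x)).1 = v.1}
      {x' | inl x' ∉ Set.range (Q.plus J).use ∧
        ((G.cut w f s _ H.cd.hne).hf (inr x')).1 = v} := by
    refine ⟨?_, ?_, ?_⟩
    · intro x hx
      have hxJ := key x hx
      rw [proj_of hxJ]
      refine ⟨?_, ?_⟩
      · rintro ⟨z, hz⟩
        rcases hJ.plus_use_eq hz with ⟨_, h3⟩ | ⟨z', x2, _, h3, h4⟩
        · simp at h3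
        · rw [Option.some.injEq] at h3
          apply hx.1
          rw [← h3] at h4
          exact ⟨z', h4⟩
      · exact Subtype.ext hx.2
    · intro x hx x' hx' hxx
      rw [proj_of (key x hx), proj_of (key x' hx')] at hxx
      simpa using hxx
    · rintro (_ | x') hx'
      · exact absurd ⟨inr none, plus_use_none Q J⟩ hx'.1
      · refine ⟨x'.1, ⟨?_, ?_⟩, proj_of x'.2⟩
        · rintro ⟨z, hz⟩
          apply hx'.1
          obtain ⟨hx, h1⟩ := hJ.plus_use_inl hz
          exact ⟨_, h1⟩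
        · exact congrArg Subtype.val hx'.2
  refine finsum_mem_eq_of_bijOn (proj J) hBij ?_
  intro x hx
  have hxJ := key x hx
  rw [proj_of hxJ]
  rw [Gr.cut_snd_ne _ (by simp)]
  rfl

lemma Env.Allowed.usehf_eq {Q : Env R T L N} {J : Set L} (hJ : Q.Allowed J)
    (H : G.TailAt w f s (Subtype.val : {x // x ∉ J} → L) h c) (z : (T × Bool) ⊕ N) :
    ((Q.plus J).usehf (G.cut w f s _ H.cd.hne) (oldz z)).map (Sum.map Subtype.val id) id =
      Q.usehf G z := by
  rcases hz : Q.use z with x | p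
  · obtain ⟨hx, h1⟩ := hJ.plus_use_inl hz
    rw [Env.usehf_inl h1, Env.usehf_inl hz]
    refine Prod.ext rfl ?_
    simp only [Prod.map_snd, id]
    rw [Gr.cut_snd_ne _ (by simp)]
    rfl
  · rw [Env.usehf_inr (plus_use_inr hz), Env.usehf_inr hz]
    rfl

lemma Env.Allowed.iso {Q : Env R T L N} {J : Set L} (hJ : Q.Allowed J)
    (H : G.TailAt w f s (Subtype.val : {x // x ∉ J} → L) h c)
    (ht : IsTail (Q.graft G) h (inl f, s)) :
    ((Q.plus J).graft (G.cut w f s _ H.cd.hne)).Iso ht.cut := by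
  have hw := H.cd.hw
  subst hw
  have k1 : ∀ v : {v // v ≠ (G.hf (inl (f, s))).1}, (inl v.1 : V ⊕ R) ≠
      ((Q.graft G).hf (inl (inl f, s))).1 := by
    intro v
    rw [Env.graft_hf_inl]
    simp only [ne_eq, inl.injEq]
    exact v.2
  have k2 : ∀ r : R, (inr r : V ⊕ R) ≠ ((Q.graft G).hf (inl (inl f, s))).1 := by
    intro r
    rw [Env.graft_hf_inl]
    simp
  have k3 : ∀ e : {e // e ≠ f} ⊕ T, Sum.map Subtype.val id e ≠ (inl f : E ⊕ T) := by
    rintro (e | t)
    · simp only [Sum.map_inl, ne_eq, inl.injEq]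
      exact e.2
    · simp
  let φ : {v // v ≠ (G.hf (inl (f, s))).1} ⊕ R →
      {v // v ≠ ((Q.graft G).hf (inl (inl f, s))).1} :=
    Sum.elim (fun v => ⟨inl v.1, k1 v⟩) fun r => ⟨inr r, k2 r⟩
  let ρ : ({e // e ≠ f} ⊕ T) × Bool → {e : E ⊕ T // e ≠ inl f} × Bool :=
    fun z => (⟨Sum.map Subtype.val id z.1, k3 z.1⟩, z.2)
  have hφ : ∀ v, (φ v).1 = Sum.map Subtype.val id v := by
    rintro (v | v)
    · rfl
    · rfl
  refine ⟨φ, ρ, ⟨?_, ?_⟩, ⟨?_, ?_⟩, fun e => rfl, ?_, ?_⟩
  · intro a b hab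
    have h1 := congrArg Subtype.val hab
    rw [hφ, hφ] at h1
    exact Function.Injective.sumMap Subtype.val_injective Function.injective_id h1
  · rintro ⟨v | r, hv⟩
    · refine ⟨inl ⟨v, ?_⟩, rfl⟩
      rintro rfl
      exact hv rfl
    · exact ⟨inr r, rfl⟩
  · rintro ⟨a, s⟩ ⟨b, t⟩ hab
    have h1 := congrArg Subtype.val (congrArg Prod.fst hab)
    have h2 := congrArg Prod.snd hab
    exact Prod.ext (Function.Injective.sumMap Subtype.val_injective Function.injective_id h1) h2
  · rintro ⟨⟨e | t, he⟩, s⟩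
    · refine ⟨(inl ⟨e, ?_⟩, s), rfl⟩
      rintro rfl
      exact he rfl
    · exact ⟨(inr t, s), rfl⟩
  · rintro (v | r)
    · change (Q.graft G).dec (inl v.1) = ((Q.plus J).graft _).dec (inl v)
      rw [Env.graft_dec_inl, Env.graft_dec_inl, hJ.unused_eq H]
      rfl
    · rfl
  · intro z
    rcases graft_cases z with ⟨e, s', rfl⟩ | ⟨z, rfl⟩
    · refine Prod.ext (Subtype.ext ?_) ?_
      · rfl
      · have h1 := ht.cut_snd_ne (z := Sum.map ρ id (inl (inl e, s'))) (by simp)
        refine h1.trans ?_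
        change (G.hf (inl (e.1, s'))).2 =
          ((G.cut _ f s Subtype.val H.cd.hne).hf (inl (e, s'))).2
        rw [Gr.cut_snd_ne _ (by simp)]
        rfl
    · rcases oldz_cases z with rfl | ⟨z, rfl⟩
      · refine Prod.ext (Subtype.ext ?_) ?_
        · rfl
        · have h1 := ht.cut_snd_none
          rw [graft_hf_lft, Env.usehf_inl (plus_use_none Q J)]
          simp only [Prod.map_snd, id]
          rw [Gr.cut_snd_none]
          exact h1
      · have k4 : emb (inl f) s (id : N → N) (Sum.map ρ id (lft _ (oldz z))) = lft E z := by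
          rcases z with ⟨t, s⟩ | n
          · rfl
          · rfl
        have k5 : (Sum.map ρ id (lft {e // e ≠ f} (oldz z))) ≠ inr none := by
          rcases z with ⟨t, s⟩ | n
          · simp [lft, oldz]
          · simp [lft, oldz]
        have k6 := (congrArg (Q.graft G).hf k4).trans (graft_hf_lft Q G z)
        have k7 := hJ.usehf_eq H z
        refine Prod.ext (Subtype.ext ?_) ?_
        · have h1 := ht.cut_fst (Sum.map ρ id (lft _ (oldz z)))
          rw [h1]
          refine (congrArg Prod.fst k6).trans ?_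
          rw [← k7, graft_hf_lft]
          simp only [Prod.map_fst]
          rw [hφ]
        · have h1 := ht.cut_snd_ne k5
          rw [h1]
          refine (congrArg Prod.snd k6).trans ?_
          rw [← k7, graft_hf_lft]
          rfl

end Vale.Agent.P273
end
end
end

section

section

noncomputable section

namespace Vale.Agent.P273

open Sum
open scoped Classical

variable {V E L L' N R T : Type}

lemma mem_unused [Finite L] {Q : Env R T L N} {G : Gr V E L} {v : V} {k : ℕ} :
    k ∈ Q.unused G v ↔ ∃ x, inl x ∉ Set.range Q.use ∧ (G.hf (inr x)).1 = v ∧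
      k = (G.hf (inr x)).2 + Q.b x := by
  unfold Env.unused
  have := Fintype.ofFinite L
  rw [finsum_eq_sum_of_fintype, Multiset.mem_sum]
  constructor
  · rintro ⟨x, _, hx⟩
    rw [finsum_eq_if] at hx
    split_ifs at hx with hc
    · exact ⟨x, hc.1, hc.2, Multiset.mem_singleton.1 hx⟩
    · simp at hx
  · rintro ⟨x, h1, h2, h3⟩
    refine ⟨x, Finset.mem_univ x, ?_⟩
    rw [finsum_eq_if, if_pos ⟨h1, h2⟩]
    exact Multiset.mem_singleton.2 h3

lemma card_unused [Finite L] {Q : Env R T L N} {G : Gr V E L} {v : V} :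
    Multiset.card (Q.unused G v) =
      Nat.card {x : L // inl x ∉ Set.range Q.use ∧ (G.hf (inr x)).1 = v} := by
  unfold Env.unused
  have := Fintype.ofFinite L
  rw [finsum_eq_sum_of_fintype]
  have h1 : ∀ s : Finset L, ∀ F : L → Multiset ℕ,
      Multiset.card (∑ x ∈ s, F x) = ∑ x ∈ s, Multiset.card (F x) := by
    intro s F
    exact map_sum Multiset.cardHom F s
  rw [h1, Nat.card_eq_fintype_card, Fintype.card_subtype, Finset.card_filter]
  apply Finset.sum_congr rfl
  intro x _
  rw [finsum_eq_if]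
  split_ifs <;> rfl

lemma isTail_graft_inl_of [Finite L] {Q : Env R T L N} {G : Gr V E L}
    (h0 : ∀ v, 0 ∉ (G.dec v).2) {h : ℕ} {f : E} {s : Bool}
    (H : IsTail (Q.graft G) h (inl f, s)) :
    Q.Allowed {x | (G.hf (inr x)).1 = (G.hf (inl (f, s))).1} ∧ (G.hf (inl (f, s))).2 ≤ 1 ∧
      G.TailAt (G.hf (inl (f, s))).1 f s
        (Subtype.val : {x // x ∉ {x | (G.hf (inr x)).1 = (G.hf (inl (f, s))).1}} → L) h
        (G.hf (inl (f, s))).2 := by
  have h1 := H.gen
  have h2 := H.kap
  have h3 := H.only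
  have h4 := H.le
  rw [Env.graft_hf_inl] at h1 h2 h3 h4
  rw [Env.graft_dec_inl] at h1 h2
  simp only at h1 h2 h3 h4
  set w := (G.hf (inl (f, s))).1 with hw
  have hall : ∀ x, (G.hf (inr x)).1 = w → inl x ∉ Set.range Q.use := by
    rintro x hx ⟨z, hz⟩
    have := h3 (lft E z) (by rw [graft_hf_lft, Env.usehf_inl hz, hx])
    rcases z with z | n
    · simp [lft] at this
    · simp [lft] at this
  have hzero : ∀ x, (G.hf (inr x)).1 = w → (G.hf (inr x)).2 + Q.b x = 0 := by
    intro x hx
    exact h2 _ (Multiset.mem_add.2 (Or.inr (mem_unused.2 ⟨x, hall x hx, hx, rfl⟩)))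
  refine ⟨?_, h4, ⟨?_, ?_, ?_, ?_⟩, ?_, rfl, ?_⟩
  · intro x hx
    have := hzero x hx
    exact ⟨hall x hx, by omega⟩
  · exact Subtype.val_injective
  · rfl
  · rintro (⟨e, s'⟩ | (_ | x))
    · intro h5
      have := h3 (inl (inl e.1, s')) (by rw [Env.graft_hf_inl]; rw [emb_inl] at h5; rw [h5])
      simp only [inl.injEq, Prod.mk.injEq] at this
      exact e.2 this.1
    · intro h5
      have := h3 (inl (inl f, !s)) (by rw [Env.graft_hf_inl]; rw [emb_none] at h5; rw [h5])
      simp at this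
    · intro h5
      exact x.2 h5
  · intro x hx
    rw [range_val] at hx
    exact hx
  · refine Prod.ext h1 ?_
    apply Multiset.eq_zero_of_forall_notMem
    intro k hk
    have := h2 k (Multiset.mem_add.2 (Or.inl hk))
    subst this
    exact h0 w hk
  · intro x hx
    rw [range_val] at hx
    have := hzero x hx
    omega

lemma isTail_graft_inl [Finite L] {Q : Env R T L N} {G : Gr V E L} {h c : ℕ} {w : V} {f : E}
    {s : Bool} {J : Set L} (hJ : Q.Allowed J) (hc : c ≤ 1)
    (H : G.TailAt w f s (Subtype.val : {x // x ∉ J} → L) h c) :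
    IsTail (Q.graft G) h (inl f, s) := by
  have hw := H.cd.hw
  subst hw
  refine ⟨?_, ?_, ?_, ?_⟩
  · rw [Env.graft_hf_inl, Env.graft_dec_inl, H.dec]
  · rw [Env.graft_hf_inl, Env.graft_dec_inl, H.dec]
    intro k hk
    rw [zero_add, mem_unused] at hk
    obtain ⟨x, hx1, hx2, rfl⟩ := hk
    have hxJ := (H.mem_iff x).1 hx2
    rw [H.leg x ((range_val J x).2 hxJ), (hJ x hxJ).2]
  · intro z hz
    rw [Env.graft_hf_inl] at hz
    rcases graft_cases z with ⟨e, s', rfl⟩ | ⟨z, rfl⟩
    · rw [Env.graft_hf_inl] at hz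
      simp only [inl.injEq] at hz
      by_contra hne
      have h1 : (inl (e, s') : (E × Bool) ⊕ L) ∈
          Set.range (emb f s (Subtype.val : {x // x ∉ J} → L)) := by
        apply mem_range_emb
        · simp only [ne_eq, inl.injEq]
          intro h
          rw [Prod.mk.injEq] at h
          apply hne
          rw [h.1, h.2]
        · intro x hx
          simp at hx
      exact (H.cd.at_w_iff _).2 h1 hz
    · rw [graft_hf_lft] at hz
      rcases hz' : Q.use z with x | p
      · rw [Env.usehf_inl hz'] at hz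
        simp only [inl.injEq] at hz
        exact absurd ⟨z, hz'⟩ (hJ x ((H.mem_iff x).1 hz)).1
      · rw [Env.usehf_inr hz'] at hz
        simp at hz
  · rw [Env.graft_hf_inl]
    simp only
    rw [H.exp]
    exact hc

/-- The class of the graph with a tail of the relation removed. -/
def psi (g : ℕ) (Q : Env R T L N) (h : ℕ) (G : Gr V E L) (w : V) (f : E) (s : Bool) (J : Set L)
    (c : ℕ) : Sq g (Option N) :=
  if H : G.TailAt w f s (Subtype.val : {x // x ∉ J} → L) h c then
    mk g (Option N) (dl ((Q.plus J).graft (G.cut w f s _ H.cd.hne)) 1)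
  else 0

lemma term_inl_of [Finite L] {g : ℕ} {Q : Env R T L N} {G : Gr V E L} {h c : ℕ} {w : V} {f : E}
    {s : Bool} {J : Set L} (hJ : Q.Allowed J) (hc : c ≤ 1)
    (H : G.TailAt w f s (Subtype.val : {x // x ∉ J} → L) h c) :
    term g h (Q.graft G) (inl f, s) = zfac h (Nat.card J) • psi g Q h G w f s J c := by
  have ht := isTail_graft_inl hJ hc H
  rw [term_of ht, psi, dif_pos H, mk_iso (hJ.iso H ht)]
  congr 2
  rw [Env.graft_hf_inl, H.cd.hw, Env.graft_dec_inl, H.dec]
  simp only
  rw [zero_add, card_unused]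
  apply Nat.card_congr
  refine Equiv.subtypeEquivRight fun x => ?_
  constructor
  · rintro ⟨h1, h2⟩
    exact (H.mem_iff x).1 h2
  · intro hx
    exact ⟨(hJ x hx).1, (H.mem_iff x).2 hx⟩

lemma term_inl_eq_sum [Finite V] [Finite L] {g : ℕ} {Q : Env R T L N} {G : Gr V E L}
    (h0 : ∀ v, 0 ∉ (G.dec v).2) {h : ℕ} {f : E} {s : Bool}
    [Fintype V] [Fintype {J : Set L // Q.Allowed J}] :
    term g h (Q.graft G) (inl f, s) = ∑ w : V, ∑ J : {J : Set L // Q.Allowed J},
      ∑ c : Fin 2, zfac h (Nat.card J.1) • psi g Q h G w f s J.1 c := by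
  by_cases ht : IsTail (Q.graft G) h (inl f, s)
  · obtain ⟨h1, h2, h3⟩ := isTail_graft_inl_of h0 ht
    have h2' : (G.hf (inl (f, s))).2 < 2 := by omega
    rw [Finset.sum_eq_single (G.hf (inl (f, s))).1,
      Finset.sum_eq_single ⟨_, h1⟩, Finset.sum_eq_single ⟨_, h2'⟩, term_inl_of h1 h2 h3]
    · intro c _ hc
      rw [psi, dif_neg, smul_zero]
      intro H
      exact hc (Fin.ext H.exp.symm)
    · intro hc
      exact absurd (Finset.mem_univ _) hc
    · intro J _ hJ
      apply Finset.sum_eq_zero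
      intro c _
      rw [psi, dif_neg, smul_zero]
      intro H
      apply hJ
      apply Subtype.ext
      ext x
      exact (H.mem_iff x).symm
    · intro hJ
      exact absurd (Finset.mem_univ _) hJ
    · intro w _ hw
      apply Finset.sum_eq_zero
      intro J _
      apply Finset.sum_eq_zero
      intro c _
      rw [psi, dif_neg, smul_zero]
      intro H
      exact hw H.cd.hw.symm
    · intro hw
      exact absurd (Finset.mem_univ _) hw
  · rw [term_not ht]
    symm
    apply Finset.sum_eq_zero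
    intro w _
    apply Finset.sum_eq_zero
    intro J _
    apply Finset.sum_eq_zero
    intro c _
    rw [psi, dif_neg, smul_zero]
    intro H
    exact ht (isTail_graft_inl J.2 (by omega) H)

end Vale.Agent.P273
end
end
end

section

section

noncomputable section

namespace Vale.Agent.P273

open Sum
open scoped Classical

variable {V E L L' N R T : Type}

/-! ### Relabelling -/

/-- Rename vertices and edges. -/
def Gr.relab {V' E' : Type} (φ : V ≃ V') (ρ : E ≃ E') (G : Gr V E L) : Gr V' E' L :=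
  ⟨fun v => G.dec (φ.symm v), Sum.elim
    (fun y => (φ (G.hf (inl (ρ.symm y.1, y.2))).1, (G.hf (inl (ρ.symm y.1, y.2))).2))
    fun x => (φ (G.hf (inr x)).1, (G.hf (inr x)).2)⟩

/-- Renaming is a bijection. -/
def relabEquiv {V' E' : Type} (φ : V ≃ V') (ρ : E ≃ E') : Gr V E L ≃ Gr V' E' L where
  toFun := Gr.relab φ ρ
  invFun := Gr.relab φ.symm ρ.symm
  left_inv G := by
    apply Gr.ext'
    · intro v
      simp [Gr.relab]
    · rintro (⟨e, s⟩ | x)
      · simp [Gr.relab]
      · simp [Gr.relab]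
  right_inv G := by
    apply Gr.ext'
    · intro v
      simp [Gr.relab]
    · rintro (⟨e, s⟩ | x)
      · simp [Gr.relab]
      · simp [Gr.relab]

lemma wt_relab {V' E' : Type} (φ : V ≃ V') (ρ : E ≃ E') (G : Gr V E L) (γ : ℕ) (A : L → ℕ)
    (d : ℕ) : wt (G.relab φ ρ) γ A d = wt G γ A d := by
  apply wt_relabel G (G.relab φ ρ) φ ρ
  · intro v
    simp [Gr.relab]
  · intro e s
    simp [Gr.relab]
  · intro x
    rfl

lemma graft_relab {V' E' : Type} (φ : V ≃ V') (ρ : E ≃ E') (G : Gr V E L) (Q : Env R T L N) :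
    (Q.graft G).Iso (Q.graft (G.relab φ ρ)) := by
  refine Gr.Iso.mk' (Equiv.sumCongr φ (Equiv.refl R)) (Equiv.sumCongr ρ (Equiv.refl T)) ?_ ?_ ?_
  · rintro (v | r)
    · rw [Env.graft_dec_inl]
      simp only [Equiv.sumCongr_apply, Sum.map_inl, Equiv.coe_refl]
      rw [Env.graft_dec_inl]
      have h1 : (G.relab φ ρ).dec (φ v) = G.dec v := by simp [Gr.relab]
      rw [h1]
      have h2 : Q.unused (G.relab φ ρ) (φ v) = Q.unused G v := by
        unfold Env.unused
        apply finsum_congr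
        intro x
        have h3 : (inl x ∉ Set.range Q.use ∧ ((G.relab φ ρ).hf (inr x)).1 = φ v) =
            (inl x ∉ Set.range Q.use ∧ (G.hf (inr x)).1 = v) := by
          have : ((G.relab φ ρ).hf (inr x)).1 = φ (G.hf (inr x)).1 := rfl
          rw [this, φ.injective.eq_iff]
        rw [finsum_eq_if, finsum_eq_if]
        simp only [h3]
        rfl
      rw [h2]
    · rfl
  · rintro (e | t) s
    · simp only [Equiv.sumCongr_apply, Sum.map_inl]
      rw [Env.graft_hf_inl, Env.graft_hf_inl]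
      simp [Gr.relab]
    · simp only [Equiv.sumCongr_apply, Sum.map_inr, Equiv.coe_refl, id]
      rw [Env.graft_hf_inr, Env.graft_hf_inr]
      rcases hz : Q.use (inl (t, s)) with x | p
      · rw [Env.usehf_inl hz, Env.usehf_inl hz]
        rfl
      · rw [Env.usehf_inr hz, Env.usehf_inr hz]
        rfl
  · intro n
    rw [Env.graft_hf_leg, Env.graft_hf_leg]
    rcases hz : Q.use (inr n) with x | p
    · rw [Env.usehf_inl hz, Env.usehf_inl hz]
      rfl
    · rw [Env.usehf_inr hz, Env.usehf_inr hz]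
      rfl

/-- The sum over all graphs on given vertex and edge sets. -/
def Phi (g : ℕ) (Q : Env R T L N) (γ : ℕ) (A : L → ℕ) (d : ℕ) (V E : Type) : Sq g N :=
  ∑ᶠ G : Gr V E L, wt G γ A d • mk g N (dl (Q.graft G) 1)

lemma Phi_congr (g : ℕ) (Q : Env R T L N) (γ : ℕ) (A : L → ℕ) (d : ℕ) {V E V' E' : Type}
    (φ : V ≃ V') (ρ : E ≃ E') : Phi g Q γ A d V E = Phi g Q γ A d V' E' := by
  unfold Phi
  rw [← finsum_comp_equiv (relabEquiv φ ρ)]
  apply finsum_congr
  intro G
  change _ = wt (G.relab φ ρ) γ A d • mk g N (dl (Q.graft (G.relab φ ρ)) 1)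
  rw [wt_relab, ← mk_iso (graft_relab φ ρ G Q)]

/-- The class of a relation. -/
lemma mk_pix [Finite L] (g : ℕ) (Q : Env R T L N) (γ : ℕ) (A : L → ℕ) (d : ℕ) :
    mk g N (Q.pix γ A d) = ∑ k ∈ Finset.range (d + 2), ∑ m ∈ Finset.range (d + 1),
      (1 / ((k.factorial : ℚ) * m.factorial * 2 ^ m)) • Phi g Q γ A d (Fin k) (Fin m) := by
  rw [Env.pix_eq_sum, map_sum, supp, Finset.sum_sigma]
  apply Finset.sum_congr rfl
  intro k _
  rw [Finset.sum_sigma]
  apply Finset.sum_congr rfl
  intro m _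
  rw [Phi, finsum_eq_sum_of_support_subset (s := (finite_wt_km γ d A k m).toFinset)]
  · rw [Finset.smul_sum]
    apply Finset.sum_congr rfl
    intro G _
    rw [smul_smul, ← map_smul, smul_dl]
    congr 2
    simp only
    ring
  · intro G hG
    rw [Set.Finite.coe_toFinset]
    intro h0
    apply hG
    simp only
    rw [h0, zero_smul]

/-! ### The local computation -/

/-- Parameters of the relation obtained by removing a tail carrying the legs in `J`. -/
def par (h : ℕ) (A : L → ℕ) (J : Set L) : ℕ :=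
  if Even (h + 1 + ∑ᶠ x : {x // x ∉ Set.range (Subtype.val : {x // x ∉ J} → L)}, A x) then 0 else 1

/-- The factor. -/
def fac (h : ℕ) (A : L → ℕ) (J : Set L) : ℚ := if par h A J = 0 then -84 else 60

lemma wt_ins' [Finite V] [Finite E] [Finite L] (w : V) (f : E) (s : Bool) (J : Set L)
    (h : ℕ) (hh : 1 ≤ h) (G' : Gr {v // v ≠ w} {e // e ≠ f} (Option {x // x ∉ J}))
    (γ : ℕ) (A : L → ℕ) (d : ℕ) :
    wt (Gr.ins w f s (Subtype.val : {x // x ∉ J} → L) h 0 G') (γ + h) A (d + 1) +
      (if 1 ≤ (G'.hf (inr none)).2 then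
        wt (Gr.ins w f s (Subtype.val : {x // x ∉ J} → L) h 1 G') (γ + h) A (d + 1) else 0) =
    fac h A J * wt G' γ (Option.elim' (par h A J) (fun x => A x.1)) d := by
  rw [wt_ins w f s _ Subtype.val_injective h hh]
  unfold fac par
  split_ifs with h1 h2 h2
  · rfl
  · simp at h2
  · simp at h2
  · rfl

lemma sum_psi [Finite V] [Finite E] [Finite L] {g : ℕ} (Q : Env R T L N) (w : V) (f : E) (s : Bool)
    (J : Set L) (h : ℕ) (γ : ℕ) (A : L → ℕ) (d c : ℕ) (S : Finset (Gr V E L))
    (hS : ∀ G, wt G γ A d ≠ 0 → G ∈ S) :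
    ∑ G ∈ S, wt G γ A d • psi g Q h G w f s J c =
      ∑ᶠ G' : Gr {v // v ≠ w} {e // e ≠ f} (Option {x // x ∉ J}),
        (if c ≤ (G'.hf (inr none)).2 then
          wt (Gr.ins w f s (Subtype.val : {x // x ∉ J} → L) h c G') γ A d else 0) •
          mk g (Option N) (dl ((Q.plus J).graft G') 1) := by
  rw [← finsum_eq_sum_of_support_subset]
  swap
  · intro G hG
    apply hS
    intro h0
    apply hG
    simp only
    rw [h0, zero_smul]
  let j : {G' : Gr {v // v ≠ w} {e // e ≠ f} (Option {x // x ∉ J}) // c ≤ (G'.hf (inr none)).2} →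
      Gr V E L := fun G' => Gr.ins w f s (Subtype.val : {x // x ∉ J} → L) h c G'.1
  have hj : j.Injective := by
    intro G1 G2 h12
    apply Subtype.ext
    have h1 := Gr.cut_ins (w := w) (f := f) (s := s) (h := h) Subtype.val_injective G1.2
    have h2 := Gr.cut_ins (w := w) (f := f) (s := s) (h := h) Subtype.val_injective G2.2
    rw [← h1, ← h2]
    have h12' : Gr.ins w f s (Subtype.val : {x // x ∉ J} → L) h c G1.1 =
      Gr.ins w f s (Subtype.val : {x // x ∉ J} → L) h c G2.1 := h12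
    congr 1
  have hsupp : (Function.support fun G => wt G γ A d • psi g Q h G w f s J c) ⊆ Set.range j := by
    intro G hG
    by_cases H : G.TailAt w f s (Subtype.val : {x // x ∉ J} → L) h c
    · exact ⟨⟨G.cut w f s _ H.cd.hne, Gr.le_cut H⟩, Gr.ins_cut H⟩
    · exfalso
      apply hG
      simp only
      rw [psi, dif_neg H, smul_zero]
  calc ∑ᶠ G, wt G γ A d • psi g Q h G w f s J c
      = ∑ᶠ G ∈ Set.range j, wt G γ A d • psi g Q h G w f s J c := by
        rw [finsum_mem_def, Set.indicator_eq_self.2 hsupp]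
    _ = ∑ᶠ G', wt (j G') γ A d • psi g Q h (j G') w f s J c := finsum_mem_range hj
    _ = ∑ᶠ G' : {G' : Gr {v // v ≠ w} {e // e ≠ f} (Option {x // x ∉ J}) //
          c ≤ (G'.hf (inr none)).2},
          wt (Gr.ins w f s (Subtype.val : {x // x ∉ J} → L) h c G'.1) γ A d •
          mk g (Option N) (dl ((Q.plus J).graft G'.1) 1) := by
        apply finsum_congr
        intro G'
        have H := Gr.ins_tailAt (w := w) (f := f) (s := s) (h := h) (c := c) (G' := G'.1)
          (Subtype.val_injective : (Subtype.val : {x // x ∉ J} → L).Injective)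
        have h1 := Gr.cut_ins (w := w) (f := f) (s := s) (h := h) Subtype.val_injective G'.2
        change wt (Gr.ins w f s (Subtype.val : {x // x ∉ J} → L) h c G'.1) γ A d •
          psi g Q h (Gr.ins w f s (Subtype.val : {x // x ∉ J} → L) h c G'.1) w f s J c = _
        rw [psi, dif_pos H, h1]
    _ = _ := by
        refine Eq.trans (finsum_subtype_eq_finsum_cond (f := fun G' : Gr {v // v ≠ w} {e // e ≠ f}
          (Option {x // x ∉ J}) => wt (Gr.ins w f s (Subtype.val : {x // x ∉ J} → L) h c G') γ A d •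
          mk g (Option N) (dl ((Q.plus J).graft G') 1)) _) ?_
        apply finsum_congr
        intro G'
        rw [finsum_eq_if]
        split_ifs
        · rfl
        · rw [zero_smul]

lemma support_finite [Finite V] [Finite E] [Finite L] {g : ℕ} (Q : Env R T L N) (w : V) (f : E)
    (s : Bool) (J : Set L) (h : ℕ) (γ : ℕ) (A : L → ℕ) (d c : ℕ) (S : Finset (Gr V E L))
    (hS : ∀ G, wt G γ A d ≠ 0 → G ∈ S) :
    (Function.support fun G' : Gr {v // v ≠ w} {e // e ≠ f} (Option {x // x ∉ J}) =>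
        (if c ≤ (G'.hf (inr none)).2 then
          wt (Gr.ins w f s (Subtype.val : {x // x ∉ J} → L) h c G') γ A d else 0) •
          mk g (Option N) (dl ((Q.plus J).graft G') 1)).Finite := by
  have h1 : Set.Finite {G' : Gr {v // v ≠ w} {e // e ≠ f} (Option {x // x ∉ J}) |
      c ≤ (G'.hf (inr none)).2 ∧ Gr.ins w f s (Subtype.val : {x // x ∉ J} → L) h c G' ∈ S} := by
    refine Set.Finite.of_finite_image (f := Gr.ins w f s (Subtype.val : {x // x ∉ J} → L) h c)
      (S.finite_toSet.subset ?_) ?_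
    · rintro _ ⟨G', hG', rfl⟩
      exact hG'.2
    · intro G1 h1 G2 h2 h12
      have h3 := Gr.cut_ins (w := w) (f := f) (s := s) (h := h) Subtype.val_injective h1.1
      have h4 := Gr.cut_ins (w := w) (f := f) (s := s) (h := h) Subtype.val_injective h2.1
      rw [← h3, ← h4]
      congr 1
  refine h1.subset ?_
  intro G' hG'
  rw [Function.mem_support] at hG'
  split_ifs at hG' with hc
  · exact ⟨hc, hS _ fun h0 => hG' (by rw [h0, zero_smul])⟩
  · rw [zero_smul] at hG'
    exact absurd rfl hG'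

lemma sum_psi_two [Finite V] [Finite E] [Finite L] {g : ℕ} (Q : Env R T L N) (w : V) (f : E)
    (s : Bool) (J : Set L) (h : ℕ) (hh : 1 ≤ h) (γ : ℕ) (A : L → ℕ) (d : ℕ)
    (S : Finset (Gr V E L)) (hS : ∀ G, wt G (γ + h) A (d + 1) ≠ 0 → G ∈ S) :
    ∑ c : Fin 2, ∑ G ∈ S, wt G (γ + h) A (d + 1) • psi g Q h G w f s J c =
      fac h A J • Phi g (Q.plus J) γ (Option.elim' (par h A J) fun x => A x.1) d
        {v // v ≠ w} {e // e ≠ f} := by
  rw [Fin.sum_univ_two]
  simp only [Fin.val_zero, Fin.val_one]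
  rw [sum_psi Q w f s J h (γ + h) A (d + 1) 0 S hS, sum_psi Q w f s J h (γ + h) A (d + 1) 1 S hS,
    ← finsum_add_distrib (support_finite Q w f s J h (γ + h) A (d + 1) 0 S hS)
      (support_finite Q w f s J h (γ + h) A (d + 1) 1 S hS), Phi, smul_finsum]
  apply finsum_congr
  intro G'
  rw [← add_smul, smul_smul, ← wt_ins' w f s J h hh G' γ A d]
  simp only [ne_eq, zero_le, ↓reduceIte]

end Vale.Agent.P273
end
end
end

section

section

noncomputable section

namespace Vale.Agent.P273

open Sum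
open scoped Classical

variable {V E L L' N R T : Type}

/-- Contribution of the labelled graphs with `k` vertices and `m` edges. -/
def part' [Finite L] (g h : ℕ) (Q : Env R T L N) (γ : ℕ) (A : L → ℕ) (d k m : ℕ) :
    Sq g (Option N) :=
  ∑ G ∈ (finite_wt_km γ d A k m).toFinset, (wt G γ A d / ((k.factorial : ℚ) * m.factorial * 2 ^ m)) •
    ∑ y : Fin m × Bool, term g h (Q.graft G) (inl y.1, y.2)

lemma part_eq [Finite L] (g h : ℕ) (hh : 1 ≤ h) (Q : Env R T L N) [Fintype {J : Set L // Q.Allowed J}]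
    (γ : ℕ) (A : L → ℕ) (d k m : ℕ) :
    part' g h Q (γ + h) A (d + 1) k m = (1 / ((k.factorial : ℚ) * m.factorial * 2 ^ m)) •
      ∑ y : Fin m × Bool, ∑ w : Fin k, ∑ J : {J : Set L // Q.Allowed J},
        (zfac h (Nat.card J.1) * fac h A J.1) •
        Phi g (Q.plus J.1) γ (Option.elim' (par h A J.1) fun x => A x.1) d
          {v // v ≠ w} {e // e ≠ y.1} := by
  have hS : ∀ G : Gr (Fin k) (Fin m) L, wt G (γ + h) A (d + 1) ≠ 0 →
      G ∈ (finite_wt_km (γ + h) (d + 1) A k m).toFinset := by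
    intro G hG
    rw [Set.Finite.mem_toFinset]
    exact hG
  have h1 : ∀ G ∈ (finite_wt_km (γ + h) (d + 1) A k m).toFinset,
      (wt G (γ + h) A (d + 1) / ((k.factorial : ℚ) * m.factorial * 2 ^ m)) •
        ∑ y : Fin m × Bool, term g h (Q.graft G) (inl y.1, y.2) =
      (1 / ((k.factorial : ℚ) * m.factorial * 2 ^ m)) • ∑ y : Fin m × Bool, ∑ w : Fin k,
        ∑ J : {J : Set L // Q.Allowed J}, ∑ c : Fin 2, zfac h (Nat.card J.1) •
          (wt G (γ + h) A (d + 1) • psi g Q h G w y.1 y.2 J.1 c) := by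
    intro G hG
    rw [Set.Finite.mem_toFinset] at hG
    have h0 := (wt_ne_zero hG).2.2
    rw [div_eq_mul_one_div, mul_comm, ← smul_smul, Finset.smul_sum]
    congr 1
    apply Finset.sum_congr rfl
    intro y _
    rw [term_inl_eq_sum h0, Finset.smul_sum]
    apply Finset.sum_congr rfl
    intro w _
    rw [Finset.smul_sum]
    apply Finset.sum_congr rfl
    intro J _
    rw [Finset.smul_sum]
    apply Finset.sum_congr rfl
    intro c _
    rw [smul_comm]
  rw [part', Finset.sum_congr rfl h1, ← Finset.smul_sum]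
  congr 1
  rw [Finset.sum_comm]
  apply Finset.sum_congr rfl
  intro y _
  rw [Finset.sum_comm]
  apply Finset.sum_congr rfl
  intro w _
  rw [Finset.sum_comm]
  apply Finset.sum_congr rfl
  intro J _
  rw [Finset.sum_comm]
  have h2 := sum_psi_two (g := g) Q w y.1 y.2 J.1 h hh γ A d _ hS
  rw [← smul_smul, ← h2, Finset.smul_sum]
  apply Finset.sum_congr rfl
  intro c _
  rw [Finset.smul_sum]

lemma part_zero_left [Finite L] (g h : ℕ) (hh : 1 ≤ h) (Q : Env R T L N)
    [Fintype {J : Set L // Q.Allowed J}]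
    (γ : ℕ) (A : L → ℕ) (d m : ℕ) : part' g h Q (γ + h) A (d + 1) 0 m = 0 := by
  rw [part_eq g h hh]
  simp only [Nat.factorial_zero, Nat.cast_one, one_mul, one_div, mul_inv_rev, Finset.univ_eq_empty, Nat.card_coe_set_eq, ne_eq, Finset.sum_empty, Finset.sum_const_zero, smul_zero]

lemma part_zero_right [Finite L] (g h : ℕ) (hh : 1 ≤ h) (Q : Env R T L N)
    [Fintype {J : Set L // Q.Allowed J}]
    (γ : ℕ) (A : L → ℕ) (d k : ℕ) : part' g h Q (γ + h) A (d + 1) k 0 = 0 := by
  rw [part_eq g h hh]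
  simp only [Nat.factorial_zero, Nat.cast_one, mul_one, pow_zero, one_div, Finset.univ_eq_empty, Nat.card_coe_set_eq, ne_eq, Finset.sum_empty, smul_zero]

lemma part_succ [Finite L] (g h : ℕ) (hh : 1 ≤ h) (Q : Env R T L N)
    [Fintype {J : Set L // Q.Allowed J}]
    (γ : ℕ) (A : L → ℕ) (d k m : ℕ) :
    part' g h Q (γ + h) A (d + 1) (k + 1) (m + 1) =
      (1 / ((k.factorial : ℚ) * m.factorial * 2 ^ m)) • ∑ J : {J : Set L // Q.Allowed J},
        (zfac h (Nat.card J.1) * fac h A J.1) •
        Phi g (Q.plus J.1) γ (Option.elim' (par h A J.1) fun x => A x.1) d (Fin k) (Fin m) := by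
  rw [part_eq g h hh]
  have h1 : ∀ (y : Fin (m + 1) × Bool) (w : Fin (k + 1)), ∑ J : {J : Set L // Q.Allowed J},
        (zfac h (Nat.card J.1) * fac h A J.1) •
        Phi g (Q.plus J.1) γ (Option.elim' (par h A J.1) fun x => A x.1) d
          {v // v ≠ w} {e // e ≠ y.1} = ∑ J : {J : Set L // Q.Allowed J},
        (zfac h (Nat.card J.1) * fac h A J.1) •
        Phi g (Q.plus J.1) γ (Option.elim' (par h A J.1) fun x => A x.1) d (Fin k) (Fin m) := by
    intro y w
    apply Finset.sum_congr rfl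
    intro J _
    congr 1
    exact Phi_congr g _ γ _ d (finSuccAboveEquiv w).symm (finSuccAboveEquiv y.1).symm
  rw [Finset.sum_congr rfl fun y _ => Finset.sum_congr rfl fun w _ => h1 y w]
  rw [Finset.sum_const, Finset.sum_const]
  simp only [← Nat.cast_smul_eq_nsmul ℚ]
  rw [smul_smul, smul_smul]
  congr 1
  rw [Finset.card_univ, Finset.card_univ, Fintype.card_prod, Fintype.card_fin, Fintype.card_fin,
    Fintype.card_bool, Nat.factorial_succ, Nat.factorial_succ, pow_succ]
  have hk : (k.factorial : ℚ) ≠ 0 := Nat.cast_ne_zero.2 (Nat.factorial_ne_zero k)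
  have hm : (m.factorial : ℚ) ≠ 0 := Nat.cast_ne_zero.2 (Nat.factorial_ne_zero m)
  push_cast
  field_simp

/-- The sum of the tails of the relation. -/
theorem relTail_sum [Finite L] (g h : ℕ) (hh : 1 ≤ h) (Q : Env R T L N)
    [Fintype {J : Set L // Q.Allowed J}] (γ : ℕ) (A : L → ℕ) (d : ℕ) :
    ∑ p ∈ supp (γ + h) A (d + 1), (wt p.2.2 (γ + h) A (d + 1) /
      ((p.1.factorial : ℚ) * p.2.1.factorial * 2 ^ p.2.1)) •
      ∑ y : Fin p.2.1 × Bool, term g h (Q.graft p.2.2) (inl y.1, y.2) =
    ∑ J : {J : Set L // Q.Allowed J}, (zfac h (Nat.card J.1) * fac h A J.1) •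
      mk g (Option N) ((Q.plus J.1).pix γ (Option.elim' (par h A J.1) fun x => A x.1) d) := by
  have h1 : ∑ p ∈ supp (γ + h) A (d + 1), (wt p.2.2 (γ + h) A (d + 1) /
      ((p.1.factorial : ℚ) * p.2.1.factorial * 2 ^ p.2.1)) •
      ∑ y : Fin p.2.1 × Bool, term g h (Q.graft p.2.2) (inl y.1, y.2) =
      ∑ k ∈ Finset.range (d + 1 + 2), ∑ m ∈ Finset.range (d + 1 + 1),
        part' g h Q (γ + h) A (d + 1) k m := by
    rw [supp, Finset.sum_sigma]
    apply Finset.sum_congr rfl
    intro k _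
    rw [Finset.sum_sigma]
    rfl
  rw [h1, Finset.sum_range_succ']
  have h2 : ∑ m ∈ Finset.range (d + 1 + 1), part' g h Q (γ + h) A (d + 1) 0 m = 0 :=
    Finset.sum_eq_zero fun m _ => part_zero_left g h hh Q γ A d m
  rw [h2, add_zero]
  have h3 : ∀ k ∈ Finset.range (d + 1 + 1), ∑ m ∈ Finset.range (d + 1 + 1),
      part' g h Q (γ + h) A (d + 1) (k + 1) m = ∑ m ∈ Finset.range (d + 1),
      (1 / ((k.factorial : ℚ) * m.factorial * 2 ^ m)) • ∑ J : {J : Set L // Q.Allowed J},
        (zfac h (Nat.card J.1) * fac h A J.1) •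
        Phi g (Q.plus J.1) γ (Option.elim' (par h A J.1) fun x => A x.1) d (Fin k) (Fin m) := by
    intro k _
    rw [Finset.sum_range_succ', part_zero_right g h hh, add_zero]
    exact Finset.sum_congr rfl fun m _ => part_succ g h hh Q γ A d k m
  rw [Finset.sum_congr rfl h3]
  have h4 : ∀ J : {J : Set L // Q.Allowed J}, (zfac h (Nat.card J.1) * fac h A J.1) •
      mk g (Option N) ((Q.plus J.1).pix γ (Option.elim' (par h A J.1) fun x => A x.1) d) =
      ∑ k ∈ Finset.range (d + 2), ∑ m ∈ Finset.range (d + 1),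
        (1 / ((k.factorial : ℚ) * m.factorial * 2 ^ m)) •
        ((zfac h (Nat.card J.1) * fac h A J.1) •
        Phi g (Q.plus J.1) γ (Option.elim' (par h A J.1) fun x => A x.1) d (Fin k) (Fin m)) := by
    intro J
    rw [mk_pix, Finset.smul_sum]
    apply Finset.sum_congr rfl
    intro k _
    rw [Finset.smul_sum]
    apply Finset.sum_congr rfl
    intro m _
    rw [smul_comm]
  rw [Finset.sum_congr rfl fun J _ => h4 J]
  symm
  rw [Finset.sum_comm]
  apply Finset.sum_congr rfl
  intro k _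
  rw [Finset.sum_comm]
  apply Finset.sum_congr rfl
  intro m _
  rw [Finset.smul_sum]

end Vale.Agent.P273
end
end
end

section

section

noncomputable section

namespace Vale.Agent.P273

open Sum
open scoped Classical

variable {V E L N R T : Type}

lemma lamG_graft [Fintype E] [Fintype T] {g h : ℕ} (Q : Env R T L N) (G : Gr V E L) :
    lamG g h (Q.graft G) = -(∑ y : E × Bool, term g h (Q.graft G) (inl y.1, y.2) +
      ∑ y : T × Bool, term g h (Q.graft G) (inr y.1, y.2)) := by
  unfold lamG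
  rw [finsum_eq_sum_of_fintype, ← Equiv.sum_comp (Equiv.sumProdDistrib E T Bool).symm,
    Fintype.sum_sum_type]
  rfl

lemma wt_stab {V E L : Type} [Finite V] {G : Gr V E L} {γ d : ℕ} {A : L → ℕ}
    (h : wt G γ A d ≠ 0) : G.Stab γ := (wt_ne_zero h).1

/-- The threshold is preserved. -/
lemma par_le (h : ℕ) (A : L → ℕ) (J : Set L) : par h A J ≤ 1 := by
  unfold par
  split_ifs <;> omega

lemma plus_sum_le [Finite L] (A : L → ℕ) (J : Set L) (a : ℕ) :
    ∑ᶠ x, (Option.elim' a (fun x : {x // x ∉ J} => A x.1) : Option {x // x ∉ J} → ℕ) x ≤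
      a + ∑ᶠ x, A x := by
  have := Fintype.ofFinite L
  rw [finsum_eq_sum_of_fintype, Fintype.sum_option, finsum_eq_sum_of_fintype]
  apply Nat.add_le_add_left
  change ∑ x : {x // x ∉ J}, A x.1 ≤ _
  rw [← Finset.sum_subtype (p := fun x => x ∉ J) (f := A) (Finset.univ.filter fun x => x ∉ J)
    (by simp only [Finset.mem_filter, Finset.mem_univ, true_and, implies_true])]
  exact Finset.sum_le_sum_of_subset (Finset.filter_subset _ _)

theorem lam_pix_mem {g h : ℕ} (hh : 4 ≤ h) [Finite R] [Finite T] [Finite L] (Q : Env R T L N)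
    (hQ : ∀ y z x, Q.use y = inl x → Q.use z = inl x → y = z) (γ d : ℕ) (A : L → ℕ)
    (hA : ∀ x, A x ≤ 1) (hγ : γ + ∑ᶠ x, A x < 3 * d) :
    lam g h N (Q.pix γ A d) ∈ Pbar g (Option N) := by
  have := Fintype.ofFinite T
  have := Fintype.ofFinite {J : Set L // Q.Allowed J}
  rw [Env.pix_eq_sum, map_sum]
  have h1 : ∀ p ∈ supp γ A d, lam g h N (dl (Q.graft p.2.2)
      (wt p.2.2 γ A d / (p.1.factorial * p.2.1.factorial * 2 ^ p.2.1))) =
      -((wt p.2.2 γ A d / (p.1.factorial * p.2.1.factorial * 2 ^ p.2.1)) •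
        ∑ y : Fin p.2.1 × Bool, term g h (Q.graft p.2.2) (inl y.1, y.2) +
      ∑ y : T × Bool, (wt p.2.2 γ A d / (p.1.factorial * p.2.1.factorial * 2 ^ p.2.1)) •
        term g h (Q.graft p.2.2) (inr y.1, y.2)) := by
    intro p _
    rw [lam_dl, lamG_graft, smul_neg, smul_add, Finset.smul_sum (s := (Finset.univ : Finset (T × Bool)))]
  rw [Finset.sum_congr rfl h1, Finset.sum_neg_distrib, Finset.sum_add_distrib]
  apply Submodule.neg_mem
  apply Submodule.add_mem
  · -- tails inside the relation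
    by_cases hγh : γ < h
    · rw [Finset.sum_eq_zero]
      · exact Submodule.zero_mem _
      · intro p _
        by_cases hw : wt p.2.2 γ A d = 0
        · rw [hw, zero_div, zero_smul]
        · rw [Finset.sum_eq_zero, smul_zero]
          intro y _
          apply term_not
          intro ht
          have h2 := ht.gen
          rw [Env.graft_hf_inl, Env.graft_dec_inl] at h2
          have h3 := (wt_stab hw).gen_le (p.2.2.hf (inl (y.1, y.2))).1
          simp only at h2
          omega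
    · obtain ⟨γ, rfl⟩ : ∃ γ', γ = γ' + h := ⟨γ - h, by omega⟩
      obtain ⟨d, rfl⟩ : ∃ d', d = d' + 1 := ⟨d - 1, by omega⟩
      rw [relTail_sum g h (by omega)]
      apply Submodule.sum_mem
      intro J _
      apply Submodule.smul_mem
      rw [mk_mem_Pbar]
      refine P.pix (Q.plus J.1) γ d _ inferInstance inferInstance inferInstance
        (J.2.plus_inj hQ) ?_ ?_
      · rintro (_ | x)
        · exact par_le h A J.1
        · exact hA x.1
      · have h4 := plus_sum_le A J.1 (par h A J.1)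
        have h5 := par_le h A J.1
        omega
  · -- tails at the environment
    rw [Finset.sum_comm]
    apply Submodule.sum_mem
    intro y _
    rcases hu : Q.use (inl y) with x | ⟨r, c⟩
    · rw [Finset.sum_eq_zero]
      · exact Submodule.zero_mem _
      · intro p _
        by_cases hw : wt p.2.2 γ A d = 0
        · rw [hw, zero_div, zero_smul]
        · rw [term_not, smul_zero]
          intro ht
          exact mixed_absurd (by omega) hγ hw hu ht
    · exact envTail_mem Q hQ γ d h A hA hγ y r c hu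

theorem lam_P_mem {g h : ℕ} (hh : 4 ≤ h) {x : F N} (hx : P (g + h) x) :
    lam g h N x ∈ Pbar g (Option N) := by
  induction hx with
  | triv x hx =>
    rw [lam_triv (by omega) hx]
    exact Submodule.zero_mem _
  | pix Q γ d A hR hT hL hQ hA hγ => exact lam_pix_mem hh Q hQ γ d A hA hγ
  | lin x y c hx hy hx' hy' =>
    rw [map_add, map_smul]
    exact Submodule.add_mem _ hx' (Submodule.smul_mem _ _ hy')

/-- Key property of gluing a tail of large genus. -/
theorem P_of_tail {g h : ℕ} (hh : 4 ≤ h) (hgh : g < h) {x : F (Option L)}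
    (hx : P (g + h) (x.sum fun D => dl (D.G.tail h))) : P g x := by
  have h1 := lam_P_mem hh hx
  rw [lam_tail (by omega) hgh] at h1
  rw [← mk_mem_Pbar]
  have h2 := Submodule.neg_mem _ h1
  rwa [neg_neg] at h2

end Vale.Agent.P273
end
end
end

section

section

noncomputable section

namespace Vale.Agent.P273

open Sum
open scoped Classical

lemma finite_Lg (n : ℕ) : Finite (Lg n) := by
  induction n with
  | zero => exact (inferInstance : Finite Empty)
  | succ n ih =>
    have := ih
    exact (inferInstance : Finite (Option (Lg n)))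

lemma card_Lg (n : ℕ) : Nat.card (Lg n) = n := by
  induction n with
  | zero => exact (Nat.card_of_isEmpty : Nat.card Empty = 0)
  | succ n ih =>
    have := finite_Lg n
    have h : Nat.card (Option (Lg n)) = n + 1 := by rw [Finite.card_option, ih]
    exact h

variable {K : ℕ → ℕ → ∀ L, F L → Prop}

end Vale.Agent.P273
end
end
end

section

section

noncomputable section

namespace Vale.Agent.P273

open Sum
open scoped Classical

/-- Lower the genus of the vertex `v` by one and put a new leg `none` there, with exponent `0`. -/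
def Gr.low {V E L : Type} (G : Gr V E L) (v : V) : Gr V E (Option L) :=
  ⟨Function.update G.dec v ((G.dec v).1 - 1, (G.dec v).2),
    Sum.elim (fun y => G.hf (inl y)) (Option.elim' (v, 0) fun x => G.hf (inr x))⟩

end Vale.Agent.P273
end
end
end

section

section

noncomputable section

namespace Vale.Agent.P273

open Sum
open scoped Classical

variable {V E L N V' E' : Type}

/-! ### Raising the genus -/

/-- The vertex of the leg `none`. -/
def Gr.vn (G : Gr V E (Option L)) : V := (G.hf (inr none)).1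

/-- Forget the leg `none`, raise the genus of its vertex by one, drop the zeros there. -/
def Gr.rai (G : Gr V E (Option L)) : Gr V E L :=
  ⟨Function.update G.dec G.vn ((G.dec G.vn).1 + 1, (G.dec G.vn).2.filter (· ≠ 0)),
   Sum.elim (fun y => G.hf (inl y)) (fun x => G.hf (inr (some x)))⟩

lemma Gr.rai_dec_self (G : Gr V E (Option L)) :
    G.rai.dec G.vn = ((G.dec G.vn).1 + 1, (G.dec G.vn).2.filter (· ≠ 0)) := by
  unfold Gr.rai
  simp

lemma Gr.rai_dec_ne (G : Gr V E (Option L)) {v : V} (h : v ≠ G.vn) : G.rai.dec v = G.dec v :=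
  Function.update_of_ne h _ _

lemma Gr.rai_hf (G : Gr V E (Option L)) (y : (E × Bool) ⊕ L) :
    G.rai.hf y = G.hf (y.map id some) := by
  rcases y with y | x <;> rfl

lemma Gr.rai_nv [Finite E] [Finite L] (G : Gr V E (Option L)) (v : V) :
    G.nv v = G.rai.nv v + if G.vn = v then 1 else 0 := G.nv_pushG v

/-- The factor of the zeros at the vertex of the leg `none`. -/
def Gr.cfac (G : Gr V E (Option L)) : ℚ :=
  ∏ j ∈ Finset.range ((G.dec G.vn).2.count 0),
    (2 * ((G.dec G.vn).1 : ℚ) - 2 + G.nv G.vn + ((G.dec G.vn).2.filter (· ≠ 0)).card + j)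

/-- The number of big vertices. -/
def Gr.big (θ : ℕ) (G : Gr V E L) : ℕ := Nat.card {v // θ < (G.dec v).1}

/-- The condition. -/
def Gr.Cond (θ D : ℕ) (G : Gr V E (Option L)) : Prop :=
  G.deg = D ∧ (G.hf (inr none)).2 = 0 ∧ θ ≤ (G.dec G.vn).1

/-- The inverse of the restriction to an elliptic tail. -/
def phiG (θ D g : ℕ) (G : Gr V E (Option L)) : Sq g L :=
  if G.Cond θ D then (G.cfac / G.rai.big θ) • mk g L (dl G.rai 1) else 0

/-- The linear extension. -/
def phi (θ D g : ℕ) (L : Type) : F (Option L) →ₗ[ℚ] Sq g L := lift fun G => phiG θ D g G.G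

lemma phi_dl (θ D g : ℕ) (G : Gr V E (Option L)) (c : ℚ) :
    phi θ D g L (dl G c) = c • phiG θ D g G := lift_dl _ _ _

/-! ### Isomorphisms -/

section

variable {G : Gr V E (Option L)} {G' : Gr V' E' (Option L)} {φ : V → V'}
  {ρ : E × Bool → E' × Bool}

lemma IsoData.vn (I : IsoData G G' φ ρ) : G'.vn = φ G.vn := I.hf_fst (inr none)

lemma IsoData.rai (I : IsoData G G' φ ρ) : IsoData G.rai G'.rai φ ρ where
  h1 := I.h1
  h2 := I.h2
  h3 := I.h3
  h4 := by
    intro v
    by_cases hv : v = G.vn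
    · subst hv
      have h := G'.rai_dec_self
      rw [I.vn, I.h4] at h
      rw [h, G.rai_dec_self]
    · have h : φ v ≠ G'.vn := by
        rw [I.vn]
        exact fun h => hv (I.h1.1 h)
      rw [G.rai_dec_ne hv, G'.rai_dec_ne h, I.h4]
  h5 := by
    intro y
    rw [Gr.rai_hf, Gr.rai_hf]
    have := I.h5 (y.map id some)
    rcases y with y | x
    · exact this
    · exact this

lemma IsoData.cond (I : IsoData G G' φ ρ) {θ D : ℕ} : G'.Cond θ D ↔ G.Cond θ D := by
  unfold Gr.Cond
  rw [I.deg_eq, I.hf_inr none, I.vn, I.h4]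

lemma IsoData.cfac (I : IsoData G G' φ ρ) : G'.cfac = G.cfac := by
  unfold Gr.cfac
  rw [I.vn, I.h4, I.nv_eq]

end

lemma IsoData.big {G : Gr V E L} {G' : Gr V' E' L} {φ : V → V'} {ρ : E × Bool → E' × Bool}
    (I : IsoData G G' φ ρ) (θ : ℕ) : G'.big θ = G.big θ := by
  unfold Gr.big
  refine (Nat.card_congr ((Equiv.ofBijective φ I.h1).subtypeEquiv ?_)).symm
  intro v
  rw [Equiv.ofBijective_apply, I.h4]

lemma phiG_iso {θ D g : ℕ} {G : Gr V E (Option L)} {G' : Gr V' E' (Option L)} {φ : V → V'}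
    {ρ : E × Bool → E' × Bool} (I : IsoData G G' φ ρ) : phiG θ D g G' = phiG θ D g G := by
  unfold phiG
  rw [if_congr I.cond rfl rfl, I.cfac, I.rai.big]
  have h : G.rai.Iso G'.rai := ⟨φ, ρ, I.h1, I.h2, I.h3, I.rai.h4, I.rai.h5⟩
  rw [mk_iso h]

/-! ### Dilaton -/

lemma finsum_sum_upd (G : Gr V E L) (v : V) :
    ∑ᶠ u, ((G.upd v (0 ::ₘ (G.dec v).2)).dec u).2.sum = ∑ᶠ u, (G.dec u).2.sum := by
  apply finsum_congr
  intro u
  by_cases hu : u = v
  · subst hu
    rw [upd_dec_self]
    simp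
  · rw [upd_dec_ne _ _ _ hu]

lemma deg_upd (G : Gr V E L) (v : V) : (G.upd v (0 ::ₘ (G.dec v).2)).deg = G.deg := by
  unfold Gr.deg
  rw [finsum_sum_upd]
  rfl

lemma big_upd (θ : ℕ) (G : Gr V E L) (v : V) (K : Multiset ℕ) : (G.upd v K).big θ = G.big θ := by
  unfold Gr.big
  congr 2
  ext u
  by_cases hu : u = v
  · subst hu
    rw [upd_dec_self]
  · rw [upd_dec_ne _ _ _ hu]

lemma card_filter_add_count (K : Multiset ℕ) :
    (K.filter (· ≠ 0)).card + K.count 0 = K.card := by
  have h1 := Multiset.filter_add_not (fun x => x ≠ 0) K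
  have h2 : (K.filter fun x => ¬ x ≠ 0).card = K.count 0 := by
    rw [Multiset.count_eq_card_filter_eq]
    congr 1
    apply Multiset.filter_congr
    intro x _
    constructor
    · intro h
      push Not at h
      exact h.symm
    · intro h
      push Not
      exact h.symm
  conv_rhs => rw [← h1]
  rw [Multiset.card_add, h2]

lemma vn_upd (G : Gr V E (Option L)) (v : V) (K : Multiset ℕ) : (G.upd v K).vn = G.vn := rfl

lemma nv_upd (G : Gr V E L) (v : V) (K : Multiset ℕ) (u : V) : (G.upd v K).nv u = G.nv u := rfl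

lemma gen_upd (G : Gr V E L) (v : V) (K : Multiset ℕ) (u : V) :
    ((G.upd v K).dec u).1 = (G.dec u).1 := by
  by_cases hu : u = v
  · subst hu
    rw [upd_dec_self]
  · rw [upd_dec_ne _ _ _ hu]

lemma phiG_upd {θ D g : ℕ} [Finite E] [Finite L] (G : Gr V E (Option L)) (v : V) :
    phiG θ D g (G.upd v (0 ::ₘ (G.dec v).2)) =
      (2 * ((G.dec v).1 : ℚ) - 2 + G.nv v + (G.dec v).2.card) • phiG θ D g G := by
  have hc : (G.upd v (0 ::ₘ (G.dec v).2)).Cond θ D ↔ G.Cond θ D := by
    unfold Gr.Cond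
    rw [deg_upd, vn_upd, gen_upd]
    rfl
  unfold phiG
  by_cases hG : G.Cond θ D
  · rw [if_pos hG, if_pos (hc.2 hG)]
    by_cases hv : v = G.vn
    · subst hv
      have e1 : (G.upd G.vn (0 ::ₘ (G.dec G.vn).2)).rai = G.rai := by
        apply Gr.ext'
        · intro u
          by_cases hu : u = G.vn
          · subst hu
            have h := (G.upd G.vn (0 ::ₘ (G.dec G.vn).2)).rai_dec_self
            rw [vn_upd, upd_dec_self] at h
            rw [h, G.rai_dec_self]
            simp
          · rw [G.rai_dec_ne hu, Gr.rai_dec_ne _ (by rw [vn_upd]; exact hu), upd_dec_ne _ _ _ hu]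
        · intro y
          rfl
      have e2 : (G.upd G.vn (0 ::ₘ (G.dec G.vn).2)).cfac =
          (2 * ((G.dec G.vn).1 : ℚ) - 2 + G.nv G.vn + (G.dec G.vn).2.card) * G.cfac := by
        unfold Gr.cfac
        rw [vn_upd, upd_dec_self, nv_upd]
        simp only
        rw [Multiset.count_cons_self, Finset.prod_range_succ]
        have h1 : (0 ::ₘ (G.dec G.vn).2).filter (· ≠ 0) = (G.dec G.vn).2.filter (· ≠ 0) := by
          simp
        rw [h1, mul_comm]
        congr 1
        have h2 := card_filter_add_count (G.dec G.vn).2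
        rw [← h2]
        push_cast
        ring
      rw [e1, e2, smul_smul]
      congr 1
      ring
    · have e1 : (G.upd v (0 ::ₘ (G.dec v).2)).rai = G.rai.upd v (0 ::ₘ (G.rai.dec v).2) := by
        apply eq_upd
        · rfl
        · rw [Gr.rai_dec_ne _ (by rw [vn_upd]; exact hv), upd_dec_self, G.rai_dec_ne hv]
        · intro u hu
          by_cases hu' : u = G.vn
          · subst hu'
            have h := (G.upd v (0 ::ₘ (G.dec v).2)).rai_dec_self
            rw [vn_upd, upd_dec_ne _ _ _ hu] at h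
            rw [h, G.rai_dec_self]
          · rw [G.rai_dec_ne hu', Gr.rai_dec_ne _ (by rw [vn_upd]; exact hu'),
              upd_dec_ne _ _ _ hu]
      have e2 : (G.upd v (0 ::ₘ (G.dec v).2)).cfac = G.cfac := by
        unfold Gr.cfac
        rw [vn_upd, upd_dec_ne _ _ _ (Ne.symm hv), nv_upd]
      have e3 : G.rai.nv v = G.nv v := by
        have := G.rai_nv v
        rw [if_neg (Ne.symm hv)] at this
        omega
      have e4 := mk_dilaton (g := g) G.rai v 1
      rw [e1, e2, big_upd, e4, e3, G.rai_dec_ne hv, smul_comm]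
  · rw [if_neg hG, if_neg (fun h => hG (hc.1 h)), smul_zero]

/-! ### Invalid graphs -/

lemma valid_of_rai [Finite L] {θ D g : ℕ} (hθ : 3 * D ≤ θ) (hθ1 : 1 ≤ θ) {G : Gr V E (Option L)}
    (hG : G.Cond θ D) (H : G.rai.Valid (g + 1)) : G.Valid g := by
  obtain ⟨hV, hE, ⟨h1, h2, h3, h4⟩, h5⟩ := H
  obtain ⟨c1, c2, c3⟩ := hG
  have := Fintype.ofFinite V
  have := Fintype.ofFinite E
  have := Fintype.ofFinite L
  refine ⟨hV, hE, ⟨h1, h2, ?_, ?_⟩, ?_⟩
  · have e1 : ∑ᶠ v, (G.rai.dec v).1 = ∑ᶠ v, (G.dec v).1 + 1 := by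
      rw [finsum_eq_sum_of_fintype, finsum_eq_sum_of_fintype,
        ← Finset.add_sum_erase _ _ (Finset.mem_univ G.vn),
        ← Finset.add_sum_erase _ (fun v => (G.dec v).1) (Finset.mem_univ G.vn)]
      have e2 : ∑ v ∈ Finset.univ.erase G.vn, (G.rai.dec v).1 =
          ∑ v ∈ Finset.univ.erase G.vn, (G.dec v).1 := by
        apply Finset.sum_congr rfl
        intro v hv
        rw [G.rai_dec_ne (Finset.ne_of_mem_erase hv)]
      rw [e2, G.rai_dec_self]
      simp only
      omega
    rw [e1] at h3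
    omega
  · intro v
    have e1 := G.rai_nv v
    by_cases hv : v = G.vn
    · subst hv
      rw [if_pos rfl] at e1
      have e2 := h4 G.vn
      rw [G.rai_dec_self] at e2
      simp only at e2
      omega
    · rw [if_neg (Ne.symm hv)] at e1
      have e2 := h4 v
      rw [G.rai_dec_ne hv] at e2
      omega
  · intro v
    have e1 := G.rai_nv v
    by_cases hv : v = G.vn
    · subst hv
      rw [if_pos rfl] at e1
      have e2 : (G.dec G.vn).2.sum + ∑ᶠ (y) (_ : (G.hf y).1 = G.vn), (G.hf y).2 ≤ D := by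
        rw [← c1]
        unfold Gr.deg
        rw [finsum_eq_sum_of_fintype (fun v => (G.dec v).2.sum),
          finsum_eq_sum_of_fintype (fun y => (G.hf y).2), psi_eq_finsum, finsum_eq_sum_of_fintype]
        have e3 : (G.dec G.vn).2.sum ≤ ∑ v, (G.dec v).2.sum :=
          Finset.single_le_sum (f := fun v => (G.dec v).2.sum) (fun _ _ => Nat.zero_le _)
            (Finset.mem_univ G.vn)
        have e4 : (∑ y, if (G.hf y).1 = G.vn then (G.hf y).2 else 0) ≤ ∑ y, (G.hf y).2 := by
          apply Finset.sum_le_sum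
          intro y _
          split_ifs <;> omega
        omega
      omega
    · rw [if_neg (Ne.symm hv)] at e1
      have e2 := h5 v
      rw [G.rai_dec_ne hv] at e2
      have e3 : ∑ᶠ (y) (_ : (G.hf y).1 = v), (G.hf y).2 =
          ∑ᶠ (y) (_ : (G.rai.hf y).1 = v), (G.rai.hf y).2 := by
        rw [psi_eq_finsum, psi_eq_finsum, finsum_flags]
        have e4 : (G.hf (inr none)).1 ≠ v := Ne.symm hv
        rw [if_neg e4, zero_add]
        apply finsum_congr
        intro y
        rcases y with y | x <;> rfl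
      rw [e3]
      omega

lemma phiG_invalid [Finite L] {θ D g : ℕ} (hθ : 3 * D ≤ θ) (hθ1 : 1 ≤ θ) {G : Gr V E (Option L)}
    (hG : ¬ G.Valid g) : phiG θ D (g + 1) G = 0 := by
  unfold phiG
  by_cases hc : G.Cond θ D
  · rw [if_pos hc, mk_invalid (fun H => hG (valid_of_rai hθ hθ1 hc H)), smul_zero]
  · rw [if_neg hc]

end Vale.Agent.P273
end
end
end

section

section

noncomputable section

namespace Vale.Agent.P273

open Sum
open scoped Classical

variable {V E L N R T : Type}

lemma phi_triv [Finite L] {θ D g : ℕ} (hθ : 3 * D ≤ θ) (hθ1 : 1 ≤ θ) {x : F (Option L)}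
    (hx : Triv g x) : phi θ D (g + 1) L x = 0 := by
  cases hx with
  | iso G G' φ ρ h1 h2 h3 h4 h5 =>
    rw [map_add, phi_dl, phi_dl, phiG_iso (IsoData.mk h1 h2 h3 h4 h5)]
    simp
  | zero G hG => rw [phi_dl, phiG_invalid hθ hθ1 hG, smul_zero]
  | dilaton G v =>
    rw [map_add, phi_dl, phi_dl]
    by_cases hG : G.Valid g
    · have hE : Finite _ := hG.2.1
      have := phiG_upd (θ := θ) (D := D) (g := g + 1) G v
      rw [show (⟨Function.update G.dec v ((G.dec v).1, 0 ::ₘ (G.dec v).2), G.hf⟩ : Gr _ _ _) =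
        G.upd v (0 ::ₘ (G.dec v).2) from rfl, this, smul_smul, ← add_smul]
      convert zero_smul ℚ _ using 2
      ring
    · have hG' : ¬ (G.upd v (0 ::ₘ (G.dec v).2)).Valid g := by
        intro H
        apply hG
        obtain ⟨hV, hE, hS, hD⟩ := H
        refine ⟨hV, hE, ?_, ?_⟩
        · obtain ⟨s1, s2, s3, s4⟩ := hS
          refine ⟨s1, s2, ?_, ?_⟩
          · rw [← s3]
            congr 2
            apply finsum_congr
            intro u
            rw [gen_upd]
          · intro u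
            have := s4 u
            rw [gen_upd, nv_upd] at this
            exact this
        · intro u
          have h1 := hD u
          rw [gen_upd, nv_upd] at h1
          have h2 : ((G.upd v (0 ::ₘ (G.dec v).2)).dec u).2.sum = (G.dec u).2.sum := by
            by_cases hu : u = v
            · subst hu
              rw [upd_dec_self]
              simp
            · rw [upd_dec_ne _ _ _ hu]
          rw [h2] at h1
          exact h1
      rw [phiG_invalid hθ hθ1 hG, smul_zero]
      rw [show (⟨Function.update G.dec v ((G.dec v).1, 0 ::ₘ (G.dec v).2), G.hf⟩ : Gr _ _ _) =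
        G.upd v (0 ::ₘ (G.dec v).2) from rfl, phiG_invalid hθ hθ1 hG']
      simp

/-! ### Degree of a graft -/

/-- Restriction to used legs. -/
def Env.us (Q : Env R T L N) (f : L → ℕ) (x : L) : ℕ :=
  if inl x ∈ Set.range Q.use then f x else 0

/-- Restriction to unused legs. -/
def Env.un (Q : Env R T L N) (f : L → ℕ) (x : L) : ℕ :=
  if inl x ∉ Set.range Q.use then f x else 0

lemma us_add_un (Q : Env R T L N) (f : L → ℕ) (x : L) : Q.un f x + Q.us f x = f x := by
  unfold Env.us Env.un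
  by_cases hx : inl x ∈ Set.range Q.use
  · rw [if_pos hx, if_neg (not_not.2 hx), zero_add]
  · rw [if_neg hx, if_pos hx, add_zero]

lemma sum_use [Fintype L] [Fintype T] [Fintype N] (Q : Env R T L N)
    (hQ : ∀ y z x, Q.use y = inl x → Q.use z = inl x → y = z) (f : L → ℕ) :
    ∑ z, (Q.use z).elim f (fun _ => 0) = ∑ x, Q.us f x := by
  have h1 : ∀ z, (Q.use z).elim f (fun _ => 0) = ∑ x, if Q.use z = inl x then f x else 0 := by
    intro z
    rcases hz : Q.use z with x | p
    · simp only [elim_inl, inl.injEq, Finset.sum_ite_eq, Finset.mem_univ, ↓reduceIte]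
    · simp only [elim_inr, reduceCtorEq, ↓reduceIte, Finset.sum_const_zero]
  have h2 : ∀ x, Q.us f x = ∑ z, if Q.use z = inl x then f x else 0 := by
    intro x
    unfold Env.us
    by_cases hx : inl x ∈ Set.range Q.use
    · rw [if_pos hx]
      obtain ⟨z, hz⟩ := hx
      rw [Finset.sum_eq_single z]
      · rw [if_pos hz]
      · intro z' _ hz'
        rw [if_neg]
        intro h
        exact hz' (hQ _ _ x h hz)
      · intro h
        exact absurd (Finset.mem_univ z) h
    · rw [if_neg hx, Finset.sum_eq_zero]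
      intro z _
      rw [if_neg]
      intro h
      exact hx ⟨z, h⟩
  rw [Finset.sum_congr rfl fun z _ => h1 z, Finset.sum_comm, Finset.sum_congr rfl fun x _ => h2 x]

/-- The degree of the environment. -/
def Env.cdeg (Q : Env R T L N) : ℕ :=
  Nat.card T + ∑ᶠ r, (Q.dec r).2.sum + ∑ᶠ x, Q.b x + ∑ᶠ z, (Q.use z).elim (fun _ => 0) (·.2)

lemma sum_unused [Fintype V] [Fintype L] (Q : Env R T L N) (G : Gr V E L) :
    ∑ v, (Q.unused G v).sum = ∑ x, Q.un (fun x => (G.hf (inr x)).2 + Q.b x) x := by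
  have h1 : ∀ v, (Q.unused G v).sum = ∑ x, if inl x ∉ Set.range Q.use ∧ (G.hf (inr x)).1 = v then
      (G.hf (inr x)).2 + Q.b x else 0 := by
    intro v
    unfold Env.unused
    rw [finsum_eq_sum_of_fintype]
    have h2 : ∀ s : Finset L, ∀ F : L → Multiset ℕ, (∑ x ∈ s, F x).sum = ∑ x ∈ s, (F x).sum := by
      intro s F
      exact map_sum Multiset.sumAddMonoidHom F s
    rw [h2]
    apply Finset.sum_congr rfl
    intro x _
    rw [finsum_eq_if]
    split_ifs <;> simp
  rw [Finset.sum_congr rfl fun v _ => h1 v, Finset.sum_comm]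
  apply Finset.sum_congr rfl
  intro x _
  unfold Env.un
  by_cases hx : inl x ∉ Set.range Q.use
  · rw [if_pos hx, Finset.sum_eq_single (G.hf (inr x)).1]
    · rw [if_pos ⟨hx, rfl⟩]
    · intro v _ hv
      rw [if_neg (fun h => hv h.2.symm)]
    · intro h
      exact absurd (Finset.mem_univ _) h
  · rw [if_neg hx, Finset.sum_eq_zero]
    intro v _
    rw [if_neg (fun h => hx h.1)]

lemma deg_graft [Finite V] [Finite E] [Finite L] [Finite R] [Finite T] [Finite N]
    (Q : Env R T L N) (hQ : ∀ y z x, Q.use y = inl x → Q.use z = inl x → y = z)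
    (G : Gr V E L) : (Q.graft G).deg = G.deg + Q.cdeg := by
  have := Fintype.ofFinite V
  have := Fintype.ofFinite E
  have := Fintype.ofFinite L
  have := Fintype.ofFinite R
  have := Fintype.ofFinite T
  have := Fintype.ofFinite N
  unfold Gr.deg Env.cdeg
  rw [Nat.card_sum]
  simp only [finsum_eq_sum_of_fintype]
  rw [Fintype.sum_sum_type]
  have e1 : ∑ v, ((Q.graft G).dec (inl v)).2.sum = ∑ v, (G.dec v).2.sum +
      ∑ x, Q.un (fun x => (G.hf (inr x)).2 + Q.b x) x := by
    rw [← sum_unused Q G, ← Finset.sum_add_distrib]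
    apply Finset.sum_congr rfl
    intro v _
    rw [Env.graft_dec_inl, Multiset.sum_add]
  have e2 : ∑ r, ((Q.graft G).dec (inr r)).2.sum = ∑ r, (Q.dec r).2.sum := rfl
  have e3 : ∑ y, ((Q.graft G).hf y).2 = ∑ y : E × Bool, (G.hf (inl y)).2 +
      ∑ z, (Q.usehf G z).2 := by
    rw [Fintype.sum_sum_type, ← Equiv.sum_comp (Equiv.sumProdDistrib E T Bool).symm,
      Fintype.sum_sum_type, Fintype.sum_sum_type (f := fun z => (Q.usehf G z).2), add_assoc]
    rfl
  have e4 : ∑ z, (Q.usehf G z).2 = ∑ x, Q.us (fun x => (G.hf (inr x)).2 + Q.b x) x +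
      ∑ z, (Q.use z).elim (fun _ => 0) (·.2) := by
    rw [← sum_use Q hQ (fun x => (G.hf (inr x)).2 + Q.b x), ← Finset.sum_add_distrib]
    apply Finset.sum_congr rfl
    intro z _
    rcases hz : Q.use z with x | p
    · rw [Env.usehf_inl hz]
      simp
    · rw [Env.usehf_inr hz]
      simp
  have e5 : ∑ x, Q.un (fun x => (G.hf (inr x)).2 + Q.b x) x +
      ∑ x, Q.us (fun x => (G.hf (inr x)).2 + Q.b x) x =
      ∑ x, (G.hf (inr x)).2 + ∑ x, Q.b x := by
    rw [← Finset.sum_add_distrib, ← Finset.sum_add_distrib]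
    apply Finset.sum_congr rfl
    intro x _
    exact us_add_un Q _ x
  rw [e1, e2, e3, e4, Fintype.sum_sum_type (f := fun y => (G.hf y).2)]
  omega

/-! ### Relations -/

/-- Half-edges of the environment at `r`. -/
def Env.nR (Q : Env R T L N) (r : R) : ℕ := Nat.card {z // ∃ c, Q.use z = inr (r, c)}

lemma nv_graft_inr (Q : Env R T L N) (G : Gr V E L) (r : R) :
    (Q.graft G).nv (inr r) = Q.nR r := by
  unfold Gr.nv Env.nR
  symm
  have hl : ∀ z : (T × Bool) ⊕ N, (Q.graft G).hf (z.map (fun y => (inr y.1, y.2)) id) =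
      Q.usehf G z := by
    rintro (⟨t, s⟩ | n) <;> rfl
  refine Nat.card_congr (Equiv.ofBijective
    (fun z => ⟨z.1.map (fun y => (inr y.1, y.2)) id, ?_⟩) ⟨?_, ?_⟩)
  · obtain ⟨c, hc⟩ := z.2
    rw [hl, Env.usehf_inr hc]
  · intro a b hab
    have h1 := congrArg Subtype.val hab
    apply Subtype.ext
    refine Function.Injective.sumMap ?_ Function.injective_id h1
    intro p q hpq
    simp only [Prod.mk.injEq, inr.injEq] at hpq
    exact Prod.ext hpq.1 hpq.2
  · rintro ⟨y, hy⟩
    have hcase : (∃ e s, y = inl (inl e, s)) ∨ ∃ z : (T × Bool) ⊕ N,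
        y = z.map (fun y => (inr y.1, y.2)) id := by
      rcases y with ⟨e | t, s⟩ | n
      · exact Or.inl ⟨e, s, rfl⟩
      · exact Or.inr ⟨inl (t, s), rfl⟩
      · exact Or.inr ⟨inr n, rfl⟩
    rcases hcase with ⟨e, s, rfl⟩ | ⟨z, rfl⟩
    · rw [Env.graft_hf_inl] at hy
      simp at hy
    · rw [hl] at hy
      rcases hz : Q.use z with x | p
      · rw [Env.usehf_inl hz] at hy
        simp at hy
      · rw [Env.usehf_inr hz] at hy
        simp only [inr.injEq] at hy
        exact ⟨⟨z, p.2, by rw [hz, ← hy]⟩, rfl⟩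

/-- The environment with the genus of `r` raised by one and the leg `none` forgotten. -/
def Env.raiE (Q : Env R T L (Option N)) (r : R) : Env R T L N :=
  ⟨Function.update Q.dec r ((Q.dec r).1 + 1, (Q.dec r).2.filter (· ≠ 0)),
    fun y => Q.use (optEquiv T N (some y)), Q.b⟩

lemma raiE_inj {Q : Env R T L (Option N)}
    (hQ : ∀ y z x, Q.use y = inl x → Q.use z = inl x → y = z) (r : R) :
    ∀ y z x, (Q.raiE r).use y = inl x → (Q.raiE r).use z = inl x → y = z := by
  intro y z x hy hz
  have := hQ _ _ _ hy hz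
  exact Option.some.inj ((optEquiv T N).injective this)

lemma unused_raiE (Q : Env R T L (Option N)) (G : Gr V E L) {p : R × ℕ}
    (hn : Q.use (inr none) = inr p) (v : V) : (Q.raiE p.1).unused G v = Q.unused G v :=
  Q.unused_pushE_inr G hn v

lemma vn_graft {Q : Env R T L (Option N)} {G : Gr V E L} {p : R × ℕ}
    (hn : Q.use (inr none) = inr p) : (Q.graft G).vn = inr p.1 := by
  unfold Gr.vn
  rw [Env.graft_hf_leg, Env.usehf_inr hn]

lemma rai_graft {Q : Env R T L (Option N)} (G : Gr V E L) {p : R × ℕ}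
    (hn : Q.use (inr none) = inr p) : (Q.graft G).rai = (Q.raiE p.1).graft G := by
  have hv := vn_graft (G := G) hn
  apply Gr.ext'
  · rintro (v | r)
    · rw [Gr.rai_dec_ne _ (by rw [hv]; simp), Env.graft_dec_inl, Env.graft_dec_inl,
        unused_raiE Q G hn]
    · by_cases hr : r = p.1
      · subst hr
        have h := (Q.graft G).rai_dec_self
        rw [hv, Env.graft_dec_inr] at h
        rw [h, Env.graft_dec_inr]
        unfold Env.raiE
        simp
      · rw [Gr.rai_dec_ne _ (by rw [hv]; simpa using hr), Env.graft_dec_inr, Env.graft_dec_inr]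
        unfold Env.raiE
        simp [Function.update_of_ne hr]
  · rintro (⟨e | t, s⟩ | x) <;> rfl

/-- The constant factor. -/
def Env.facR (Q : Env R T L (Option N)) (θ : ℕ) (r : R) : ℚ :=
  (∏ j ∈ Finset.range ((Q.dec r).2.count 0), (2 * ((Q.dec r).1 : ℚ) - 2 + Q.nR r +
    ((Q.dec r).2.filter (· ≠ 0)).card + j)) / Nat.card {r' // θ < ((Q.raiE r).dec r').1}

lemma phiG_graft [Finite V] [Finite E] [Finite L] [Finite R] [Finite T] [Finite N]
    {θ D g γ d : ℕ} (hθ : 3 * D ≤ θ) (Q : Env R T L (Option N))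
    (hQ : ∀ y z x, Q.use y = inl x → Q.use z = inl x → y = z) {A : L → ℕ}
    (hγ : γ + ∑ᶠ x, A x < 3 * d) {G : Gr V E L} (hw : wt G γ A d ≠ 0) :
    phiG θ D g (Q.graft G) = (Q.use (inr none)).elim (fun _ => 0) (fun p =>
      if d + Q.cdeg = D ∧ p.2 = 0 ∧ θ ≤ (Q.dec p.1).1 then
        Q.facR θ p.1 • mk g N (dl ((Q.raiE p.1).graft G) 1) else 0) := by
  obtain ⟨hS, hd, h0⟩ := wt_ne_zero hw
  have hdeg := deg_graft Q hQ G
  rw [hd] at hdeg
  rcases hn : Q.use (inr none) with x | p
  · rw [Sum.elim_inl]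
    unfold phiG
    rw [if_neg]
    rintro ⟨c1, c2, c3⟩
    have h1 : (Q.graft G).vn = inl (G.hf (inr x)).1 := by
      unfold Gr.vn
      rw [Env.graft_hf_leg, Env.usehf_inl hn]
    rw [h1, Env.graft_dec_inl] at c3
    have h2 := hS.gen_le (G.hf (inr x)).1
    simp only at c3
    omega
  · rw [Sum.elim_inr]
    have hv := vn_graft (G := G) hn
    unfold phiG
    have hc : (Q.graft G).Cond θ D ↔ (d + Q.cdeg = D ∧ p.2 = 0 ∧ θ ≤ (Q.dec p.1).1) := by
      unfold Gr.Cond
      rw [hdeg, hv, Env.graft_hf_leg, Env.usehf_inr hn, Env.graft_dec_inr]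
    by_cases hC : (Q.graft G).Cond θ D
    · have hC' := hc.1 hC
      rw [if_pos hC, if_pos hC', rai_graft G hn]
      congr 1
      unfold Env.facR
      congr 1
      · unfold Gr.cfac
        rw [hv, Env.graft_dec_inr, nv_graft_inr]
      · unfold Gr.big
        congr 1
        symm
        refine Nat.card_congr (Equiv.ofBijective (fun r => ⟨inr r.1, r.2⟩) ⟨?_, ?_⟩)
        · intro a b hab
          have := congrArg Subtype.val hab
          exact Subtype.ext (inr_injective this)
        · rintro ⟨v | r, hv'⟩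
          · exfalso
            rw [Env.graft_dec_inl] at hv'
            have h2 := hS.gen_le v
            simp only at hv'
            omega
          · exact ⟨⟨r, hv'⟩, rfl⟩
    · rw [if_neg hC, if_neg (fun h => hC (hc.2 h))]

theorem phi_pix_mem [Finite L] [Finite R] [Finite T] [Finite N] {θ D g γ d : ℕ}
    (hθ : 3 * D ≤ θ) (Q : Env R T L (Option N))
    (hQ : ∀ y z x, Q.use y = inl x → Q.use z = inl x → y = z) (A : L → ℕ)
    (hA : ∀ x, A x ≤ 1) (hγ : γ + ∑ᶠ x, A x < 3 * d) :
    phi θ D g N (Q.pix γ A d) ∈ Pbar g N := by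
  rw [Env.pix_eq_sum, map_sum]
  have h1 : ∀ p ∈ supp γ A d, phi θ D g N (dl (Q.graft p.2.2)
      (wt p.2.2 γ A d / (p.1.factorial * p.2.1.factorial * 2 ^ p.2.1))) =
      (wt p.2.2 γ A d / (p.1.factorial * p.2.1.factorial * 2 ^ p.2.1)) •
      (Q.use (inr none)).elim (fun _ => 0) (fun q =>
      if d + Q.cdeg = D ∧ q.2 = 0 ∧ θ ≤ (Q.dec q.1).1 then
        Q.facR θ q.1 • mk g N (dl ((Q.raiE q.1).graft p.2.2) 1) else 0) := by
    intro p _
    rw [phi_dl]
    by_cases hw : wt p.2.2 γ A d = 0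
    · rw [hw, zero_div, zero_smul, zero_smul]
    · rw [phiG_graft hθ Q hQ hγ hw]
  rw [Finset.sum_congr rfl h1]
  rcases hn : Q.use (inr none) with x | q
  · rw [Finset.sum_eq_zero]
    · exact Submodule.zero_mem _
    · intro p _
      rw [Sum.elim_inl, smul_zero]
  · simp only [Sum.elim_inr]
    by_cases hc : d + Q.cdeg = D ∧ q.2 = 0 ∧ θ ≤ (Q.dec q.1).1
    · simp only [if_pos hc]
      have h2 : ∀ p ∈ supp γ A d, (wt p.2.2 γ A d /
          (p.1.factorial * p.2.1.factorial * 2 ^ p.2.1)) •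
          Q.facR θ q.1 • mk g N (dl ((Q.raiE q.1).graft p.2.2) 1) =
          Q.facR θ q.1 • mk g N (dl ((Q.raiE q.1).graft p.2.2)
            (wt p.2.2 γ A d / (p.1.factorial * p.2.1.factorial * 2 ^ p.2.1))) := by
        intro p _
        rw [smul_comm, ← map_smul, smul_dl, mul_one]
      rw [Finset.sum_congr rfl h2, ← Finset.smul_sum, ← map_sum, ← Env.pix_eq_sum]
      apply Submodule.smul_mem
      rw [mk_mem_Pbar]
      exact P.pix _ γ d A inferInstance inferInstance inferInstance (raiE_inj hQ q.1) hA hγ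
    · simp only [if_neg hc, smul_zero, Finset.sum_const_zero]
      exact Submodule.zero_mem _

theorem phi_P_mem [Finite L] {θ D g : ℕ} (hθ : 3 * D ≤ θ) (hθ1 : 1 ≤ θ) {x : F (Option L)}
    (hx : P g x) : phi θ D (g + 1) L x ∈ Pbar (g + 1) L := by
  induction hx with
  | triv x hx =>
    rw [phi_triv hθ hθ1 hx]
    exact Submodule.zero_mem _
  | pix Q γ d A hR hT hL hQ hA hγ => exact phi_pix_mem hθ Q hQ A hA hγ
  | lin x y c hx hy hx' hy' =>
    rw [map_add, map_smul]
    exact Submodule.add_mem _ hx' (Submodule.smul_mem _ _ hy')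

end Vale.Agent.P273
end
end
end

section

section

noncomputable section

namespace Vale.Agent.P273

open Sum
open scoped Classical

variable {V E L L' N V' E' : Type}

/-! ### Merging the legs `none` and `some none` -/

lemma Gr.CutData.stab_iff' {G : Gr V E L} {w : V} {f : E} {s : Bool} {i : L' → L}
    (C : G.CutData w f s i) [Finite V] [Finite E] {h γ : ℕ}
    (hgen : (G.dec w).1 = h) (hst : 2 < 2 * h + G.nv w) :
    (G.cut w f s i C.hne).Stab γ ↔ G.Stab (γ + h) := by
  unfold Gr.Stab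
  rw [C.conn_iff]
  have h1 : Nonempty {v // v ≠ w} := ⟨⟨_, C.hne (inr none)⟩⟩
  have h2 : Nonempty V := ⟨w⟩
  have h3 := Gr.card_ne V w
  have h4 := Gr.card_ne E f
  have h5 := Gr.finsum_ne w (fun v => (G.dec v).1)
  have h6 : ∑ᶠ v, ((G.cut w f s i C.hne).dec v).1 = ∑ᶠ v : {v // v ≠ w}, (G.dec v.1).1 := rfl
  rw [h6]
  have h7 : (∀ v, 2 < 2 * ((G.cut w f s i C.hne).dec v).1 + (G.cut w f s i C.hne).nv v) ↔
      ∀ v, 2 < 2 * (G.dec v).1 + G.nv v := by
    constructor
    · intro H v
      by_cases hv : v = w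
      · subst hv
        omega
      · have := H ⟨v, hv⟩
        rw [C.nv_eq] at this
        exact this
    · intro H v
      rw [C.nv_eq]
      exact H v.1
  rw [h7]
  simp only [h1, h2, true_and]
  have h8 : (∑ᶠ v : {v // v ≠ w}, (G.dec v.1).1 + Nat.card {e // e ≠ f} + 1 =
      γ + Nat.card {v // v ≠ w}) ↔ (∑ᶠ v, (G.dec v).1 + Nat.card E + 1 = γ + h + Nat.card V) := by
    rw [h5, hgen]
    omega
  rw [h8]

/-- Raise the exponent of the leg `none` by one. -/
def Gr.bump (G : Gr V E (Option L)) : Gr V E (Option L) :=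
  ⟨G.dec, fun y => ((G.hf y).1, (G.hf y).2 + if y = inr none then 1 else 0)⟩

lemma Gr.bump_none (G : Gr V E (Option L)) :
    G.bump.hf (inr none) = ((G.hf (inr none)).1, (G.hf (inr none)).2 + 1) := by
  unfold Gr.bump
  simp only [if_true]

lemma Gr.bump_ne (G : Gr V E (Option L)) {y : (E × Bool) ⊕ Option L} (hy : y ≠ inr none) :
    G.bump.hf y = G.hf y := by
  unfold Gr.bump
  simp only [if_neg hy, add_zero]

lemma Gr.bump_stab (G : Gr V E (Option L)) (g : ℕ) : G.bump.Stab g ↔ G.Stab g := Iff.rfl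

/-- The half-edge `y` lies on a genus zero vertex that carries moreover the two legs. -/
structure MT (G : Gr V E (Option (Option L))) (y : E × Bool) : Prop where
  gen : (G.dec (G.hf (inl y)).1).1 = 0
  kap : ∀ k ∈ (G.dec (G.hf (inl y)).1).2, k = 0
  e0 : (G.hf (inl y)).2 = 0
  l1 : G.hf (inr none) = ((G.hf (inl y)).1, 0)
  l2 : G.hf (inr (some none)) = ((G.hf (inl y)).1, 0)
  only : ∀ z, (G.hf z).1 = (G.hf (inl y)).1 → z = inl y ∨ z = inr none ∨ z = inr (some none)

/-- The remaining legs. -/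
def ss (x : L) : Option (Option L) := some (some x)

lemma ss_inj : (ss : L → Option (Option L)).Injective := by
  intro x y h
  unfold ss at h
  simpa using h

lemma not_range_ss (x : Option (Option L)) :
    x ∉ Set.range (ss : L → Option (Option L)) ↔ x = none ∨ x = some none := by
  constructor
  · intro h
    rcases x with _ | _ | x
    · exact Or.inl rfl
    · exact Or.inr rfl
    · exact absurd ⟨x, rfl⟩ h
  · rintro (rfl | rfl) ⟨y, hy⟩
    · simp [ss] at hy
    · simp [ss] at hy

lemma MT.cutData {G : Gr V E (Option (Option L))} {y : E × Bool} (ht : MT G y) :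
    G.CutData (G.hf (inl y)).1 y.1 y.2 (ss : L → Option (Option L)) where
  hi := ss_inj
  hw := rfl
  hne := by
    intro z hz
    rcases ht.only _ hz with h | h | h
    · exact emb_ne _ _ _ z h
    · rcases z with z | (_ | x)
      · simp at h
      · simp at h
      · simp [ss] at h
    · rcases z with z | (_ | x)
      · simp at h
      · simp at h
      · simp [ss] at h
  hJ := by
    intro x hx
    rcases (not_range_ss x).1 hx with rfl | rfl
    · rw [ht.l1]
    · rw [ht.l2]

/-- Remove the vertex. -/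
def MT.cut {G : Gr V E (Option (Option L))} {y : E × Bool} (ht : MT G y) :
    Gr {v // v ≠ (G.hf (inl y)).1} {e // e ≠ y.1} (Option L) :=
  G.cut _ y.1 y.2 ss ht.cutData.hne

lemma MT.nv_eq {G : Gr V E (Option (Option L))} {y : E × Bool} (ht : MT G y) :
    G.nv (G.hf (inl y)).1 = 3 := by
  unfold Gr.nv
  have h : {z | (G.hf z).1 = (G.hf (inl y)).1} = {inl y, inr none, inr (some none)} := by
    ext z
    constructor
    · intro hz
      rcases ht.only z hz with rfl | rfl | rfl <;> simp
    · rintro (rfl | rfl | rfl)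
      · rfl
      · change (G.hf (inr none)).1 = _
        rw [ht.l1]
      · change (G.hf (inr (some none))).1 = _
        rw [ht.l2]
  have h2 : Nat.card {z // (G.hf z).1 = (G.hf (inl y)).1} =
      Set.ncard {z | (G.hf z).1 = (G.hf (inl y)).1} := rfl
  rw [h2, h]
  exact Set.ncard_eq_three.2 ⟨_, _, _, by simp, by simp, by simp, rfl⟩

/-- The contribution of the half-edge `y`. -/
def mterm (g : ℕ) (G : Gr V E (Option (Option L))) (y : E × Bool) : Sq g (Option L) :=
  if ht : MT G y then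
    ((Multiset.card (G.dec (G.hf (inl y)).1).2).factorial : ℚ) • mk g (Option L) (dl ht.cut.bump 1)
  else 0

lemma mterm_of {g : ℕ} {G : Gr V E (Option (Option L))} {y : E × Bool} (ht : MT G y) :
    mterm g G y = ((Multiset.card (G.dec (G.hf (inl y)).1).2).factorial : ℚ) •
      mk g (Option L) (dl ht.cut.bump 1) := dif_pos ht

lemma mterm_not {g : ℕ} {G : Gr V E (Option (Option L))} {y : E × Bool} (ht : ¬ MT G y) :
    mterm g G y = 0 := dif_neg ht

/-- Forget the leg `none`, drop the zeros at its vertex. -/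
def Gr.drp (G : Gr V E (Option L)) : Gr V E L :=
  ⟨Function.update G.dec G.vn ((G.dec G.vn).1, (G.dec G.vn).2.filter (· ≠ 0)),
   Sum.elim (fun y => G.hf (inl y)) (fun x => G.hf (inr (some x)))⟩

lemma Gr.drp_dec_self (G : Gr V E (Option L)) :
    G.drp.dec G.vn = ((G.dec G.vn).1, (G.dec G.vn).2.filter (· ≠ 0)) := by
  unfold Gr.drp
  simp

lemma Gr.drp_dec_ne (G : Gr V E (Option L)) {v : V} (h : v ≠ G.vn) : G.drp.dec v = G.dec v :=
  Function.update_of_ne h _ _

lemma Gr.drp_gen (G : Gr V E (Option L)) (v : V) : (G.drp.dec v).1 = (G.dec v).1 := by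
  by_cases h : v = G.vn
  · subst h
    rw [G.drp_dec_self]
  · rw [G.drp_dec_ne h]

lemma Gr.drp_sum (G : Gr V E (Option L)) (v : V) : (G.drp.dec v).2.sum = (G.dec v).2.sum := by
  by_cases h : v = G.vn
  · subst h
    rw [G.drp_dec_self]
    have h1 := Multiset.filter_add_not (fun x => x ≠ 0) (G.dec G.vn).2
    conv_rhs => rw [← h1]
    rw [Multiset.sum_add]
    have h2 : (Multiset.filter (fun x => ¬ x ≠ 0) (G.dec G.vn).2).sum = 0 := by
      apply Multiset.sum_eq_zero
      intro k hk
      have := (Multiset.mem_filter.1 hk).2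
      push Not at this
      exact this
    rw [h2, add_zero]
  · rw [G.drp_dec_ne h]

lemma Gr.drp_hf (G : Gr V E (Option L)) (y : (E × Bool) ⊕ L) :
    G.drp.hf y = G.hf (y.map id some) := by
  rcases y with y | x <;> rfl

lemma Gr.drp_nv [Finite E] [Finite L] (G : Gr V E (Option L)) (v : V) :
    G.nv v = G.drp.nv v + if G.vn = v then 1 else 0 := G.nv_pushG v

/-- The condition. -/
def Gr.MC (G : Gr V E (Option (Option L))) : Prop :=
  G.hf (inr none) = G.hf (inr (some none)) ∧ (G.hf (inr none)).2 = 0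

/-- Merging the two legs of one graph. -/
def mrgG (g : ℕ) (G : Gr V E (Option (Option L))) : Sq g (Option L) :=
  (if G.MC then G.cfac • mk g (Option L) (dl G.drp 1) else 0) - ∑ᶠ y, mterm g G y

/-- Merging the two legs. -/
def mrg (g : ℕ) (L : Type) : F (Option (Option L)) →ₗ[ℚ] Sq g (Option L) :=
  lift fun D => mrgG g D.G

lemma mrg_dl (g : ℕ) (G : Gr V E (Option (Option L))) (c : ℚ) :
    mrg g L (dl G c) = c • mrgG g G := lift_dl _ _ _

/-! ### Invalid graphs -/

lemma valid_of_drp [Finite L] {g : ℕ} {G : Gr V E (Option L)}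
    (h0 : (G.hf (inr none)).2 = 0) (H : G.drp.Valid g) : G.Valid g := by
  obtain ⟨hV, hE, ⟨h1, h2, h3, h4⟩, h5⟩ := H
  refine ⟨hV, hE, ⟨h1, h2, ?_, ?_⟩, ?_⟩
  · rw [← h3]
    congr 2
    apply finsum_congr
    intro v
    rw [G.drp_gen]
  · intro v
    have e1 := G.drp_nv v
    have e2 := h4 v
    rw [G.drp_gen] at e2
    omega
  · intro v
    have e1 := G.drp_nv v
    have e2 := h5 v
    rw [G.drp_gen, G.drp_sum] at e2
    have e3 : ∑ᶠ (y) (_ : (G.hf y).1 = v), (G.hf y).2 =
        ∑ᶠ (y) (_ : (G.drp.hf y).1 = v), (G.drp.hf y).2 := by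
      rw [psi_eq_finsum, psi_eq_finsum, finsum_flags, h0]
      simp only [ite_self, zero_add]
      apply finsum_congr
      intro y
      rcases y with y | x <;> rfl
    rw [e3]
    omega

lemma MT.valid_of_cut [Finite L] {g : ℕ} {G : Gr V E (Option (Option L))} {y : E × Bool}
    (ht : MT G y) (H : ht.cut.bump.Valid g) : G.Valid g := by
  obtain ⟨hV, hE, hS, hD⟩ := H
  have hV' : Finite V := Gr.CutData.finite_iff_V.1 hV
  have hE' : Finite E := Gr.CutData.finite_iff_V.1 hE
  have C := ht.cutData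
  have hnv := ht.nv_eq
  have hst : G.Stab g := (C.stab_iff' ht.gen (by omega)).1 ((Gr.bump_stab _ _).1 hS)
  refine ⟨hV', hE', hst, ?_⟩
  intro v
  by_cases hv : v = (G.hf (inl y)).1
  · subst hv
    have h1 : (G.dec (G.hf (inl y)).1).2.sum = 0 := Multiset.sum_eq_zero ht.kap
    have h2 : ∑ᶠ (z) (_ : (G.hf z).1 = (G.hf (inl y)).1), (G.hf z).2 = 0 := by
      rw [psi_eq_finsum]
      apply finsum_eq_zero_of_forall_eq_zero
      intro z
      split_ifs with hz
      · rcases ht.only z hz with rfl | rfl | rfl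
        · exact ht.e0
        · rw [ht.l1]
        · rw [ht.l2]
      · rfl
    rw [h1, h2, hnv]
    omega
  · have h1 := hD ⟨v, hv⟩
    have h2 : ht.cut.bump.nv ⟨v, hv⟩ = G.nv v := C.nv_eq ⟨v, hv⟩
    rw [h2] at h1
    have h3 : ∑ᶠ (z) (_ : (ht.cut.bump.hf z).1 = ⟨v, hv⟩), (ht.cut.bump.hf z).2 ≥
        ∑ᶠ (z) (_ : (ht.cut.hf z).1 = ⟨v, hv⟩), (ht.cut.hf z).2 := by
      rw [psi_eq_finsum, psi_eq_finsum]
      have := Fintype.ofFinite {e // e ≠ y.1}
      have := Fintype.ofFinite L
      rw [finsum_eq_sum_of_fintype, finsum_eq_sum_of_fintype]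
      apply Finset.sum_le_sum
      intro z _
      have e1 : (ht.cut.bump.hf z).1 = (ht.cut.hf z).1 := rfl
      have e2 : (ht.cut.hf z).2 ≤ (ht.cut.bump.hf z).2 := Nat.le_add_right _ _
      rw [e1]
      split_ifs <;> omega
    have h3' : ∑ᶠ (z) (_ : (ht.cut.hf z).1 = ⟨v, hv⟩), (ht.cut.hf z).2 ≥
        ∑ᶠ (z) (_ : (G.hf z).1 = v), (G.hf z).2 := sum_cut_ge C ⟨v, hv⟩
    have h4 : (ht.cut.bump.dec ⟨v, hv⟩) = G.dec v := rfl
    rw [h4] at h1
    omega

lemma mterm_invalid [Finite L] {g : ℕ} {G : Gr V E (Option (Option L))} (hG : ¬ G.Valid g)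
    (y : E × Bool) : mterm g G y = 0 := by
  by_cases ht : MT G y
  · rw [mterm_of ht, mk_invalid (fun H => hG (ht.valid_of_cut H)), smul_zero]
  · exact mterm_not ht

lemma mrgG_invalid [Finite L] {g : ℕ} {G : Gr V E (Option (Option L))} (hG : ¬ G.Valid g) :
    mrgG g G = 0 := by
  rw [mrgG, finsum_eq_zero_of_forall_eq_zero (fun y => mterm_invalid hG y), sub_zero]
  split_ifs with hc
  · rw [mk_invalid (fun H => hG (valid_of_drp hc.2 H)), smul_zero]
  · rfl

/-! ### Dilaton -/

lemma MT_upd {G : Gr V E (Option (Option L))} {y : E × Bool} {v : V} :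
    MT (G.upd v (0 ::ₘ (G.dec v).2)) y ↔ MT G y := by
  have h1 : ((G.upd v (0 ::ₘ (G.dec v).2)).dec (G.hf (inl y)).1).1 = (G.dec (G.hf (inl y)).1).1 :=
    gen_upd _ _ _ _
  have h2 : (∀ k ∈ ((G.upd v (0 ::ₘ (G.dec v).2)).dec (G.hf (inl y)).1).2, k = 0) ↔
      ∀ k ∈ (G.dec (G.hf (inl y)).1).2, k = 0 := by
    by_cases hv : (G.hf (inl y)).1 = v
    · rw [← hv, upd_dec_self]
      simp only [Multiset.mem_cons, forall_eq_or_imp, true_and]
    · rw [upd_dec_ne _ _ _ hv]
  constructor
  · intro H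
    exact ⟨h1.symm.trans H.gen, h2.1 H.kap, H.e0, H.l1, H.l2, H.only⟩
  · intro H
    exact ⟨h1.trans H.gen, h2.2 H.kap, H.e0, H.l1, H.l2, H.only⟩

lemma mterm_upd {g : ℕ} (G : Gr V E (Option (Option L))) (v : V) (y : E × Bool) :
    mterm g (G.upd v (0 ::ₘ (G.dec v).2)) y =
      (2 * ((G.dec v).1 : ℚ) - 2 + G.nv v + (G.dec v).2.card) • mterm g G y := by
  by_cases ht : MT G y
  · have ht' : MT (G.upd v (0 ::ₘ (G.dec v).2)) y := MT_upd.2 ht
    rw [mterm_of ht, mterm_of ht']
    by_cases hv : (G.hf (inl y)).1 = v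
    · have e1 : ht'.cut = ht.cut := by
        have : (fun v' : {v' // v' ≠ (G.hf (inl y)).1} =>
            (G.upd v (0 ::ₘ (G.dec v).2)).dec v'.1) = fun v' => G.dec v'.1 := by
          funext v'
          exact upd_dec_ne _ _ _ (fun h => v'.2 (h.trans hv.symm))
        unfold MT.cut Gr.cut
        exact congrArg (fun d => (⟨d, _⟩ : Gr _ _ _)) this
      have e2 : ((G.upd v (0 ::ₘ (G.dec v).2)).dec
          ((G.upd v (0 ::ₘ (G.dec v).2)).hf (inl y)).1).2 = 0 ::ₘ (G.dec v).2 := by
        have : ((G.upd v (0 ::ₘ (G.dec v).2)).hf (inl y)).1 = v := hv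
        rw [this, upd_dec_self]
      rw [e2, e1, smul_smul]
      have e3 : G.nv v = 3 := by rw [← hv]; exact ht.nv_eq
      have e4 : (G.dec v).1 = 0 := by rw [← hv]; exact ht.gen
      have e5 : (G.dec (G.hf (inl y)).1).2 = (G.dec v).2 := by rw [hv]
      rw [Multiset.card_cons, Nat.factorial_succ, e5, e3, e4]
      congr 1
      push_cast
      ring
    · have hv' : v ≠ (G.hf (inl y)).1 := fun h => hv h.symm
      have e1 : ht'.cut.bump = ht.cut.bump.upd ⟨v, hv'⟩ (0 ::ₘ (ht.cut.bump.dec ⟨v, hv'⟩).2) := by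
        apply eq_upd
        · rfl
        · exact upd_dec_self _ _ _
        · intro u hu
          exact upd_dec_ne _ _ _ (fun h => hu (Subtype.ext h))
      have e2 : ((G.upd v (0 ::ₘ (G.dec v).2)).dec
          ((G.upd v (0 ::ₘ (G.dec v).2)).hf (inl y)).1).2 = (G.dec (G.hf (inl y)).1).2 := by
        have : ((G.upd v (0 ::ₘ (G.dec v).2)).hf (inl y)).1 = (G.hf (inl y)).1 := rfl
        rw [this, upd_dec_ne _ _ _ hv]
      have e3 : ht.cut.bump.nv ⟨v, hv'⟩ = G.nv v := ht.cutData.nv_eq ⟨v, hv'⟩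
      have e4 : ht.cut.bump.dec ⟨v, hv'⟩ = G.dec v := rfl
      have e5 := mk_dilaton (g := g) ht.cut.bump ⟨v, hv'⟩ 1
      rw [e3, e4] at e5
      rw [e2, e1, e4]
      refine Eq.trans (congrArg _ e5) ?_
      rw [smul_comm]
  · have ht' : ¬ MT (G.upd v (0 ::ₘ (G.dec v).2)) y := fun H => ht (MT_upd.1 H)
    rw [mterm_not ht, mterm_not ht', smul_zero]

lemma cfac_upd_self (G : Gr V E (Option L)) : (G.upd G.vn (0 ::ₘ (G.dec G.vn).2)).cfac =
    (2 * ((G.dec G.vn).1 : ℚ) - 2 + G.nv G.vn + (G.dec G.vn).2.card) * G.cfac := by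
  unfold Gr.cfac
  rw [vn_upd, upd_dec_self, nv_upd]
  simp only
  rw [Multiset.count_cons_self, Finset.prod_range_succ]
  have h1 : (0 ::ₘ (G.dec G.vn).2).filter (· ≠ 0) = (G.dec G.vn).2.filter (· ≠ 0) := by
    simp only [ne_eq, not_true_eq_false, not_false_eq_true, Multiset.filter_cons_of_neg]
  rw [h1, mul_comm]
  congr 1
  have h2 := card_filter_add_count (G.dec G.vn).2
  rw [← h2]
  push_cast
  ring

lemma cfac_upd_ne (G : Gr V E (Option L)) {v : V} (hv : v ≠ G.vn) (K : Multiset ℕ) :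
    (G.upd v K).cfac = G.cfac := by
  unfold Gr.cfac
  rw [vn_upd, upd_dec_ne _ _ _ (Ne.symm hv), nv_upd]

lemma drp_upd_self (G : Gr V E (Option L)) : (G.upd G.vn (0 ::ₘ (G.dec G.vn).2)).drp = G.drp := by
  apply Gr.ext'
  · intro u
    by_cases hu : u = G.vn
    · subst hu
      have h := (G.upd G.vn (0 ::ₘ (G.dec G.vn).2)).drp_dec_self
      rw [vn_upd, upd_dec_self] at h
      rw [h, G.drp_dec_self]
      simp
    · rw [G.drp_dec_ne hu, Gr.drp_dec_ne _ (by rw [vn_upd]; exact hu), upd_dec_ne _ _ _ hu]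
  · intro y
    rfl

lemma drp_upd_ne (G : Gr V E (Option L)) {v : V} (hv : v ≠ G.vn) :
    (G.upd v (0 ::ₘ (G.dec v).2)).drp = G.drp.upd v (0 ::ₘ (G.drp.dec v).2) := by
  apply eq_upd
  · rfl
  · rw [Gr.drp_dec_ne _ (by rw [vn_upd]; exact hv), upd_dec_self, G.drp_dec_ne hv]
  · intro u hu
    by_cases hu' : u = G.vn
    · subst hu'
      have h := (G.upd v (0 ::ₘ (G.dec v).2)).drp_dec_self
      rw [vn_upd, upd_dec_ne _ _ _ hu] at h
      rw [h, G.drp_dec_self]
    · rw [G.drp_dec_ne hu', Gr.drp_dec_ne _ (by rw [vn_upd]; exact hu'), upd_dec_ne _ _ _ hu]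

lemma mrgG_upd [Finite E] [Finite L] {g : ℕ} (G : Gr V E (Option (Option L))) (v : V) :
    mrgG g (G.upd v (0 ::ₘ (G.dec v).2)) =
      (2 * ((G.dec v).1 : ℚ) - 2 + G.nv v + (G.dec v).2.card) • mrgG g G := by
  unfold mrgG
  rw [smul_sub, smul_finsum]
  congr 1
  · have hc : (G.upd v (0 ::ₘ (G.dec v).2)).MC ↔ G.MC := Iff.rfl
    by_cases hG : G.MC
    · rw [if_pos hG, if_pos (hc.2 hG)]
      by_cases hv : v = G.vn
      · subst hv
        rw [drp_upd_self, cfac_upd_self, smul_smul]
      · have e3 : G.drp.nv v = G.nv v := by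
          have := G.drp_nv v
          rw [if_neg (Ne.symm hv)] at this
          omega
        have e4 := mk_dilaton (g := g) G.drp v 1
        rw [drp_upd_ne G hv, cfac_upd_ne G hv, e4, e3, G.drp_dec_ne hv, smul_comm]
    · rw [if_neg hG, if_neg (fun h => hG (hc.1 h)), smul_zero]
  · exact finsum_congr fun y => mterm_upd G v y

end Vale.Agent.P273
end
end
end

section

section

noncomputable section

namespace Vale.Agent.P273

open Sum
open scoped Classical

variable {V E L L' N V' E' : Type}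

lemma IsoData.bump {G : Gr V E (Option L)} {G' : Gr V' E' (Option L)} {φ : V → V'}
    {ρ : E × Bool → E' × Bool} (I : IsoData G G' φ ρ) : IsoData G.bump G'.bump φ ρ where
  h1 := I.h1
  h2 := I.h2
  h3 := I.h3
  h4 := I.h4
  h5 := by
    intro y
    have h := I.h5 y
    by_cases hy : y = inr none
    · subst hy
      have h' : G'.hf (inr none) = (G.hf (inr none)).map φ id := h
      rw [Sum.map_inr, id, G'.bump_none, G.bump_none, h']
      rfl
    · have hy' : y.map ρ id ≠ inr none := by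
        rcases y with y | x
        · simp
        · simpa using hy
      rw [G'.bump_ne hy', G.bump_ne hy, h]

lemma Gr.Iso.bump {G : Gr V E (Option L)} {G' : Gr V' E' (Option L)} (h : G.Iso G') :
    G.bump.Iso G'.bump := by
  obtain ⟨φ, ρ, I⟩ := h.data
  exact ⟨φ, ρ, I.h1, I.h2, I.h3, I.bump.h4, I.bump.h5⟩

lemma IsoData.drp {G : Gr V E (Option L)} {G' : Gr V' E' (Option L)} {φ : V → V'}
    {ρ : E × Bool → E' × Bool} (I : IsoData G G' φ ρ) : IsoData G.drp G'.drp φ ρ where
  h1 := I.h1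
  h2 := I.h2
  h3 := I.h3
  h4 := by
    intro v
    by_cases hv : v = G.vn
    · subst hv
      have h := G'.drp_dec_self
      rw [I.vn, I.h4] at h
      rw [h, G.drp_dec_self]
    · have h : φ v ≠ G'.vn := by
        rw [I.vn]
        exact fun h => hv (I.h1.1 h)
      rw [G.drp_dec_ne hv, G'.drp_dec_ne h, I.h4]
  h5 := by
    intro y
    rw [Gr.drp_hf, Gr.drp_hf]
    have := I.h5 (y.map id some)
    rcases y with y | x
    · exact this
    · exact this

section

variable {G : Gr V E L} {G' : Gr V' E' L} {φ : V → V'} {ρ : E × Bool → E' × Bool}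

lemma IsoData.cut_iso_gen (I : IsoData G G' φ ρ) {y : E × Bool} {i : L' → L}
    (hne : ∀ z, (G.hf (emb y.1 y.2 i z)).1 ≠ (G.hf (inl y)).1)
    (hne' : ∀ z, (G'.hf (emb (ρ y).1 (ρ y).2 i z)).1 ≠ (G'.hf (inl (ρ y))).1) :
    (G.cut _ y.1 y.2 i hne).Iso (G'.cut _ (ρ y).1 (ρ y).2 i hne') := by
  have e1 := I.hf_inl y
  have key : ∀ v, v ≠ (G.hf (inl y)).1 → φ v ≠ (G'.hf (inl (ρ y))).1 := by
    intro v hv h
    rw [e1] at h
    exact hv (I.h1.1 h)
  have key2 : ∀ z : E × Bool, z.1 ≠ y.1 → (ρ z).1 ≠ (ρ y).1 := by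
    intro z hz h
    exact hz ((I.ρ_fst_inj z y).1 h)
  refine ⟨fun v => ⟨φ v.1, key v.1 v.2⟩,
    fun z => (⟨(ρ (z.1.1, z.2)).1, key2 (z.1.1, z.2) z.1.2⟩, (ρ (z.1.1, z.2)).2), ⟨?_, ?_⟩,
    ⟨?_, ?_⟩, ?_, ?_, ?_⟩
  · intro a b hab
    exact Subtype.ext (I.h1.1 (congrArg Subtype.val hab))
  · rintro ⟨v', hv'⟩
    obtain ⟨v, rfl⟩ := I.h1.2 v'
    refine ⟨⟨v, ?_⟩, rfl⟩
    rintro rfl
    rw [e1] at hv'
    exact hv' rfl
  · rintro ⟨⟨a, ha⟩, s⟩ ⟨⟨b, hb⟩, t⟩ hab
    simp only [Prod.mk.injEq, Subtype.mk.injEq] at hab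
    have := I.h2.1 (Prod.ext hab.1 hab.2)
    simpa using this
  · rintro ⟨⟨a, ha⟩, s⟩
    obtain ⟨⟨b, t⟩, hb⟩ := I.h2.2 (a, s)
    refine ⟨(⟨b, ?_⟩, t), ?_⟩
    · intro h
      apply ha
      have := (I.ρ_fst_inj (b, t) y).2 h
      rw [hb] at this
      exact this
    · simp [hb]
  · rintro ⟨e, he⟩
    exact Subtype.ext (I.h3 e)
  · rintro ⟨v, hv⟩
    exact I.h4 v
  · have e4 : emb (ρ y).1 (ρ y).2 i (inr none) = inl (ρ (y.1, !y.2)) := by
      rw [emb_none, ρ_not I.h2 I.h3 y.1 y.2]
    rintro (⟨⟨e, he⟩, s⟩ | (_ | x))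
    · have := I.hf_inl (e, s)
      refine Prod.ext (Subtype.ext ?_) ?_
      · exact congrArg Prod.fst this
      · simp only [Gr.cut, Sum.map_inl, emb_inl, reduceCtorEq, if_false,
          add_zero, Prod.map_snd, id]
        exact congrArg Prod.snd this
    · have h1 := I.hf_inl (y.1, !y.2)
      have h2 : (G'.hf (emb (ρ y).1 (ρ y).2 i (inr none))) =
        (φ (G.hf (inl (y.1, !y.2))).1, (G.hf (inl (y.1, !y.2))).2) := by rw [e4, h1]
      refine Prod.ext (Subtype.ext ?_) ?_
      · exact congrArg Prod.fst h2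
      · have h3 := congrArg Prod.snd h2
        simp only [Gr.cut, map_inr, id, if_true, Prod.map_snd]
        rw [h3]
        rw [show (inl ((ρ y).1, (ρ y).2) : (E' × Bool) ⊕ L) = inl (ρ y) from rfl, e1]
        rfl
    · have := I.hf_inr (i x)
      refine Prod.ext (Subtype.ext ?_) ?_
      · exact congrArg Prod.fst this
      · simp only [Gr.cut, Sum.map_inr, emb_some, id, inr.injEq, reduceCtorEq, if_false,
          add_zero, Prod.map_snd]
        exact congrArg Prod.snd this

end

section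

variable {G : Gr V E (Option (Option L))} {G' : Gr V' E' (Option (Option L))} {φ : V → V'}
  {ρ : E × Bool → E' × Bool}

lemma IsoData.mt_iff (I : IsoData G G' φ ρ) {y : E × Bool} : MT G' (ρ y) ↔ MT G y := by
  have e1 := I.hf_inl y
  have e2 : G'.dec (G'.hf (inl (ρ y))).1 = G.dec (G.hf (inl y)).1 := by
    rw [e1]
    exact I.h4 _
  constructor
  · intro H
    refine ⟨e2 ▸ H.gen, e2 ▸ H.kap, by have := H.e0; rw [e1] at this; exact this, ?_, ?_, ?_⟩
    · have := H.l1
      rw [I.hf_inr, e1] at this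
      simp only [Prod.mk.injEq] at this
      exact Prod.ext (I.h1.1 this.1) this.2
    · have := H.l2
      rw [I.hf_inr, e1] at this
      simp only [Prod.mk.injEq] at this
      exact Prod.ext (I.h1.1 this.1) this.2
    · intro z hz
      have h1 := H.only (z.map ρ id) (by rw [I.hf_fst, hz, e1])
      rcases z with z | x
      · simp only [Sum.map_inl, inl.injEq, reduceCtorEq, or_false] at h1
        rw [I.h2.1 h1]
        exact Or.inl rfl
      · simpa using h1
  · intro H
    refine ⟨e2 ▸ H.gen, e2 ▸ H.kap, by rw [e1]; exact H.e0, ?_, ?_, ?_⟩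
    · rw [I.hf_inr, e1, H.l1]
    · rw [I.hf_inr, e1, H.l2]
    · intro z hz
      obtain ⟨z, rfl⟩ := I.bij.2 z
      rw [I.hf_fst, e1] at hz
      rcases H.only z (I.h1.1 hz) with rfl | rfl | rfl
      · exact Or.inl rfl
      · exact Or.inr (Or.inl rfl)
      · exact Or.inr (Or.inr rfl)

lemma IsoData.mterm_eq (I : IsoData G G' φ ρ) {g : ℕ} (y : E × Bool) :
    mterm g G' (ρ y) = mterm g G y := by
  by_cases ht : MT G y
  · have ht' : MT G' (ρ y) := I.mt_iff.2 ht
    have e2 : G'.dec (G'.hf (inl (ρ y))).1 = G.dec (G.hf (inl y)).1 := by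
      rw [I.hf_inl]
      exact I.h4 _
    rw [mterm_of ht, mterm_of ht', e2]
    congr 1
    symm
    exact mk_iso (I.cut_iso_gen ht.cutData.hne ht'.cutData.hne).bump 1
  · rw [mterm_not ht, mterm_not (fun H => ht (I.mt_iff.1 H))]

lemma IsoData.mc_iff (I : IsoData G G' φ ρ) : G'.MC ↔ G.MC := by
  unfold Gr.MC
  rw [I.hf_inr, I.hf_inr]
  simp only [Prod.mk.injEq]
  constructor
  · rintro ⟨⟨h1, h2⟩, h3⟩
    exact ⟨Prod.ext (I.h1.1 h1) h2, h3⟩
  · rintro ⟨h1, h2⟩
    rw [h1] at h2 ⊢
    exact ⟨⟨rfl, rfl⟩, h2⟩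

lemma IsoData.mrgG_eq (I : IsoData G G' φ ρ) {g : ℕ} : mrgG g G' = mrgG g G := by
  unfold mrgG
  congr 1
  · rw [if_congr I.mc_iff rfl rfl, I.cfac]
    have h : G.drp.Iso G'.drp := ⟨φ, ρ, I.h1, I.h2, I.h3, I.drp.h4, I.drp.h5⟩
    rw [mk_iso h]
  · exact (finsum_eq_of_bijective ρ I.h2 fun y => (I.mterm_eq y).symm).symm

end

lemma mrg_triv [Finite L] {g : ℕ} {x : F (Option (Option L))} (hx : Triv g x) :
    mrg g L x = 0 := by
  cases hx with
  | iso G G' φ ρ h1 h2 h3 h4 h5 =>
    rw [map_add, mrg_dl, mrg_dl, (IsoData.mk h1 h2 h3 h4 h5).mrgG_eq]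
    simp
  | zero G hG => rw [mrg_dl, mrgG_invalid hG, smul_zero]
  | dilaton G v =>
    rw [map_add, mrg_dl, mrg_dl]
    by_cases hG : G.Valid g
    · have hE : Finite _ := hG.2.1
      have := mrgG_upd (g := g) G v
      rw [show (⟨Function.update G.dec v ((G.dec v).1, 0 ::ₘ (G.dec v).2), G.hf⟩ : Gr _ _ _) =
        G.upd v (0 ::ₘ (G.dec v).2) from rfl, this, smul_smul, ← add_smul]
      convert zero_smul ℚ _ using 2
      ring
    · have hG' : ¬ (G.upd v (0 ::ₘ (G.dec v).2)).Valid g := by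
        intro H
        apply hG
        obtain ⟨hV, hE, hS, hD⟩ := H
        refine ⟨hV, hE, ?_, ?_⟩
        · obtain ⟨s1, s2, s3, s4⟩ := hS
          refine ⟨s1, s2, ?_, ?_⟩
          · rw [← s3]
            congr 2
            apply finsum_congr
            intro u
            rw [gen_upd]
          · intro u
            have := s4 u
            rw [gen_upd, nv_upd] at this
            exact this
        · intro u
          have h1 := hD u
          rw [gen_upd, nv_upd] at h1
          have h2 : ((G.upd v (0 ::ₘ (G.dec v).2)).dec u).2.sum = (G.dec u).2.sum := by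
            by_cases hu : u = v
            · subst hu
              rw [upd_dec_self]
              simp
            · rw [upd_dec_ne _ _ _ hu]
          rw [h2] at h1
          exact h1
      rw [mrgG_invalid hG, smul_zero]
      rw [show (⟨Function.update G.dec v ((G.dec v).1, 0 ::ₘ (G.dec v).2), G.hf⟩ : Gr _ _ _) =
        G.upd v (0 ::ₘ (G.dec v).2) from rfl, mrgG_invalid hG']
      simp

end Vale.Agent.P273
end
end
end

section

section

noncomputable section

namespace Vale.Agent.P273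

open Sum
open scoped Classical

variable {V E L L' N V' E' : Type}

lemma wsum_bump {L' : Type} [Finite L'] (w : V) (f : E) (i : L' → L)
    (G' : Gr {v // v ≠ w} {e // e ≠ f} (Option L')) (A : L → ℕ) (σ : {v // v ≠ w} → ℚ) (k : ℕ) :
    wsum G'.bump (Option.elim' k (A ∘ i)) σ =
      B k (σ (G'.hf (inr none)).1) ((G'.hf (inr none)).2 + 1) * Wc w f i G' A σ := by
  have := Fintype.ofFinite L'
  unfold wsum Wc
  have h0 : ∀ y, y ≠ inr none → G'.bump.hf y = G'.hf y := fun y hy => G'.bump_ne hy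
  have h1 : ∏ᶠ x, B (Option.elim' k (A ∘ i) x) (σ (G'.bump.hf (inr x)).1) (G'.bump.hf (inr x)).2 =
      B k (σ (G'.hf (inr none)).1) ((G'.hf (inr none)).2 + 1) *
        ∏ᶠ x, B (A (i x)) (σ (G'.hf (inr (some x))).1) (G'.hf (inr (some x))).2 := by
    rw [finprod_eq_prod_of_fintype, finprod_eq_prod_of_fintype, Fintype.prod_option,
      G'.bump_none]
    congr 1
  have h2 : ∀ e b, G'.bump.hf (inl (e, b)) = G'.hf (inl (e, b)) := fun e b => h0 _ (by simp)
  have h3 : G'.bump.dec = G'.dec := rfl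
  rw [h1, h3]
  simp only [h2]
  ring

lemma EF_zero (s : Bool) {ζ ξ : ℚ} (hζ : ζ ^ 2 = 1) (hξ : ξ ^ 2 = 1) (a : ℕ) :
    EF s (ξ, 0) (ζ, a) = -(ξ * B 0 ζ (a + 1) + B 1 ζ (a + 1)) := by
  have h1 : EF s (ξ, 0) (ζ, a) = edgeF (ζ, a) (ξ, 0) := by
    cases s
    · rfl
    · exact edgeF_symm hξ hζ 0 a
  rw [h1]
  unfold edgeF
  simp only [zero_add, Finset.sum_range_one, add_zero, Nat.sub_zero]
  rw [B_at_zero, B_at_zero]
  ring

lemma bump_deg [Finite E] [Finite L'] (G' : Gr V E (Option L')) : G'.bump.deg = G'.deg + 1 := by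
  unfold Gr.deg
  rw [finsum_flags (fun y => (G'.bump.hf y).2), finsum_flags (fun y => (G'.hf y).2), G'.bump_none]
  have h1 : ∑ᶠ y, (G'.bump.hf (optEquiv E L' (some y))).2 =
      ∑ᶠ y, (G'.hf (optEquiv E L' (some y))).2 := by
    apply finsum_congr
    intro y
    rw [G'.bump_ne]
    rcases y with y | x
    · exact Sum.inl_ne_inr
    · intro h
      exact Option.some_ne_none x (inr_injective h)
  have h2 : ∀ v, (G'.bump.dec v) = G'.dec v := fun v => rfl
  simp only [h1, h2]
  omega

/-- The weight of a graph with a genus zero tail carrying at least two legs. -/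
theorem wt_ins0 [Finite V] [Finite E] [Finite L] (w : V) (f : E) (s : Bool) (i : L' → L)
    (hi : i.Injective) {x1 x2 : L} (hx1 : x1 ∉ Set.range i) (hx2 : x2 ∉ Set.range i)
    (hx : x1 ≠ x2) (G' : Gr {v // v ≠ w} {e // e ≠ f} (Option L'))
    (γ : ℕ) (A : L → ℕ) (d : ℕ) :
    wt (Gr.ins w f s i 0 0 G') γ A d =
      -wt G'.bump γ (Option.elim' (if Even (∑ᶠ x : {x // x ∉ Set.range i}, A x) then 0 else 1)
        (A ∘ i)) d := by
  have hL' : Finite L' := Finite.of_injective i hi
  have T := Gr.ins_tailAt (w := w) (f := f) (s := s) (h := 0) (c := 0) (G' := G') hi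
  have hnv : 3 ≤ (Gr.ins w f s i 0 0 G').nv w := by
    unfold Gr.nv
    have h0 : Nat.card {y // ((Gr.ins w f s i 0 0 G').hf y).1 = w} =
      Set.ncard {y | ((Gr.ins w f s i 0 0 G').hf y).1 = w} := rfl
    rw [h0]
    have h1 : ({inl (f, s), inr x1, inr x2} : Set ((E × Bool) ⊕ L)) ⊆
        {y | ((Gr.ins w f s i 0 0 G').hf y).1 = w} := by
      rintro y (rfl | rfl | rfl)
      · exact T.cd.hw
      · exact T.cd.hJ x1 hx1
      · exact T.cd.hJ x2 hx2
    have h2 : Set.ncard ({inl (f, s), inr x1, inr x2} : Set ((E × Bool) ⊕ L)) = 3 :=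
      Set.ncard_eq_three.2 ⟨_, _, _, by simp, by simp, by simpa using hx, rfl⟩
    rw [← h2]
    exact Set.ncard_le_ncard h1 (Set.toFinite _)
  have hcond : ((Gr.ins w f s i 0 0 G').Stab γ ∧ (Gr.ins w f s i 0 0 G').deg = d) ↔
      (G'.bump.Stab γ ∧ G'.bump.deg = d) := by
    rw [deg_ins w f s i hi 0 0 G' (Nat.zero_le _), bump_deg, Gr.bump_stab]
    have h2 := T.cd.stab_iff' (γ := γ) (h := 0) (by rw [T.dec]) (by omega)
    have h3 : (Gr.ins w f s i 0 0 G').cut w f s i T.cd.hne = G' := Gr.cut_ins hi (Nat.zero_le _)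
    rw [h3, add_zero] at h2
    rw [h2]
  by_cases hG : G'.bump.Stab γ ∧ G'.bump.deg = d
  · rw [wt_eq_wsum, wt_eq_wsum, if_pos (hcond.2 hG), if_pos hG]
    have := Fintype.ofFinite V
    have hsum : ∀ F : (V → Bool) → ℚ, ∑ᶠ ζ, F ζ = ∑ ζ' : {v // v ≠ w} → Bool,
        (F ((Equiv.funSplitAt w Bool).symm (true, ζ')) +
          F ((Equiv.funSplitAt w Bool).symm (false, ζ'))) := by
      intro F
      rw [← finsum_comp_equiv (Equiv.funSplitAt w Bool).symm, finsum_eq_sum_of_fintype,
        Fintype.sum_prod_type, Fintype.sum_bool, ← Finset.sum_add_distrib]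
    rw [hsum, finsum_eq_sum_of_fintype (fun ζ : {v // v ≠ w} → Bool => (1 / 2 : ℚ) ^
        (Nat.card {e // e ≠ f} + 1) * _), ← Finset.sum_neg_distrib]
    apply Finset.sum_congr rfl
    intro ζ' _
    have hσ1 : ∀ (b : Bool) (ζ' : {v // v ≠ w} → Bool),
        (Equiv.funSplitAt w Bool).symm (b, ζ') w = b := by
      intro b ζ'
      simp only [ne_eq, Equiv.funSplitAt, Equiv.piSplitAt, eq_rec_constant, Equiv.symm_mk, Equiv.coe_fn_mk, ↓reduceDIte]
    have hσ2 : ∀ (b : Bool) (ζ' : {v // v ≠ w} → Bool) (v : {v // v ≠ w}),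
        (Equiv.funSplitAt w Bool).symm (b, ζ') v.1 = ζ' v := by
      intro b ζ' v
      simp only [ne_eq, Equiv.funSplitAt, Equiv.piSplitAt, eq_rec_constant, Equiv.symm_mk, Equiv.coe_fn_mk, v.2, ↓reduceDIte, Subtype.coe_eta]
    have key : ∀ (b : Bool),
        wsum (Gr.ins w f s i 0 0 G') A (fun v => sg ((Equiv.funSplitAt w Bool).symm (b, ζ') v)) =
        -(sg b ^ (1 + ∑ᶠ x : {x // x ∉ Set.range i}, A x) *
          (sg b * B 0 (sg (ζ' (G'.hf (inr none)).1)) ((G'.hf (inr none)).2 + 1) +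
            B 1 (sg (ζ' (G'.hf (inr none)).1)) ((G'.hf (inr none)).2 + 1)) *
          Wc w f i G' A (fun v => sg (ζ' v))) := by
      intro b
      rw [wsum_ins w f s i hi]
      simp only [hσ1, hσ2]
      rw [Nat.sub_zero, EF_zero s (sg_sq _) (sg_sq b), pow_add]
      ring
    have k1 := key true
    have k2 := key false
    rw [wsum_bump w f i G' A _ _, Gr.card_ne E f]
    have e1 : sg true = 1 := rfl
    have e2 : sg false = -1 := rfl
    rw [e1, one_pow] at k1
    rw [e2] at k2
    by_cases hev : Even (∑ᶠ x : {x // x ∉ Set.range i}, A x)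
    · rw [if_pos hev]
      rw [(Even.one_add hev).neg_one_pow] at k2
      rw [pow_succ (1 / 2 : ℚ) (Nat.card {e // e ≠ f} + 1)]
      linear_combination ((1 / 2 : ℚ) ^ (Nat.card {e // e ≠ f} + 1) * (1 / 2)) * (k1 + k2)
    · rw [if_neg hev]
      rw [(Odd.one_add (Nat.not_even_iff_odd.mp hev)).neg_one_pow] at k2
      rw [pow_succ (1 / 2 : ℚ) (Nat.card {e // e ≠ f} + 1)]
      linear_combination ((1 / 2 : ℚ) ^ (Nat.card {e // e ≠ f} + 1) * (1 / 2)) * (k1 + k2)
  · rw [wt_eq_wsum, wt_eq_wsum, if_neg hG, if_neg (fun h => hG (hcond.1 h)), neg_zero]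

/-- Split the leg `none` into the legs in `J`. -/
def Gr.spl (J : Set L) (G : Gr V E (Option {x // x ∉ J})) : Gr V E L :=
  ⟨G.dec, Sum.elim (fun y => G.hf (inl y)) fun x =>
    if hx : x ∉ J then G.hf (inr (some ⟨x, hx⟩)) else G.hf (inr none)⟩

lemma spl_of_mem {J : Set L} (G : Gr V E (Option {x // x ∉ J})) {x : L} (hx : x ∈ J) :
    (G.spl J).hf (inr x) = G.hf (inr none) := by
  unfold Gr.spl
  simp only [Sum.elim_inr]
  rw [dif_neg (not_not.2 hx)]

lemma spl_of_not_mem {J : Set L} (G : Gr V E (Option {x // x ∉ J})) {x : L} (hx : x ∉ J) :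
    (G.spl J).hf (inr x) = G.hf (inr (some ⟨x, hx⟩)) := by
  unfold Gr.spl
  simp only [Sum.elim_inr]
  rw [dif_pos hx]

lemma spl_deg [Finite E] [Finite L] {J : Set L} (G : Gr V E (Option {x // x ∉ J}))
    (h0 : (G.hf (inr none)).2 = 0) : (G.spl J).deg = G.deg := by
  have := Fintype.ofFinite E
  have := Fintype.ofFinite L
  unfold Gr.deg
  have h1 : ∀ v, (G.spl J).dec v = G.dec v := fun v => rfl
  simp only [h1]
  congr 1
  rw [finsum_eq_sum_of_fintype, finsum_eq_sum_of_fintype, Fintype.sum_sum_type,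
    Fintype.sum_sum_type, Fintype.sum_option, h0, zero_add]
  congr 1
  rw [← Fintype.sum_subtype_add_sum_subtype (fun x => x ∉ J)
    (fun x => ((G.spl J).hf (inr x)).2)]
  have h2 : ∑ x : {x // ¬ x ∉ J}, ((G.spl J).hf (inr x.1)).2 = 0 := by
    apply Finset.sum_eq_zero
    intro x _
    rw [spl_of_mem G (not_not.1 x.2), h0]
  rw [h2, add_zero]
  apply Finset.sum_congr rfl
  intro x _
  rw [spl_of_not_mem G x.2]

lemma wsum_spl [Finite L] {J : Set L} (G : Gr V E (Option {x // x ∉ J}))
    (h0 : (G.hf (inr none)).2 = 0) (A : L → ℕ) {σ : V → ℚ} (hσ : ∀ v, σ v ^ 2 = 1) :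
    wsum (G.spl J) A σ = wsum G (Option.elim' (if Even (∑ᶠ x : {x // ¬ x ∉ J}, A x.1) then 0 else 1)
      fun x => A x.1) σ := by
  have := Fintype.ofFinite L
  unfold wsum
  have h1 : ∀ v, (G.spl J).dec v = G.dec v := fun v => rfl
  have h2 : ∀ y, (G.spl J).hf (inl y) = G.hf (inl y) := fun y => rfl
  simp only [h1, h2]
  congr 1
  rw [finprod_eq_prod_of_fintype, finprod_eq_prod_of_fintype, Fintype.prod_option,
    ← Fintype.prod_subtype_mul_prod_subtype (fun x => x ∉ J)
      (fun x => B (A x) (σ ((G.spl J).hf (inr x)).1) ((G.spl J).hf (inr x)).2), mul_comm]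
  congr 1
  · have h3 : ∀ x : {x // ¬ x ∉ J}, B (A x.1) (σ ((G.spl J).hf (inr x.1)).1)
        ((G.spl J).hf (inr x.1)).2 = σ (G.hf (inr none)).1 ^ A x.1 := by
      intro x
      rw [spl_of_mem G (not_not.1 x.2), h0, B_at_zero]
    rw [Finset.prod_congr rfl fun x _ => h3 x, Finset.prod_pow_eq_pow_sum, h0, B_at_zero]
    rw [finsum_eq_sum_of_fintype]
    have h4 := hσ (G.hf (inr none)).1
    by_cases hev : Even (∑ x : {x // ¬ x ∉ J}, A x.1)
    · simp only [Option.elim'_none]
      rw [if_pos hev, pow_zero]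
      obtain ⟨m, hm⟩ := hev
      rw [hm, ← two_mul, pow_mul, h4, one_pow]
    · simp only [Option.elim'_none]
      rw [if_neg hev, pow_one]
      obtain ⟨m, hm⟩ := Nat.not_even_iff_odd.mp hev
      rw [hm, pow_succ, pow_mul, h4, one_pow, one_mul]
  · apply Finset.prod_congr rfl
    intro x _
    rw [spl_of_not_mem G x.2]
    rfl

lemma spl_nv [Finite E] [Finite L] {J : Set L} (G : Gr V E (Option {x // x ∉ J})) (hJ : J.Nonempty)
    (v : V) : G.nv v ≤ (G.spl J).nv v := by
  obtain ⟨x0, hx0⟩ := hJ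
  unfold Gr.nv
  let j : (E × Bool) ⊕ Option {x // x ∉ J} → (E × Bool) ⊕ L :=
    Sum.elim inl fun o => o.elim (inr x0) fun x => inr x.1
  have hj : j.Injective := by
    rintro (y | (_ | x)) (y' | (_ | x')) h
    · simpa [j] using h
    · simp [j] at h
    · simp only [elim_inl, elim_inr, Option.elim_some, reduceCtorEq, j] at h
    · simp [j] at h
    · rfl
    · simp only [elim_inr, Option.elim_none, Option.elim_some, inr.injEq, j] at h
      exact absurd (h ▸ hx0) x'.2
    · simp only [elim_inr, Option.elim_some, elim_inl, reduceCtorEq, j] at h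
    · simp only [elim_inr, Option.elim_some, Option.elim_none, inr.injEq, j] at h
      exact absurd (h ▸ hx0) x.2
    · simp only [elim_inr, Option.elim_some, inr.injEq, j] at h
      rw [Subtype.ext h]
  have hhf : ∀ y, (G.spl J).hf (j y) = G.hf y := by
    rintro (y | (_ | x))
    · rfl
    · exact spl_of_mem G hx0
    · exact spl_of_not_mem G x.2
  exact Nat.card_le_card_of_injective (fun y => ⟨j y.1, by rw [hhf, y.2]⟩) (by
    intro a b hab
    exact Subtype.ext (hj (congrArg Subtype.val hab)))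

lemma spl_stab [Finite E] [Finite L] {J : Set L} (G : Gr V E (Option {x // x ∉ J}))
    (hJ : J.Nonempty) {γ : ℕ} (h : G.Stab γ) : (G.spl J).Stab γ := by
  obtain ⟨h1, h2, h3, h4⟩ := h
  refine ⟨h1, h2, h3, ?_⟩
  intro v
  have e1 := h4 v
  have e2 := spl_nv G hJ v
  change 2 < 2 * (G.dec v).1 + (G.spl J).nv v
  omega

/-- The weight of a graph with merged legs. -/
lemma wt_spl [Finite E] [Finite L] {J : Set L} (hJ : J.Nonempty)
    (G : Gr V E (Option {x // x ∉ J})) (h0 : (G.hf (inr none)).2 = 0) {γ : ℕ} (hG : G.Stab γ)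
    (A : L → ℕ) (d : ℕ) : wt (G.spl J) γ A d = wt G γ (Option.elim'
      (if Even (∑ᶠ x : {x // ¬ x ∉ J}, A x.1) then 0 else 1) fun x => A x.1) d := by
  rw [wt_eq_wsum, wt_eq_wsum, spl_deg G h0]
  have h1 : ((G.spl J).Stab γ ∧ G.deg = d) ↔ (G.Stab γ ∧ G.deg = d) := by
    simp [hG, spl_stab G hJ hG]
  rw [if_congr h1 rfl rfl]
  congr 1
  apply finsum_congr
  intro ζ
  rw [wsum_spl G h0 A (fun v => sg_sq (ζ v))]

end Vale.Agent.P273
end
end
end

section

section

noncomputable section

namespace Vale.Agent.P273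

open Sum
open scoped Classical

variable {V E L L' N R T : Type}

/-- Forget the two legs. -/
def Env.fg (Q : Env R T L (Option (Option N))) : Env R T L N :=
  ⟨Q.dec, fun z => Q.use (z.map id ss), Q.b⟩

lemma map_ss_inj : (Sum.map id ss : (T × Bool) ⊕ N → (T × Bool) ⊕ Option (Option N)).Injective :=
  Function.Injective.sumMap Function.injective_id ss_inj

lemma fg_inj {Q : Env R T L (Option (Option N))}
    (hQ : ∀ y z x, Q.use y = inl x → Q.use z = inl x → y = z) :
    ∀ y z x, Q.fg.use y = inl x → Q.fg.use z = inl x → y = z :=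
  fun _ _ x h1 h2 => map_ss_inj (hQ _ _ x h1 h2)

/-- The legs of `mrg` as half-edges. -/
lemma ss_cases (z : (T × Bool) ⊕ Option (Option N)) :
    z = inr none ∨ z = inr (some none) ∨ ∃ z', z = Sum.map id ss z' := by
  rcases z with y | (_ | (_ | n))
  · exact Or.inr (Or.inr ⟨inl y, rfl⟩)
  · exact Or.inl rfl
  · exact Or.inr (Or.inl rfl)
  · exact Or.inr (Or.inr ⟨inr n, rfl⟩)

lemma unused_fg_inr {Q : Env R T L (Option (Option N))} {p q : R × ℕ}
    (hp : Q.use (inr none) = inr p) (hq : Q.use (inr (some none)) = inr q)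
    (G : Gr V E L) (v : V) : Q.fg.unused G v = Q.unused G v := by
  have hrange : ∀ x, inl x ∉ Set.range Q.fg.use ↔ inl x ∉ Set.range Q.use := by
    intro x
    constructor
    · rintro h ⟨y, hy⟩
      rcases ss_cases y with rfl | rfl | ⟨z, rfl⟩
      · rw [hp] at hy
        simp at hy
      · rw [hq] at hy
        simp at hy
      · exact h ⟨z, hy⟩
    · rintro h ⟨y, hy⟩
      exact h ⟨_, hy⟩
  have hb : Q.fg.b = Q.b := rfl
  unfold Env.unused
  simp_rw [hrange, hb]

lemma graft_fg_hf (Q : Env R T L (Option (Option N))) (G : Gr V E L)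
    (z : ((E ⊕ T) × Bool) ⊕ N) : (Q.fg.graft G).hf z = (Q.graft G).hf (z.map id ss) := by
  rcases z with ⟨e | t, s⟩ | n <;> rfl

/-- Raise the exponent of `none` in the environment. -/
def Env.bumpE (Q : Env R T L (Option N)) : Env R T L (Option N) :=
  ⟨Q.dec, fun z => if z = inr none then (Q.use z).elim inl fun p => inr (p.1, p.2 + 1) else Q.use z,
    fun x => Q.b x + if Q.use (inr none) = inl x then 1 else 0⟩

lemma bumpE_use_inl {Q : Env R T L (Option N)} {z : (T × Bool) ⊕ Option N} {x : L} :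
    Q.bumpE.use z = inl x ↔ Q.use z = inl x := by
  unfold Env.bumpE
  simp only
  by_cases hz : z = inr none
  · rw [if_pos hz]
    rcases h : Q.use z with x' | p
    · simp
    · simp
  · rw [if_neg hz]

lemma bumpE_inj {Q : Env R T L (Option N)}
    (hQ : ∀ y z x, Q.use y = inl x → Q.use z = inl x → y = z) :
    ∀ y z x, Q.bumpE.use y = inl x → Q.bumpE.use z = inl x → y = z :=
  fun _ _ x h1 h2 => hQ _ _ x (bumpE_use_inl.1 h1) (bumpE_use_inl.1 h2)

lemma bumpE_graft (Q : Env R T L (Option N))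
    (hQ : ∀ y z x, Q.use y = inl x → Q.use z = inl x → y = z) (G : Gr V E L) :
    Q.bumpE.graft G = (Q.graft G).bump := by
  apply Gr.ext'
  · rintro (v | r)
    · change (Q.bumpE.graft G).dec (inl v) = (Q.graft G).dec (inl v)
      rw [Env.graft_dec_inl, Env.graft_dec_inl]
      congr 2
      unfold Env.unused
      apply finsum_congr
      intro x
      have h1 : (inl x ∉ Set.range Q.bumpE.use) ↔ (inl x ∉ Set.range Q.use) := by
        constructor
        · rintro h ⟨z, hz⟩
          exact h ⟨z, bumpE_use_inl.2 hz⟩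
        · rintro h ⟨z, hz⟩
          exact h ⟨z, bumpE_use_inl.1 hz⟩
      rw [h1]
      apply finsum_congr
      intro hx
      have h2 : Q.bumpE.b x = Q.b x := by
        unfold Env.bumpE
        simp only
        rw [if_neg, add_zero]
        intro h
        exact hx.1 ⟨_, h⟩
      rw [h2]
    · rfl
  · intro z
    have key : ∀ z' : (T × Bool) ⊕ Option N, Q.bumpE.usehf G z' =
        ((Q.usehf G z').1, (Q.usehf G z').2 + if z' = inr none then 1 else 0) := by
      intro z'
      rcases h : Q.use z' with x | p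
      · rw [Env.usehf_inl (bumpE_use_inl.2 h), Env.usehf_inl h]
        refine Prod.ext rfl ?_
        simp only
        rw [add_assoc]
        congr 1
        change Q.b x + (if Q.use (inr none) = inl x then 1 else 0) = _
        congr 1
        by_cases hz : z' = inr none
        · subst hz
          rw [if_pos h, if_pos rfl]
        · rw [if_neg hz, if_neg]
          intro h'
          exact hz (hQ _ _ x h h')
      · have h2 : Q.bumpE.use z' = inr (p.1, p.2 + if z' = inr none then 1 else 0) := by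
          unfold Env.bumpE
          simp only
          by_cases hz : z' = inr none
          · rw [if_pos hz, if_pos hz, h]
            rfl
          · rw [if_neg hz, if_neg hz, h]
            rfl
        rw [Env.usehf_inr h2, Env.usehf_inr h]
    rcases z with ⟨e | t, s⟩ | n
    · rfl
    · have h1 := key (inl (t, s))
      rw [if_neg (by simp)] at h1
      exact h1
    · have h1 := key (inr n)
      rw [Env.graft_hf_leg, h1]
      unfold Gr.bump
      simp only [inr.injEq]
      rw [Env.graft_hf_leg]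

/-! ### Different vertices -/

lemma mrgG_zero {g : ℕ} {G : Gr V E (Option (Option L))}
    (h : G.hf (inr none) ≠ G.hf (inr (some none)) ∨ (G.hf (inr none)).2 ≠ 0) : mrgG g G = 0 := by
  unfold mrgG
  rw [if_neg, finsum_eq_zero_of_forall_eq_zero, sub_zero]
  · intro y
    apply mterm_not
    intro ht
    rcases h with h | h
    · exact h (by rw [ht.l1, ht.l2])
    · rw [ht.l1] at h
      exact h rfl
  · rintro ⟨h1, h2⟩
    rcases h with h | h
    · exact h h1
    · exact h h2

lemma mrg_pix_zero [Finite L] {g : ℕ} (Q : Env R T L (Option (Option N))) (γ d : ℕ) (A : L → ℕ)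
    (h : ∀ {k m : ℕ} (G : Gr (Fin k) (Fin m) L), (Q.graft G).hf (inr none) ≠
      (Q.graft G).hf (inr (some none)) ∨ ((Q.graft G).hf (inr none)).2 ≠ 0) :
    mrg g N (Q.pix γ A d) = 0 := by
  rw [Env.pix_eq_sum, map_sum, Finset.sum_eq_zero]
  intro p _
  rw [mrg_dl, mrgG_zero (h p.2.2), smul_zero]

/-! ### Both legs at a vertex of the environment -/

/-- The environment without the leg `none`. -/
def Env.drpE (Q : Env R T L (Option N)) (r : R) : Env R T L N :=
  ⟨Function.update Q.dec r ((Q.dec r).1, (Q.dec r).2.filter (· ≠ 0)),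
    fun y => Q.use (optEquiv T N (some y)), Q.b⟩

lemma drpE_inj {Q : Env R T L (Option N)}
    (hQ : ∀ y z x, Q.use y = inl x → Q.use z = inl x → y = z) (r : R) :
    ∀ y z x, (Q.drpE r).use y = inl x → (Q.drpE r).use z = inl x → y = z := by
  intro y z x hy hz
  have := hQ _ _ _ hy hz
  exact Option.some.inj ((optEquiv T N).injective this)

lemma unused_drpE (Q : Env R T L (Option N)) (G : Gr V E L) {p : R × ℕ}
    (hn : Q.use (inr none) = inr p) (v : V) : (Q.drpE p.1).unused G v = Q.unused G v :=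
  Q.unused_pushE_inr G hn v

lemma drp_graft {Q : Env R T L (Option N)} (G : Gr V E L) {p : R × ℕ}
    (hn : Q.use (inr none) = inr p) : (Q.graft G).drp = (Q.drpE p.1).graft G := by
  have hv := vn_graft (G := G) hn
  apply Gr.ext'
  · rintro (v | r)
    · rw [Gr.drp_dec_ne _ (by rw [hv]; simp), Env.graft_dec_inl, Env.graft_dec_inl,
        unused_drpE Q G hn]
    · by_cases hr : r = p.1
      · subst hr
        have h := (Q.graft G).drp_dec_self
        rw [hv, Env.graft_dec_inr] at h
        rw [h, Env.graft_dec_inr]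
        unfold Env.drpE
        simp
      · rw [Gr.drp_dec_ne _ (by rw [hv]; simpa using hr), Env.graft_dec_inr, Env.graft_dec_inr]
        unfold Env.drpE
        simp [Function.update_of_ne hr]
  · rintro (⟨e | t, s⟩ | x) <;> rfl

/-- The constant factor. -/
def Env.facM (Q : Env R T L (Option N)) (r : R) : ℚ :=
  ∏ j ∈ Finset.range ((Q.dec r).2.count 0), (2 * ((Q.dec r).1 : ℚ) - 2 + Q.nR r +
    ((Q.dec r).2.filter (· ≠ 0)).card + j)

lemma cfac_graft {Q : Env R T L (Option N)} (G : Gr V E L) {p : R × ℕ}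
    (hn : Q.use (inr none) = inr p) : (Q.graft G).cfac = Q.facM p.1 := by
  unfold Gr.cfac Env.facM
  rw [vn_graft hn, Env.graft_dec_inr, nv_graft_inr]

/-- Sums of a relation with a constant factor. -/
lemma sum_const_pix [Finite L] {N' : Type} {g : ℕ} (Q : Env R T L N') (γ d : ℕ) (A : L → ℕ)
    (c : ℚ) : ∑ p ∈ supp γ A d, (wt p.2.2 γ A d /
      (p.1.factorial * p.2.1.factorial * 2 ^ p.2.1)) • (c • mk g N' (dl (Q.graft p.2.2) 1)) =
    c • mk g N' (Q.pix γ A d) := by
  rw [Env.pix_eq_sum, map_sum, Finset.smul_sum]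
  apply Finset.sum_congr rfl
  intro p _
  rw [smul_comm, ← map_smul, smul_dl, mul_one]

/-- A tail in the environment. -/
structure Env.MTail (Q : Env R T L (Option (Option N))) (y : T × Bool) (r : R) : Prop where
  use : Q.use (inl y) = inr (r, 0)
  gen : (Q.dec r).1 = 0
  kap : ∀ k ∈ (Q.dec r).2, k = 0
  l1 : Q.use (inr none) = inr (r, 0)
  l2 : Q.use (inr (some none)) = inr (r, 0)
  only : ∀ z p, Q.use z = inr (r, p) → z = inl y ∨ z = inr none ∨ z = inr (some none)

lemma graft_hf_env (Q : Env R T L N) (G : Gr V E L) (y : T × Bool) :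
    (Q.graft G).hf (inl (inr y.1, y.2)) = Q.usehf G (inl y) := rfl

lemma mt_graft_inr {Q : Env R T L (Option (Option N))} {G : Gr V E L} {y : T × Bool} {r : R}
    {c1 : ℕ} (h1 : Q.use (inr none) = inr (r, c1)) :
    MT (Q.graft G) (inr y.1, y.2) ↔ Q.MTail y r := by
  constructor
  · intro H
    have e0 := H.l1
    rw [Env.graft_hf_leg, Env.usehf_inr h1, graft_hf_env] at e0
    rcases hu : Q.use (inl y) with x | ⟨r', c⟩
    · rw [Env.usehf_inl hu] at e0
      simp at e0
    · rw [Env.usehf_inr hu] at e0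
      simp only [Prod.mk.injEq, inr.injEq] at e0
      obtain ⟨rfl, rfl⟩ := e0
      have e1 : (Q.graft G).hf (inl (inr y.1, y.2)) = (inr r, c) := by
        rw [graft_hf_env, Env.usehf_inr hu]
      have h2 := H.gen
      have h3 := H.kap
      have h4 := H.e0
      have h5 := H.l2
      have h6 := H.only
      rw [e1] at h2 h3 h4 h5 h6
      simp only at h4
      subst h4
      refine ⟨hu, h2, h3, h1, ?_, ?_⟩
      · rw [Env.graft_hf_leg] at h5
        rcases h7 : Q.use (inr (some none)) with x | ⟨r', c⟩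
        · rw [Env.usehf_inl h7] at h5
          simp at h5
        · rw [Env.usehf_inr h7] at h5
          simp only [Prod.mk.injEq, inr.injEq] at h5
          rw [h5.1, h5.2]
      · intro z p hz
        have h7 := h6 (lft E z) (by rw [graft_hf_lft, Env.usehf_inr hz])
        rcases z with z | z
        · simp only [lft, Sum.map_inl, inl.injEq, Prod.mk.injEq, inr.injEq, reduceCtorEq,
            or_false] at h7
          rw [show z = y from Prod.ext h7.1 h7.2]
          exact Or.inl rfl
        · simpa [lft] using h7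
  · intro H
    have e1 : (Q.graft G).hf (inl (inr y.1, y.2)) = (inr r, 0) := by
      rw [graft_hf_env, Env.usehf_inr H.use]
    refine ⟨?_, ?_, ?_, ?_, ?_, ?_⟩
    · rw [e1]
      exact H.gen
    · rw [e1]
      exact H.kap
    · rw [e1]
    · rw [e1, Env.graft_hf_leg, Env.usehf_inr H.l1]
    · rw [e1, Env.graft_hf_leg, Env.usehf_inr H.l2]
    · intro z hz
      rw [e1] at hz
      rcases graft_cases z with ⟨e, s, rfl⟩ | ⟨z, rfl⟩
      · rw [Env.graft_hf_inl] at hz
        simp at hz
      · rw [graft_hf_lft] at hz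
        rcases hz' : Q.use z with x | p
        · rw [Env.usehf_inl hz'] at hz
          simp at hz
        · rw [Env.usehf_inr hz'] at hz
          simp only [inr.injEq] at hz
          rcases H.only z p.2 (by rw [hz', ← hz]) with rfl | rfl | rfl
          · exact Or.inl rfl
          · exact Or.inr (Or.inl rfl)
          · exact Or.inr (Or.inr rfl)

lemma Env.MTail.eTail {Q : Env R T L (Option (Option N))} {y : T × Bool} {r : R}
    (H : Q.MTail y r) : Q.fg.ETail 0 y r 0 where
  use := H.use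
  gen := H.gen
  kap := H.kap
  le := Nat.zero_le _
  only := by
    intro z p hz
    rcases H.only (z.map id ss) p hz with h | h | h
    · rcases z with z | z
      · simpa using h
      · simp at h
    · rcases z with z | z
      · simp at h
      · simp [ss] at h
    · rcases z with z | z
      · simp at h
      · simp [ss] at h

lemma Env.MTail.iso {Q : Env R T L (Option (Option N))} {y : T × Bool} {r : R}
    (hQ : ∀ y z x, Q.use y = inl x → Q.use z = inl x → y = z) (H : Q.MTail y r)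
    {Q' : Env {r' // r' ≠ r} {t' // t' ≠ y.1} L (Option N)} (C : Q.fg.CutRel y r 0 Q')
    (G : Gr V E L) (ht : MT (Q.graft G) (inr y.1, y.2)) : (Q'.graft G).Iso ht.cut := by
  have ht0 : IsTail (Q.fg.graft G) 0 (inr y.1, y.2) :=
    (isTail_graft_inr (Q := Q.fg) H.eTail.use).2 H.eTail
  have h1 := C.iso (fg_inj hQ) H.eTail G ht0
  have h2 : ht0.cut = ht.cut := by
    apply Gr.ext'
    · rintro ⟨v | r', hv⟩
      · change (Q.fg.graft G).dec (inl v) = (Q.graft G).dec (inl v)
        rw [Env.graft_dec_inl, Env.graft_dec_inl, unused_fg_inr H.l1 H.l2]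
      · rfl
    · intro z
      have h3 : (Q.fg.graft G).hf (emb (inr y.1) y.2 id z) =
          (Q.graft G).hf (emb (inr y.1) y.2 ss z) := by
        rw [graft_fg_hf]
        rcases z with z | (_ | n) <;> rfl
      refine Prod.ext (Subtype.ext ?_) ?_
      · exact congrArg Prod.fst h3
      · change ((Q.fg.graft G).hf (emb (inr y.1) y.2 id z)).2 + _ =
          ((Q.graft G).hf (emb (inr y.1) y.2 ss z)).2 + _
        rw [h3]
        rfl
  rw [h2] at h1
  exact h1

theorem mrg_env_mem {g : ℕ} [Finite R] [Finite T] [Finite L] (Q : Env R T L (Option (Option N)))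
    (hQ : ∀ y z x, Q.use y = inl x → Q.use z = inl x → y = z) (γ d : ℕ) (A : L → ℕ)
    (hA : ∀ x, A x ≤ 1) (hγ : γ + ∑ᶠ x, A x < 3 * d) {p q : R × ℕ}
    (hp : Q.use (inr none) = inr p) (hq : Q.use (inr (some none)) = inr q) :
    mrg g N (Q.pix γ A d) ∈ Pbar g (Option N) := by
  by_cases hpq : p = q ∧ p.2 = 0
  · obtain ⟨rfl, h0⟩ := hpq
    obtain ⟨r, c⟩ := p
    simp only at h0
    subst h0
    have := Fintype.ofFinite T
    rw [Env.pix_eq_sum, map_sum]
    have h1 : ∀ p' ∈ supp γ A d, mrg g N (dl (Q.graft p'.2.2)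
        (wt p'.2.2 γ A d / (p'.1.factorial * p'.2.1.factorial * 2 ^ p'.2.1))) =
        (wt p'.2.2 γ A d / (p'.1.factorial * p'.2.1.factorial * 2 ^ p'.2.1)) •
          (Q.facM r • mk g (Option N) (dl ((Q.drpE r).graft p'.2.2) 1)) -
        ∑ y : T × Bool, (wt p'.2.2 γ A d / (p'.1.factorial * p'.2.1.factorial * 2 ^ p'.2.1)) •
          mterm g (Q.graft p'.2.2) (inr y.1, y.2) := by
      intro p' _
      have hMC : (Q.graft p'.2.2).MC := by
        unfold Gr.MC
        rw [Env.graft_hf_leg, Env.graft_hf_leg, Env.usehf_inr hp, Env.usehf_inr hq]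
        exact ⟨rfl, rfl⟩
      rw [mrg_dl, mrgG, if_pos hMC, smul_sub, drp_graft _ hp, cfac_graft _ hp, ← Finset.smul_sum]
      congr 2
      rw [finsum_eq_sum_of_fintype, ← Equiv.sum_comp (Equiv.sumProdDistrib _ T Bool).symm,
        Fintype.sum_sum_type, Finset.sum_eq_zero, zero_add]
      · rfl
      · intro y _
        apply mterm_not
        intro ht
        have h2 := ht.l1
        rw [Env.graft_hf_leg, Env.usehf_inr hp] at h2
        have h3 : (Q.graft p'.2.2).hf (inl ((Equiv.sumProdDistrib (Fin p'.2.1) T Bool).symm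
          (inl y))) = (inl (p'.2.2.hf (inl y)).1, (p'.2.2.hf (inl y)).2) := rfl
        rw [h3] at h2
        simp at h2
    rw [Finset.sum_congr rfl h1, Finset.sum_sub_distrib, Finset.sum_comm]
    apply Submodule.sub_mem
    · rw [sum_const_pix]
      apply Submodule.smul_mem
      rw [mk_mem_Pbar]
      exact P.pix _ γ d A inferInstance inferInstance inferInstance (drpE_inj hQ r) hA hγ
    · apply Submodule.sum_mem
      intro y _
      by_cases H : Q.MTail y r
      · obtain ⟨Q', C⟩ := H.eTail.exists_cut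
        have h2 : ∀ p' ∈ supp γ A d, (wt p'.2.2 γ A d /
            (p'.1.factorial * p'.2.1.factorial * 2 ^ p'.2.1)) •
            mterm g (Q.graft p'.2.2) (inr y.1, y.2) =
            (wt p'.2.2 γ A d / (p'.1.factorial * p'.2.1.factorial * 2 ^ p'.2.1)) •
            (((Multiset.card (Q.dec r).2).factorial : ℚ) •
              mk g (Option N) (dl (Q'.bumpE.graft p'.2.2) 1)) := by
          intro p' _
          have ht : MT (Q.graft p'.2.2) (inr y.1, y.2) := (mt_graft_inr hp).2 H
          rw [mterm_of ht, bumpE_graft Q' (C.inj (fg_inj hQ)),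
            ← mk_iso (H.iso hQ C p'.2.2 ht).bump]
          have e1 : (Q.graft p'.2.2).hf (inl (inr y.1, y.2)) = (inr r, 0) := by
            rw [graft_hf_env, Env.usehf_inr H.use]
          rw [e1]
          rfl
        rw [Finset.sum_congr rfl h2, sum_const_pix]
        apply Submodule.smul_mem
        rw [mk_mem_Pbar]
        exact P.pix _ γ d A inferInstance inferInstance inferInstance
          (bumpE_inj (C.inj (fg_inj hQ))) hA hγ
      · rw [Finset.sum_eq_zero]
        · exact Submodule.zero_mem _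
        · intro p' _
          rw [mterm_not fun ht => H ((mt_graft_inr hp).1 ht), smul_zero]
  · rw [mrg_pix_zero Q γ d A]
    · exact Submodule.zero_mem _
    · intro k m G
      rw [Env.graft_hf_leg, Env.graft_hf_leg, Env.usehf_inr hp, Env.usehf_inr hq]
      by_contra hcon
      push Not at hcon
      apply hpq
      obtain ⟨h1, h2⟩ := hcon
      simp only [Prod.mk.injEq, inr.injEq] at h1 h2
      exact ⟨Prod.ext h1.1 h1.2, h2⟩

end Vale.Agent.P273
end
end
end

section

section

noncomputable section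

namespace Vale.Agent.P273

open Sum
open scoped Classical

variable {V E L L' N R T : Type}

/-! ### A combinatorial identity -/

/-- Rising factorial. -/
def rf (a : ℚ) (z : ℕ) : ℚ := ∏ j ∈ Finset.range z, (a + j)

lemma rf_succ (a : ℚ) (z : ℕ) : rf a (z + 1) = rf a z * (a + z) := Finset.prod_range_succ _ _

lemma rf_succ' (a : ℚ) (z : ℕ) : rf (a - 1) (z + 1) = (a - 1) * rf a z := by
  unfold rf
  rw [Finset.prod_range_succ', mul_comm]
  congr 1
  · simp
  · apply Finset.prod_congr rfl
    intro j _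
    push_cast
    ring

lemma rf_sum (a : ℚ) (z : ℕ) : ∑ i ∈ Finset.range (z + 1),
    ((z.choose i : ℚ) * i.factorial) * rf (a - 1) (z - i) = rf a z := by
  induction z with
  | zero => simp only [zero_add, Finset.range_one, rf, zero_tsub, Finset.range_zero, Finset.prod_empty, mul_one, Finset.sum_singleton, Nat.choose_self, Nat.cast_one, Nat.factorial_zero]
  | succ z ih =>
    rw [Finset.sum_range_succ']
    have h1 : ∀ i ∈ Finset.range (z + 1), ((z + 1).choose (i + 1) : ℚ) * (i + 1).factorial *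
        rf (a - 1) (z + 1 - (i + 1)) = (z + 1) * ((z.choose i : ℚ) * i.factorial *
          rf (a - 1) (z - i)) := by
      intro i _
      rw [Nat.add_sub_add_right]
      have h2 : ((z : ℚ) + 1) * (z.choose i : ℚ) = ((z + 1).choose (i + 1) : ℚ) * (i + 1) := by
        exact_mod_cast Nat.add_one_mul_choose_eq z i
      rw [Nat.factorial_succ]
      push_cast
      linear_combination (-(i.factorial : ℚ) * rf (a - 1) (z - i)) * h2
    rw [Finset.sum_congr rfl h1, ← Finset.mul_sum, ih]
    simp only [Nat.choose_zero_right, Nat.factorial_zero, Nat.cast_one, Nat.sub_zero, one_mul]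
    rw [rf_succ', rf_succ]
    ring

/-! ### Repeated dilaton -/

lemma mk_replicate {g : ℕ} (G : Gr V E L) (v : V) (κ : Multiset ℕ) (m : ℕ) :
    mk g L (dl (G.upd v (κ + Multiset.replicate m 0)) 1) =
      rf (2 * ((G.dec v).1 : ℚ) - 2 + G.nv v + κ.card) m • mk g L (dl (G.upd v κ) 1) := by
  induction m with
  | zero =>
    rw [Multiset.replicate_zero, add_zero]
    simp only [rf, Finset.range_zero, Finset.prod_empty, one_smul]
  | succ m ih =>
    have h1 : G.upd v (κ + Multiset.replicate (m + 1) 0) =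
        (G.upd v (κ + Multiset.replicate m 0)).upd v
          (0 ::ₘ ((G.upd v (κ + Multiset.replicate m 0)).dec v).2) := by
      apply eq_upd
      · rfl
      · rw [upd_dec_self, upd_dec_self]
        simp only [Multiset.replicate_succ, Multiset.add_cons]
      · intro u hu
        rw [upd_dec_ne _ _ _ hu, upd_dec_ne _ _ _ hu]
    rw [h1, mk_dilaton, ih, rf_succ, smul_smul, upd_dec_self, nv_upd]
    congr 1
    simp only [Multiset.card_add, Multiset.card_replicate]
    push_cast
    ring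

/-! ### The two legs at the relation -/

/-- The two legs sit at legs of the relation. -/
structure Env.RelLegs (Q : Env R T L (Option (Option N))) (x1 x2 : L) : Prop where
  inj : ∀ y z x, Q.use y = inl x → Q.use z = inl x → y = z
  u1 : Q.use (inr none) = inl x1
  u2 : Q.use (inr (some none)) = inl x2
  b1 : Q.b x1 = 0
  b2 : Q.b x2 = 0

section

variable {Q : Env R T L (Option (Option N))} {x1 x2 : L}

lemma Env.RelLegs.ne (H : Q.RelLegs x1 x2) : x1 ≠ x2 := by
  rintro rfl
  have := H.inj _ _ _ H.u1 H.u2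
  simp at this

lemma Env.RelLegs.fg1 (H : Q.RelLegs x1 x2) (z : (T × Bool) ⊕ N) : Q.fg.use z ≠ inl x1 := by
  intro h
  have := H.inj _ _ _ H.u1 h
  rcases z with z | z
  · simp at this
  · simp [ss] at this

lemma Env.RelLegs.fg2 (H : Q.RelLegs x1 x2) (z : (T × Bool) ⊕ N) : Q.fg.use z ≠ inl x2 := by
  intro h
  have := H.inj _ _ _ H.u2 h
  rcases z with z | z
  · simp at this
  · simp [ss] at this

lemma Env.RelLegs.range (H : Q.RelLegs x1 x2) (x : L) :
    inl x ∈ Set.range Q.use ↔ x = x1 ∨ x = x2 ∨ inl x ∈ Set.range Q.fg.use := by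
  constructor
  · rintro ⟨z, hz⟩
    rcases ss_cases z with rfl | rfl | ⟨z, rfl⟩
    · rw [H.u1, inl.injEq] at hz
      exact Or.inl hz.symm
    · rw [H.u2, inl.injEq] at hz
      exact Or.inr (Or.inl hz.symm)
    · exact Or.inr (Or.inr ⟨z, hz⟩)
  · rintro (rfl | rfl | ⟨z, hz⟩)
    · exact ⟨_, H.u1⟩
    · exact ⟨_, H.u2⟩
    · exact ⟨_, hz⟩

lemma Env.RelLegs.hf1 (H : Q.RelLegs x1 x2) (G : Gr V E L) :
    (Q.graft G).hf (inr none) = (inl (G.hf (inr x1)).1, (G.hf (inr x1)).2) := by
  rw [Env.graft_hf_leg, Env.usehf_inl H.u1, H.b1, add_zero]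

lemma Env.RelLegs.hf2 (H : Q.RelLegs x1 x2) (G : Gr V E L) :
    (Q.graft G).hf (inr (some none)) = (inl (G.hf (inr x2)).1, (G.hf (inr x2)).2) := by
  rw [Env.graft_hf_leg, Env.usehf_inl H.u2, H.b2, add_zero]

lemma Env.RelLegs.MC_iff (H : Q.RelLegs x1 x2) (G : Gr V E L) :
    (Q.graft G).MC ↔ G.hf (inr x2) = G.hf (inr x1) ∧ (G.hf (inr x1)).2 = 0 := by
  unfold Gr.MC
  rw [H.hf1, H.hf2]
  simp only [Prod.mk.injEq, inl.injEq]
  constructor
  · rintro ⟨⟨h1, h2⟩, h3⟩
    exact ⟨Prod.ext h1.symm h2.symm, h3⟩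
  · rintro ⟨h1, h2⟩
    rw [h1]
    exact ⟨⟨rfl, rfl⟩, h2⟩

end

/-- The unused legs with `b = 0`. -/
def Env.US [Finite L] (Q : Env R T L N) : Finset L :=
  (Set.toFinite {x | inl x ∉ Set.range Q.use ∧ Q.b x = 0}).toFinset

lemma mem_US [Finite L] {Q : Env R T L N} {x : L} :
    x ∈ Q.US ↔ inl x ∉ Set.range Q.use ∧ Q.b x = 0 := by
  unfold Env.US
  rw [Set.Finite.mem_toFinset]
  rfl

/-- The legs in `J` and the two legs. -/
def Jp (x1 x2 : L) (J : Finset L) : Set L := {x | x ∈ J ∨ x = x1 ∨ x = x2}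

lemma Env.RelLegs.allowed [Finite L] {Q : Env R T L (Option (Option N))} {x1 x2 : L}
    (H : Q.RelLegs x1 x2) {J : Finset L} (hJ : J ⊆ Q.US) : Q.fg.Allowed (Jp x1 x2 J) := by
  rintro x (hx | rfl | rfl)
  · have h1 := mem_US.1 (hJ hx)
    refine ⟨fun h => h1.1 ((H.range x).2 (Or.inr (Or.inr h))), h1.2⟩
  · exact ⟨fun ⟨z, hz⟩ => H.fg1 z hz, H.b1⟩
  · exact ⟨fun ⟨z, hz⟩ => H.fg2 z hz, H.b2⟩

/-- Merge the legs in `J`. -/
def Gr.mer (J : Set L) (x0 : L) (G : Gr V E L) : Gr V E (Option {x // x ∉ J}) :=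
  ⟨G.dec, Sum.elim (fun y => G.hf (inl y)) (Option.elim' (G.hf (inr x0)) fun x => G.hf (inr x.1))⟩

lemma mer_spl {J : Set L} {x0 : L} (h : x0 ∈ J) (G : Gr V E (Option {x // x ∉ J})) :
    (G.spl J).mer J x0 = G := by
  apply Gr.ext'
  · intro v
    rfl
  · rintro (y | (_ | x))
    · rfl
    · exact spl_of_mem G h
    · exact spl_of_not_mem G x.2

lemma spl_mer {J : Set L} {x0 : L} (G : Gr V E L)
    (h : ∀ x ∈ J, G.hf (inr x) = G.hf (inr x0)) : (G.mer J x0).spl J = G := by
  apply Gr.ext'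
  · intro v
    rfl
  · rintro (y | x)
    · rfl
    · by_cases hx : x ∈ J
      · rw [spl_of_mem _ hx, h x hx]
        rfl
      · rw [spl_of_not_mem _ hx]
        rfl

/-- The class of the graph with merged legs. -/
def mu (g : ℕ) (Q : Env R T L N) (J : Set L) (x0 : L) (G : Gr V E L) : Sq g (Option N) :=
  if (∀ x ∈ J, G.hf (inr x) = G.hf (inr x0)) ∧ (G.hf (inr x0)).2 = 0 then
    mk g (Option N) (dl ((Q.plus J).graft (G.mer J x0)) 1)
  else 0

section

variable {Q : Env R T L (Option (Option N))} {x1 x2 : L}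

lemma Env.Allowed.range_some {Q : Env R T L N} {J : Set L} (hJ : Q.Allowed J) (x : {x // x ∉ J}) :
    inl (some x) ∈ Set.range (Q.plus J).use ↔ inl x.1 ∈ Set.range Q.use := by
  constructor
  · rintro ⟨z, hz⟩
    rcases hJ.plus_use_eq hz with ⟨_, h3⟩ | ⟨z', x2, _, h3, h4⟩
    · simp at h3
    · rw [Option.some.injEq] at h3
      subst h3
      exact ⟨z', h4⟩
  · rintro ⟨z, hz⟩
    obtain ⟨hx, h1⟩ := hJ.plus_use_inl hz
    exact ⟨_, h1⟩

lemma Env.unused_eq_sum [Fintype L] (Q : Env R T L N) (G : Gr V E L) (v : V) :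
    Q.unused G v = ∑ x, if inl x ∉ Set.range Q.use ∧ (G.hf (inr x)).1 = v then
      ({(G.hf (inr x)).2 + Q.b x} : Multiset ℕ) else 0 := by
  unfold Env.unused
  rw [finsum_eq_sum_of_fintype]
  apply Finset.sum_congr rfl
  intro x _
  rw [finsum_eq_if]

lemma Env.RelLegs.unused_mer [Finite L] (H : Q.RelLegs x1 x2) {J : Finset L} (hJ : J ⊆ Q.US)
    (G : Gr V E L) (hG : ∀ x ∈ J, G.hf (inr x) = ((G.hf (inr x1)).1, 0)) (v : V) :
    Q.unused G v = (Q.fg.plus (Jp x1 x2 J)).unused (G.mer (Jp x1 x2 J) x1) v +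
      (if (G.hf (inr x1)).1 = v then Multiset.replicate J.card 0 else 0) := by
  have := Fintype.ofFinite L
  have hal := H.allowed hJ
  rw [Env.unused_eq_sum, Env.unused_eq_sum, Fintype.sum_option, if_neg, zero_add,
    ← Fintype.sum_subtype_add_sum_subtype (fun x => x ∉ Jp x1 x2 J)]
  · congr 1
    · apply Finset.sum_congr rfl
      intro x _
      have h1 : x.1 ≠ x1 := fun h => x.2 (Or.inr (Or.inl h))
      have h2 : x.1 ≠ x2 := fun h => x.2 (Or.inr (Or.inr h))
      have h3 : (inl x.1 ∉ Set.range Q.use ∧ (G.hf (inr x.1)).1 = v) ↔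
          (inl (some x) ∉ Set.range (Q.fg.plus (Jp x1 x2 J)).use ∧
            ((G.mer (Jp x1 x2 J) x1).hf (inr (some x))).1 = v) := by
        rw [hal.range_some x, H.range]
        simp only [h1, h2, false_or]
        rfl
      rw [if_congr h3 rfl rfl]
      rfl
    · rw [← Finset.sum_subtype (insert x1 (insert x2 J)) (p := fun x => ¬ x ∉ Jp x1 x2 J)
        (fun x => by unfold Jp; simp only [Finset.mem_insert, Set.mem_ofPred_eq, not_or, not_and, Decidable.not_not]; (clear * -; tauto))
        (fun x => if inl x ∉ Set.range Q.use ∧ (G.hf (inr x)).1 = v then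
          ({(G.hf (inr x)).2 + Q.b x} : Multiset ℕ) else 0)]
      have h4 : ∑ x ∈ J, (if inl x ∉ Set.range Q.use ∧ (G.hf (inr x)).1 = v then
          ({(G.hf (inr x)).2 + Q.b x} : Multiset ℕ) else 0) =
          ∑ x ∈ insert x1 (insert x2 J), (if inl x ∉ Set.range Q.use ∧ (G.hf (inr x)).1 = v then
          ({(G.hf (inr x)).2 + Q.b x} : Multiset ℕ) else 0) := by
        apply Finset.sum_subset
        · intro x hx
          simp [hx]
        · intro x hx hxJ
          rw [if_neg]
          rintro ⟨h5, _⟩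
          simp only [Finset.mem_insert, hxJ, or_false] at hx
          rcases hx with rfl | rfl
          · exact h5 ⟨_, H.u1⟩
          · exact h5 ⟨_, H.u2⟩
      rw [← h4]
      have h5 : ∀ x ∈ J, (if inl x ∉ Set.range Q.use ∧ (G.hf (inr x)).1 = v then
          ({(G.hf (inr x)).2 + Q.b x} : Multiset ℕ) else 0) =
          if (G.hf (inr x1)).1 = v then {0} else 0 := by
        intro x hx
        have h6 := mem_US.1 (hJ hx)
        rw [hG x hx, h6.2]
        simp only [h6.1, not_false_eq_true, true_and, add_zero]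
      rw [Finset.sum_congr rfl h5, Finset.sum_const]
      split_ifs
      · rw [Multiset.nsmul_singleton]
      · simp
  · rintro ⟨h, _⟩
    exact h ⟨inr none, rfl⟩

lemma multiset_split (M : Multiset ℕ) :
    M = M.filter (· ≠ 0) + Multiset.replicate (M.count 0) 0 := by
  have h1 := Multiset.filter_add_not (fun x => x ≠ 0) M
  have h2 : Multiset.filter (fun x => ¬ x ≠ 0) M = Multiset.replicate (M.count 0) 0 := by
    rw [← Multiset.filter_eq']
    apply Multiset.filter_congr
    intro x _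
    simp
  rw [h2] at h1
  exact h1.symm

lemma multiset_split' (M A : Multiset ℕ) (j : ℕ) (h : M = A + Multiset.replicate j 0) :
    A = M.filter (· ≠ 0) + Multiset.replicate (M.count 0 - j) 0 := by
  have h1 : M.count 0 - j = A.count 0 := by
    rw [h, Multiset.count_add, Multiset.count_replicate_self]
    omega
  have h2 : M.filter (· ≠ 0) = A.filter (· ≠ 0) := by
    rw [h, Multiset.filter_add]
    have h3 : Multiset.filter (· ≠ 0) (Multiset.replicate j 0) = 0 := by
      apply Multiset.filter_eq_nil.2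
      intro a ha
      rw [Multiset.eq_of_mem_replicate ha]
      simp
    rw [h3, add_zero]
  rw [h1, h2]
  exact multiset_split A

lemma Env.RelLegs.graft_mer [Finite L] (H : Q.RelLegs x1 x2) {J : Finset L} (hJ : J ⊆ Q.US)
    (G : Gr V E L) (hMC : G.hf (inr x2) = G.hf (inr x1) ∧ (G.hf (inr x1)).2 = 0)
    (hG : ∀ x ∈ J, G.hf (inr x) = ((G.hf (inr x1)).1, 0)) :
    (Q.fg.plus (Jp x1 x2 J)).graft (G.mer (Jp x1 x2 J) x1) =
      (Q.graft G).drp.upd (Q.graft G).vn
        (((Q.graft G).dec (Q.graft G).vn).2.filter (· ≠ 0) +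
        Multiset.replicate (((Q.graft G).dec (Q.graft G).vn).2.count 0 - J.card) 0) := by
  have hvn : (Q.graft G).vn = inl (G.hf (inr x1)).1 := by
    unfold Gr.vn
    rw [H.hf1]
  have hal := H.allowed hJ
  have hun := H.unused_mer hJ G hG
  apply eq_upd
  · funext z
    rcases graft_cases z with ⟨e, s, rfl⟩ | ⟨z, rfl⟩
    · rfl
    · rw [graft_hf_lft, Gr.drp_hf]
      rcases oldz_cases z with rfl | ⟨z, rfl⟩
      · rw [Env.usehf_inl (plus_use_none _ _)]
        have h1 : Sum.map id some (lft E (inr none : (T × Bool) ⊕ Option N)) =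
          inr (some none) := rfl
        rw [h1, H.hf2, hMC.1]
        rfl
      · have h1 : Sum.map id some (lft E (oldz z : (T × Bool) ⊕ Option N)) =
          lft E (z.map id ss) := by
          rcases z with z | z <;> rfl
        rw [h1, graft_hf_lft]
        rcases hz : Q.fg.use z with x | p
        · obtain ⟨hx, h2⟩ := hal.plus_use_inl hz
          rw [Env.usehf_inl h2, Env.usehf_inl (show Q.use (z.map id ss) = inl x from hz)]
          rfl
        · rw [Env.usehf_inr (plus_use_inr hz),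
            Env.usehf_inr (show Q.use (z.map id ss) = inr p from hz)]
  · rw [Gr.drp_gen, hvn, Env.graft_dec_inl, Env.graft_dec_inl]
    refine Prod.ext rfl ?_
    simp only
    apply multiset_split'
    rw [hun, if_pos rfl, add_assoc]
    rfl
  · intro u hu
    rw [Gr.drp_dec_ne _ hu]
    rcases u with v | r
    · rw [Env.graft_dec_inl, Env.graft_dec_inl, hun v, if_neg, add_zero]
      · rfl
      · intro h
        apply hu
        rw [hvn, h]
    · rfl

lemma Env.RelLegs.count_zero [Finite L] (H : Q.RelLegs x1 x2) (G : Gr V E L)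
    (h0 : ∀ v, 0 ∉ (G.dec v).2) (h1 : (G.hf (inr x1)).2 = 0) :
    ((Q.graft G).dec (Q.graft G).vn).2.count 0 =
      (Q.US.filter fun x => G.hf (inr x) = G.hf (inr x1)).card := by
  have := Fintype.ofFinite L
  have hvn : (Q.graft G).vn = inl (G.hf (inr x1)).1 := by
    unfold Gr.vn
    rw [H.hf1]
  rw [hvn, Env.graft_dec_inl]
  simp only
  rw [Multiset.count_add, Multiset.count_eq_zero_of_notMem (h0 _), zero_add, Env.unused_eq_sum]
  have h2 : ∀ F : L → Multiset ℕ, Multiset.count 0 (∑ x, F x) = ∑ x, Multiset.count 0 (F x) :=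
    fun F => map_sum (Multiset.countAddMonoidHom 0) F Finset.univ
  rw [h2, Finset.card_filter, ← Finset.sum_subset (Finset.subset_univ Q.US)]
  · apply Finset.sum_congr rfl
    intro x hx
    have h3 := mem_US.1 hx
    by_cases h4 : (G.hf (inr x)).1 = (G.hf (inr x1)).1
    · rw [if_pos ⟨h3.1, h4⟩, Multiset.count_singleton, h3.2]
      have h5 : (0 = (G.hf (inr x)).2 + 0) ↔ G.hf (inr x) = G.hf (inr x1) := by
        constructor
        · intro h
          exact Prod.ext h4 (by omega)
        · intro h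
          rw [h, h1]
      rw [if_congr h5 rfl rfl]
    · rw [if_neg (fun h => h4 h.2), if_neg]
      · simp
      · intro h
        exact h4 (by rw [h])
  · intro x _ hx
    by_cases h3 : inl x ∉ Set.range Q.use ∧ (G.hf (inr x)).1 = (G.hf (inr x1)).1
    · rw [if_pos h3, Multiset.count_singleton, if_neg]
      intro h
      apply hx
      rw [mem_US]
      exact ⟨h3.1, by omega⟩
    · rw [if_neg h3]
      simp

/-- The main part, for one graph. -/
lemma relLegs_main [Finite L] [Finite N] [Finite E] [Finite T] {g : ℕ} (H : Q.RelLegs x1 x2)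
    (G : Gr V E L) (h0 : ∀ v, 0 ∉ (G.dec v).2) :
    (if (Q.graft G).MC then (Q.graft G).cfac • mk g (Option N) (dl (Q.graft G).drp 1) else 0) =
      ∑ J ∈ Q.US.powerset, (J.card.factorial : ℚ) • mu g Q.fg (Jp x1 x2 J) x1 G := by
  by_cases hMC : (Q.graft G).MC
  · rw [if_pos hMC]
    rw [H.MC_iff] at hMC
    have hz := H.count_zero G h0 hMC.2
    set Z := Q.US.filter fun x => G.hf (inr x) = G.hf (inr x1) with hZ
    rw [← Finset.sum_subset (Finset.powerset_mono.2 (Finset.filter_subset _ _) :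
      Z.powerset ⊆ Q.US.powerset)]
    · have hc : (Q.graft G).cfac = rf (2 * (((Q.graft G).dec (Q.graft G).vn).1 : ℚ) - 2 +
          (Q.graft G).nv (Q.graft G).vn +
          (((Q.graft G).dec (Q.graft G).vn).2.filter (· ≠ 0)).card) Z.card := by
        unfold Gr.cfac rf
        rw [hz]
      have hnv : ((Q.graft G).nv (Q.graft G).vn : ℚ) = (Q.graft G).drp.nv (Q.graft G).vn + 1 := by
        rw [(Q.graft G).drp_nv, if_pos rfl]
        push_cast
        rfl
      have h1 : ∀ J ∈ Z.powerset, (J.card.factorial : ℚ) • mu g Q.fg (Jp x1 x2 J) x1 G =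
          ((J.card.factorial : ℚ) * rf (2 * (((Q.graft G).dec (Q.graft G).vn).1 : ℚ) - 2 +
          (Q.graft G).nv (Q.graft G).vn +
          (((Q.graft G).dec (Q.graft G).vn).2.filter (· ≠ 0)).card - 1) (Z.card - J.card)) •
          mk g (Option N) (dl (Q.graft G).drp 1) := by
        intro J hJ
        rw [Finset.mem_powerset] at hJ
        have hJU : J ⊆ Q.US := hJ.trans (Finset.filter_subset _ _)
        have hG : ∀ x ∈ J, G.hf (inr x) = ((G.hf (inr x1)).1, 0) := by
          intro x hx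
          have h2 := (Finset.mem_filter.1 (hJ hx)).2
          rw [h2]
          exact Prod.ext rfl hMC.2
        have hG' : (∀ x ∈ Jp x1 x2 J, G.hf (inr x) = G.hf (inr x1)) ∧
            (G.hf (inr x1)).2 = 0 := by
          refine ⟨?_, hMC.2⟩
          rintro x (hx | rfl | rfl)
          · exact (Finset.mem_filter.1 (hJ hx)).2
          · rfl
          · exact hMC.1
        rw [mu, if_pos hG', H.graft_mer hJU G hMC hG, mk_replicate, hz, smul_smul]
        congr 1
        · rw [Gr.drp_gen, hnv]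
          congr 2
          ring
        · congr 2
          symm
          apply eq_upd
          · rfl
          · rw [Gr.drp_dec_self]
          · intro u _
            rfl
      rw [Finset.sum_congr rfl h1, ← Finset.sum_smul, hc]
      congr 1
      rw [Finset.sum_powerset_apply_card (fun i => (i.factorial : ℚ) *
        rf (2 * (((Q.graft G).dec (Q.graft G).vn).1 : ℚ) - 2 +
          (Q.graft G).nv (Q.graft G).vn +
          (((Q.graft G).dec (Q.graft G).vn).2.filter (· ≠ 0)).card - 1) (Z.card - i)),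
        ← rf_sum]
      apply Finset.sum_congr rfl
      intro i _
      rw [nsmul_eq_mul, mul_assoc]
    · intro J hJ hJZ
      rw [mu, if_neg, smul_zero]
      rintro ⟨h2, _⟩
      apply hJZ
      rw [Finset.mem_powerset] at hJ ⊢
      intro x hx
      exact Finset.mem_filter.2 ⟨hJ hx, h2 x (Or.inl hx)⟩
  · rw [if_neg hMC, Finset.sum_eq_zero]
    intro J _
    rw [mu, if_neg, smul_zero]
    rintro ⟨h2, h3⟩
    exact hMC ((H.MC_iff G).2 ⟨h2 x2 (Or.inr (Or.inr rfl)), h3⟩)

end

end Vale.Agent.P273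
end
end
end

section

section

noncomputable section

namespace Vale.Agent.P273

open Sum
open scoped Classical

variable {V E L L' N R T : Type}

/-! ### Sums over graphs -/

/-- The parity. -/
def parM (A : L → ℕ) (J : Set L) : ℕ := if Even (∑ᶠ x : {x // ¬ x ∉ J}, A x.1) then 0 else 1

/-- The merged parameters. -/
def AM (A : L → ℕ) (J : Set L) : Option {x // x ∉ J} → ℕ := Option.elim' (parM A J) fun x => A x.1

/-- One term. -/
def phiT {N' : Type} (g : ℕ) (Q : Env R T (Option L') N') (γ : ℕ) (A : Option L' → ℕ) (d : ℕ)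
    (C : ℕ → Prop) (G : Gr V E (Option L')) : Sq g N' :=
  (if C (G.hf (inr none)).2 then wt G γ A d else 0) • mk g N' (dl (Q.graft G) 1)

lemma phiT_pos {N' : Type} {g : ℕ} {Q : Env R T (Option L') N'} {γ : ℕ} {A : Option L' → ℕ} {d : ℕ}
    {C : ℕ → Prop} {G : Gr V E (Option L')} (h : C (G.hf (inr none)).2) :
    phiT g Q γ A d C G = wt G γ A d • mk g N' (dl (Q.graft G) 1) := by
  rw [phiT, if_pos h]

lemma phiT_neg {N' : Type} {g : ℕ} {Q : Env R T (Option L') N'} {γ : ℕ} {A : Option L' → ℕ} {d : ℕ}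
    {C : ℕ → Prop} {G : Gr V E (Option L')} (h : ¬ C (G.hf (inr none)).2) :
    phiT g Q γ A d C G = 0 := by
  rw [phiT, if_neg h, zero_smul]

/-- Part of the sum over all graphs. -/
def PhiC {N' : Type} (g : ℕ) (Q : Env R T (Option L') N') (γ : ℕ) (A : Option L' → ℕ) (d : ℕ)
    (C : ℕ → Prop) (V E : Type) : Sq g N' :=
  ∑ᶠ G : Gr V E (Option L'), phiT g Q γ A d C G

lemma PhiC_congr {N' : Type} (g : ℕ) (Q : Env R T (Option L') N') (γ : ℕ) (A : Option L' → ℕ)
    (d : ℕ) (C : ℕ → Prop) {V E V' E' : Type} (φ : V ≃ V') (ρ : E ≃ E') :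
    PhiC g Q γ A d C V E = PhiC g Q γ A d C V' E' := by
  unfold PhiC
  rw [← finsum_comp_equiv (relabEquiv φ ρ)]
  apply finsum_congr
  intro G
  change _ = phiT g Q γ A d C (G.relab φ ρ)
  unfold phiT
  rw [wt_relab, ← mk_iso (graft_relab φ ρ G Q)]
  rfl

lemma PhiC_add {N' : Type} [Finite L'] (g : ℕ) (Q : Env R T (Option L') N') (γ : ℕ)
    (A : Option L' → ℕ) (d k m : ℕ) :
    PhiC g Q γ A d (· = 0) (Fin k) (Fin m) + PhiC g Q γ A d (· ≠ 0) (Fin k) (Fin m) =
      Phi g Q γ A d (Fin k) (Fin m) := by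
  have hfin : ∀ C : ℕ → Prop, (Function.support fun G : Gr (Fin k) (Fin m) (Option L') =>
      phiT g Q γ A d C G).Finite := by
    intro C
    refine (finite_wt_km γ d A k m).subset ?_
    intro G hG h0
    apply hG
    simp only
    rw [phiT, h0, ite_self, zero_smul]
  unfold PhiC Phi
  rw [← finsum_add_distrib (hfin _) (hfin _)]
  apply finsum_congr
  intro G
  by_cases h : (G.hf (inr none)).2 = 0
  · rw [phiT_pos h, phiT_neg (not_not.2 h), add_zero]
  · rw [phiT_neg h, phiT_pos h, zero_add]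

lemma graft_nv_le {Q : Env R T L N} (hQ : ∀ y z x, Q.use y = inl x → Q.use z = inl x → y = z)
    [Finite E] [Finite L] (G : Gr V E L) (v : V) : (Q.graft G).nv (inl v) ≤ G.nv v := by
  let F : ((E ⊕ T) × Bool) ⊕ N → Option ((E × Bool) ⊕ L) :=
    Sum.elim (fun y => y.1.elim (fun e => some (inl (e, y.2)))
      fun t => (Q.use (inl (t, y.2))).elim (fun x => some (inr x)) fun _ => none)
      fun n => (Q.use (inr n)).elim (fun x => some (inr x)) fun _ => none
  have hF : ∀ z : (T × Bool) ⊕ N, F (lft E z) =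
      (Q.use z).elim (fun x => some (inr x)) fun _ => none := by
    rintro (z | z) <;> rfl
  have h1 : ∀ y, ((Q.graft G).hf y).1 = inl v → ∃ y', F y = some y' ∧ (G.hf y').1 = v := by
    intro y hy
    rcases graft_cases y with ⟨e, s, rfl⟩ | ⟨z, rfl⟩
    · rw [Env.graft_hf_inl] at hy
      exact ⟨inl (e, s), rfl, by simpa using hy⟩
    · rw [graft_hf_lft] at hy
      rcases hz : Q.use z with x | p
      · rw [Env.usehf_inl hz] at hy
        refine ⟨inr x, ?_, by simpa using hy⟩
        rw [hF, hz]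
        rfl
      · rw [Env.usehf_inr hz] at hy
        simp at hy
  have h2 : ∀ y z, ((Q.graft G).hf y).1 = inl v → ((Q.graft G).hf z).1 = inl v →
      F y = F z → y = z := by
    intro y z hy hz hyz
    rcases graft_cases y with ⟨e, s, rfl⟩ | ⟨y, rfl⟩
    · rcases graft_cases z with ⟨e', s', rfl⟩ | ⟨z, rfl⟩
      · have : (some (inl (e, s)) : Option ((E × Bool) ⊕ L)) = some (inl (e', s')) := hyz
        simp only [Option.some.injEq, inl.injEq, Prod.mk.injEq] at this
        rw [this.1, this.2]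
      · rw [hF] at hyz
        rcases hz' : Q.use z with x | p
        · rw [hz'] at hyz
          simp [F] at hyz
        · rw [hz'] at hyz
          simp [F] at hyz
    · rcases graft_cases z with ⟨e', s', rfl⟩ | ⟨z, rfl⟩
      · rw [hF] at hyz
        rcases hz' : Q.use y with x | p
        · rw [hz'] at hyz
          simp [F] at hyz
        · rw [hz'] at hyz
          simp [F] at hyz
      · rw [hF, hF] at hyz
        rw [graft_hf_lft] at hy hz
        rcases hy' : Q.use y with x | p
        · rcases hz' : Q.use z with x' | p'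
          · rw [hy', hz'] at hyz
            simp only [Sum.elim_inl, Option.some.injEq, inr.injEq] at hyz
            subst hyz
            rw [hQ _ _ _ hy' hz']
          · rw [Env.usehf_inr hz'] at hz
            simp at hz
        · rw [Env.usehf_inr hy'] at hy
          simp at hy
  unfold Gr.nv
  have h3 : Function.Injective (fun y : {y // ((Q.graft G).hf y).1 = inl v} =>
      (⟨(h1 y.1 y.2).choose, (h1 y.1 y.2).choose_spec.2⟩ : {y // (G.hf y).1 = v})) := by
    intro y z hyz
    have h4 := congrArg Subtype.val hyz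
    simp only at h4
    apply Subtype.ext
    apply h2 _ _ y.2 z.2
    rw [(h1 y.1 y.2).choose_spec.1, (h1 z.1 z.2).choose_spec.1, h4]
  exact Nat.card_le_card_of_injective _ h3

lemma graft_invalid {g : ℕ} {Q : Env R T L N}
    (hQ : ∀ y z x, Q.use y = inl x → Q.use z = inl x → y = z)
    [Finite E] [Finite L] (G : Gr V E L) {v : V} (hv : 2 * (G.dec v).1 + G.nv v ≤ 2) :
    ¬ (Q.graft G).Valid g := by
  rintro ⟨_, _, ⟨_, _, _, h4⟩, _⟩
  have h5 := h4 (inl v)
  have h6 := graft_nv_le hQ G v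
  rw [Env.graft_dec_inl] at h5
  simp only at h5
  omega

lemma sum_mu [Finite V] [Finite E] [Finite L] {g : ℕ} (Q : Env R T L N)
    (hQ : ∀ y z x, Q.use y = inl x → Q.use z = inl x → y = z) {J : Set L} (hal : Q.Allowed J)
    {x0 : L} (hx0 : x0 ∈ J) (γ : ℕ) (A : L → ℕ) (d : ℕ) (S : Finset (Gr V E L))
    (hS : ∀ G, wt G γ A d ≠ 0 → G ∈ S) :
    ∑ G ∈ S, wt G γ A d • mu g Q J x0 G = PhiC g (Q.plus J) γ (AM A J) d (· = 0) V E := by
  rw [← finsum_eq_sum_of_support_subset]
  swap
  · intro G hG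
    apply hS
    intro h0
    apply hG
    simp only
    rw [h0, zero_smul]
  let j : {G' : Gr V E (Option {x // x ∉ J}) // (G'.hf (inr none)).2 = 0} → Gr V E L :=
    fun G' => G'.1.spl J
  have hj : j.Injective := by
    intro G1 G2 h12
    apply Subtype.ext
    have h12' : G1.1.spl J = G2.1.spl J := h12
    rw [← mer_spl hx0 G1.1, ← mer_spl hx0 G2.1, h12']
  have hsupp : (Function.support fun G => wt G γ A d • mu g Q J x0 G) ⊆ Set.range j := by
    intro G hG
    by_cases H : (∀ x ∈ J, G.hf (inr x) = G.hf (inr x0)) ∧ (G.hf (inr x0)).2 = 0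
    · exact ⟨⟨G.mer J x0, H.2⟩, spl_mer G H.1⟩
    · exfalso
      apply hG
      simp only
      rw [mu, if_neg H, smul_zero]
  calc ∑ᶠ G, wt G γ A d • mu g Q J x0 G
      = ∑ᶠ G ∈ Set.range j, wt G γ A d • mu g Q J x0 G := by
        rw [finsum_mem_def, Set.indicator_eq_self.2 hsupp]
    _ = ∑ᶠ G', wt (j G') γ A d • mu g Q J x0 (j G') := finsum_mem_range hj
    _ = ∑ᶠ G' : {G' : Gr V E (Option {x // x ∉ J}) // (G'.hf (inr none)).2 = 0},
          wt G'.1 γ (AM A J) d • mk g (Option N) (dl ((Q.plus J).graft G'.1) 1) := by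
        apply finsum_congr
        intro G'
        change wt (G'.1.spl J) γ A d • mu g Q J x0 (G'.1.spl J) = _
        have hm : mu g Q J x0 (G'.1.spl J) =
            mk g (Option N) (dl ((Q.plus J).graft G'.1) 1) := by
          rw [mu, if_pos, mer_spl hx0]
          rw [spl_of_mem _ hx0]
          exact ⟨fun x hx => spl_of_mem _ hx, G'.2⟩
        rw [hm]
        by_cases hst : G'.1.Stab γ
        · rw [wt_spl ⟨x0, hx0⟩ G'.1 G'.2 hst]
          rfl
        · have e1 : wt G'.1 γ (AM A J) d = 0 := by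
            by_contra h
            exact hst (wt_ne_zero h).1
          rw [e1, zero_smul]
          by_cases h : wt (G'.1.spl J) γ A d = 0
          · rw [h, zero_smul]
          · obtain ⟨⟨h1, h2, h3, h4⟩, _, _⟩ := wt_ne_zero h
            have h5 : ∃ v, 2 * (G'.1.dec v).1 + G'.1.nv v ≤ 2 := by
              by_contra hcon
              push Not at hcon
              exact hst ⟨h1, h2, h3, hcon⟩
            obtain ⟨v, hv⟩ := h5
            rw [mk_invalid (graft_invalid (hal.plus_inj hQ) _ hv), smul_zero]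
    _ = _ := by
        refine Eq.trans (finsum_subtype_eq_finsum_cond (f := fun G' : Gr V E
          (Option {x // x ∉ J}) => wt G' γ (AM A J) d •
          mk g (Option N) (dl ((Q.plus J).graft G') 1)) _) ?_
        unfold PhiC
        apply finsum_congr
        intro G'
        rw [finsum_eq_if]
        split_ifs with h
        · rw [phiT_pos h]
        · rw [phiT_neg h]

/-! ### Bumps -/

lemma bump_injective : (Gr.bump : Gr V E (Option L) → Gr V E (Option L)).Injective := by
  intro G1 G2 h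
  apply Gr.ext'
  · intro v
    exact congrFun (congrArg Gr.dec h) v
  · intro y
    have h1 := congrFun (congrArg Gr.hf h) y
    have h3 : (G1.bump.hf y).1 = (G2.bump.hf y).1 := congrArg Prod.fst h1
    refine Prod.ext h3 ?_
    have h2 : (G1.hf y).2 + (if y = inr none then 1 else 0) =
      (G2.hf y).2 + (if y = inr none then 1 else 0) := congrArg Prod.snd h1
    omega

lemma mem_range_bump {G : Gr V E (Option L)} (h : (G.hf (inr none)).2 ≠ 0) :
    G ∈ Set.range (Gr.bump : Gr V E (Option L) → Gr V E (Option L)) := by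
  refine ⟨⟨G.dec, fun y => ((G.hf y).1, (G.hf y).2 - if y = inr none then 1 else 0)⟩, ?_⟩
  apply Gr.ext'
  · intro v
    rfl
  · intro y
    refine Prod.ext rfl ?_
    change (G.hf y).2 - (if y = inr none then 1 else 0) + (if y = inr none then 1 else 0) =
      (G.hf y).2
    split_ifs with hy
    · subst hy
      omega
    · rfl

lemma PhiC_bump {N' : Type} (g : ℕ) (Q : Env R T (Option L') N') (γ : ℕ) (A : Option L' → ℕ)
    (d : ℕ) (V E : Type) : PhiC g Q γ A d (· ≠ 0) V E =
      ∑ᶠ G : Gr V E (Option L'), wt G.bump γ A d • mk g N' (dl (Q.graft G.bump) 1) := by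
  unfold PhiC
  have hsupp : (Function.support fun G : Gr V E (Option L') => phiT g Q γ A d (· ≠ 0) G) ⊆
      Set.range (Gr.bump : Gr V E (Option L') → Gr V E (Option L')) := by
    intro G hG
    apply mem_range_bump
    intro h
    apply hG
    simp only
    rw [phiT_neg (not_not.2 h)]
  calc _ = ∑ᶠ G ∈ Set.range (Gr.bump : Gr V E (Option L') → Gr V E (Option L')),
        phiT g Q γ A d (· ≠ 0) G := by
        rw [finsum_mem_def, Set.indicator_eq_self.2 hsupp]
    _ = ∑ᶠ G : Gr V E (Option L'), phiT g Q γ A d (· ≠ 0) G.bump :=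
        finsum_mem_range bump_injective
    _ = _ := by
        apply finsum_congr
        intro G
        rw [phiT_pos]
        rw [G.bump_none]
        simp

/-- The class of the graph with a tail removed and the exponent raised. -/
def psi0 (g : ℕ) (Q : Env R T L N) (G : Gr V E L) (w : V) (f : E) (s : Bool) (J : Set L) :
    Sq g (Option N) :=
  if H : G.TailAt w f s (Subtype.val : {x // x ∉ J} → L) 0 0 then
    mk g (Option N) (dl ((Q.plus J).graft (G.cut w f s _ H.cd.hne).bump) 1)
  else 0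

lemma sum_psi0 [Finite V] [Finite E] [Finite L] {g : ℕ} (Q : Env R T L N) (w : V) (f : E)
    (s : Bool) {J : Set L} {x1 x2 : L} (hx1 : x1 ∈ J) (hx2 : x2 ∈ J) (hx : x1 ≠ x2) (γ : ℕ)
    (A : L → ℕ) (d : ℕ) (S : Finset (Gr V E L)) (hS : ∀ G, wt G γ A d ≠ 0 → G ∈ S) :
    ∑ G ∈ S, wt G γ A d • psi0 g Q G w f s J =
      - PhiC g (Q.plus J) γ (AM A J) d (· ≠ 0) {v // v ≠ w} {e // e ≠ f} := by
  rw [← finsum_eq_sum_of_support_subset]
  swap
  · intro G hG
    apply hS
    intro h0
    apply hG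
    simp only
    rw [h0, zero_smul]
  let j : Gr {v // v ≠ w} {e // e ≠ f} (Option {x // x ∉ J}) → Gr V E L :=
    fun G' => Gr.ins w f s (Subtype.val : {x // x ∉ J} → L) 0 0 G'
  have hj : j.Injective := by
    intro G1 G2 h12
    have h1 := Gr.cut_ins (w := w) (f := f) (s := s) (h := 0) (G' := G1)
      (Subtype.val_injective : (Subtype.val : {x // x ∉ J} → L).Injective) (Nat.zero_le _)
    have h2 := Gr.cut_ins (w := w) (f := f) (s := s) (h := 0) (G' := G2)
      (Subtype.val_injective : (Subtype.val : {x // x ∉ J} → L).Injective) (Nat.zero_le _)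
    rw [← h1, ← h2]
    have h12' : Gr.ins w f s (Subtype.val : {x // x ∉ J} → L) 0 0 G1 =
      Gr.ins w f s (Subtype.val : {x // x ∉ J} → L) 0 0 G2 := h12
    congr 1
  have hsupp : (Function.support fun G => wt G γ A d • psi0 g Q G w f s J) ⊆ Set.range j := by
    intro G hG
    by_cases H : G.TailAt w f s (Subtype.val : {x // x ∉ J} → L) 0 0
    · exact ⟨G.cut w f s _ H.cd.hne, Gr.ins_cut H⟩
    · exfalso
      apply hG
      simp only
      rw [psi0, dif_neg H, smul_zero]
  rw [PhiC_bump, ← finsum_neg_distrib]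
  calc ∑ᶠ G, wt G γ A d • psi0 g Q G w f s J
      = ∑ᶠ G ∈ Set.range j, wt G γ A d • psi0 g Q G w f s J := by
        rw [finsum_mem_def, Set.indicator_eq_self.2 hsupp]
    _ = ∑ᶠ G', wt (j G') γ A d • psi0 g Q (j G') w f s J := finsum_mem_range hj
    _ = _ := by
        apply finsum_congr
        intro G'
        have H := Gr.ins_tailAt (w := w) (f := f) (s := s) (h := 0) (c := 0) (G' := G')
          (Subtype.val_injective : (Subtype.val : {x // x ∉ J} → L).Injective)
        have h1 := Gr.cut_ins (w := w) (f := f) (s := s) (h := 0) (G' := G')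
          (Subtype.val_injective : (Subtype.val : {x // x ∉ J} → L).Injective) (Nat.zero_le _)
        change wt (Gr.ins w f s (Subtype.val : {x // x ∉ J} → L) 0 0 G') γ A d •
          psi0 g Q (Gr.ins w f s (Subtype.val : {x // x ∉ J} → L) 0 0 G') w f s J = _
        rw [psi0, dif_pos H, h1, wt_ins0 w f s _ Subtype.val_injective
          ((range_val J x1).2 hx1) ((range_val J x2).2 hx2) hx, neg_smul]
        congr 2
        have h2 : (∑ᶠ x : {x // x ∉ Set.range (Subtype.val : {x // x ∉ J} → L)}, A x.1) =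
            ∑ᶠ x : {x // ¬ x ∉ J}, A x.1 := by
          refine Eq.trans ?_ (finsum_comp_equiv (f := fun x : {x // ¬ x ∉ J} => A x.1)
            (Equiv.subtypeEquivRight fun x => (range_val J x).trans not_not.symm))
          rfl
        unfold AM parM
        rw [h2]
        rfl

end Vale.Agent.P273
end
end
end

section

section

noncomputable section

namespace Vale.Agent.P273

open Sum
open scoped Classical

variable {V E L L' N R T : Type} {Q : Env R T L (Option (Option N))} {x1 x2 : L}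

/-! ### Genus zero tails inside the relation -/

lemma Env.RelLegs.mt_iff [Finite L] (H : Q.RelLegs x1 x2) (G : Gr V E L) (f : E) (s : Bool) :
    MT (Q.graft G) (inl f, s) ↔ IsTail (Q.fg.graft G) 0 (inl f, s) ∧
      (G.hf (inl (f, s))).2 = 0 ∧ G.hf (inr x1) = ((G.hf (inl (f, s))).1, 0) ∧
      G.hf (inr x2) = ((G.hf (inl (f, s))).1, 0) := by
  have e1 : (Q.graft G).hf (inl (inl f, s)) = (inl (G.hf (inl (f, s))).1, (G.hf (inl (f, s))).2) :=
    Env.graft_hf_inl _ _ _ _
  have e2 : (Q.fg.graft G).hf (inl (inl f, s)) =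
      (inl (G.hf (inl (f, s))).1, (G.hf (inl (f, s))).2) := Env.graft_hf_inl _ _ _ _
  constructor
  · intro ht
    have h1 := ht.gen
    have h2 := ht.kap
    have h3 := ht.e0
    have h4 := ht.l1
    have h5 := ht.l2
    have h6 := ht.only
    rw [e1] at h1 h2 h3 h4 h5 h6
    rw [H.hf1] at h4
    rw [H.hf2] at h5
    rw [Env.graft_dec_inl] at h1 h2
    simp only [Prod.mk.injEq, inl.injEq] at h1 h2 h3 h4 h5 h6
    have h4' : G.hf (inr x1) = ((G.hf (inl (f, s))).1, 0) := Prod.ext h4.1 h4.2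
    have h5' : G.hf (inr x2) = ((G.hf (inl (f, s))).1, 0) := Prod.ext h5.1 h5.2
    refine ⟨⟨?_, ?_, ?_, ?_⟩, h3, h4', h5'⟩
    · rw [e2, Env.graft_dec_inl]
      exact h1
    · rw [e2, Env.graft_dec_inl]
      intro k hk
      rcases Multiset.mem_add.1 hk with hk | hk
      · exact h2 k (Multiset.mem_add.2 (Or.inl hk))
      · obtain ⟨x, hx1, hx2, rfl⟩ := mem_unused.1 hk
        by_cases hx : inl x ∈ Set.range Q.use
        · rcases (H.range x).1 hx with rfl | rfl | h
          · rw [h4', show Q.fg.b x = Q.b x from rfl, H.b1]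
          · rw [h5', show Q.fg.b x = Q.b x from rfl, H.b2]
          · exact absurd h hx1
        · exact h2 _ (Multiset.mem_add.2 (Or.inr (mem_unused.2 ⟨x, hx, hx2, rfl⟩)))
    · intro z hz
      rw [e2, graft_fg_hf] at hz
      rcases h6 _ hz with h | h | h
      · rcases z with z | z
        · simpa using h
        · simp at h
      · rcases z with z | z
        · simp at h
        · simp [ss] at h
      · rcases z with z | z
        · simp at h
        · simp [ss] at h
    · rw [e2]
      simp only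
      omega
  · rintro ⟨ht, h3, h4, h5⟩
    have h1 := ht.gen
    have h2 := ht.kap
    have h6 := ht.only
    rw [e2] at h1 h2 h6
    rw [Env.graft_dec_inl] at h1 h2
    simp only at h1 h2 h6
    refine ⟨?_, ?_, ?_, ?_, ?_, ?_⟩
    · rw [e1, Env.graft_dec_inl]
      exact h1
    · rw [e1, Env.graft_dec_inl]
      intro k hk
      rcases Multiset.mem_add.1 hk with hk | hk
      · exact h2 k (Multiset.mem_add.2 (Or.inl hk))
      · obtain ⟨x, hx1, hx2, rfl⟩ := mem_unused.1 hk
        refine h2 _ (Multiset.mem_add.2 (Or.inr (mem_unused.2 ⟨x, ?_, hx2, rfl⟩)))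
        intro h
        exact hx1 ((H.range x).2 (Or.inr (Or.inr h)))
    · rw [e1]
      exact h3
    · rw [e1, H.hf1, h4]
    · rw [e1, H.hf2, h5]
    · intro z hz
      rw [e1] at hz
      rcases z with y | (_ | (_ | n))
      · left
        have := h6 (inl y) (by rw [graft_fg_hf]; exact hz)
        simpa using this
      · exact Or.inr (Or.inl rfl)
      · exact Or.inr (Or.inr rfl)
      · exfalso
        have := h6 (inr n) (by rw [graft_fg_hf]; exact hz)
        simp at this

lemma Env.RelLegs.unused_fg_ne [Finite L] (H : Q.RelLegs x1 x2) (G : Gr V E L) (v : V)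
    (h1 : (G.hf (inr x1)).1 ≠ v) (h2 : (G.hf (inr x2)).1 ≠ v) :
    Q.fg.unused G v = Q.unused G v := by
  have := Fintype.ofFinite L
  rw [Env.unused_eq_sum, Env.unused_eq_sum]
  apply Finset.sum_congr rfl
  intro x _
  have h3 : (inl x ∉ Set.range Q.fg.use ∧ (G.hf (inr x)).1 = v) ↔
      (inl x ∉ Set.range Q.use ∧ (G.hf (inr x)).1 = v) := by
    constructor
    · rintro ⟨h4, h5⟩
      refine ⟨?_, h5⟩
      intro h6
      rcases (H.range x).1 h6 with rfl | rfl | h
      · exact h1 h5
      · exact h2 h5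
      · exact h4 h
    · rintro ⟨h4, h5⟩
      refine ⟨?_, h5⟩
      intro h6
      exact h4 ((H.range x).2 (Or.inr (Or.inr h6)))
  rw [if_congr h3 rfl rfl]
  rfl

lemma Env.RelLegs.cut_eq [Finite L] (H : Q.RelLegs x1 x2) (G : Gr V E L) (f : E) (s : Bool)
    (ht : MT (Q.graft G) (inl f, s)) (ht0 : IsTail (Q.fg.graft G) 0 (inl f, s)) :
    ht0.cut = ht.cut := by
  obtain ⟨_, _, h4, h5⟩ := (H.mt_iff G f s).1 ht
  apply Gr.ext'
  · rintro ⟨v | r', hv⟩
    · change (Q.fg.graft G).dec (inl v) = (Q.graft G).dec (inl v)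
      have hv' : v ≠ (G.hf (inl (f, s))).1 := by
        rintro rfl
        exact hv rfl
      rw [Env.graft_dec_inl, Env.graft_dec_inl, H.unused_fg_ne G v]
      · rw [h4]
        exact hv'.symm
      · rw [h5]
        exact hv'.symm
    · rfl
  · intro z
    have h3 : (Q.fg.graft G).hf (emb (inl f) s id z) = (Q.graft G).hf (emb (inl f) s ss z) := by
      rw [graft_fg_hf]
      rcases z with z | (_ | n) <;> rfl
    refine Prod.ext (Subtype.ext ?_) ?_
    · exact congrArg Prod.fst h3
    · change ((Q.fg.graft G).hf (emb (inl f) s id z)).2 + _ =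
        ((Q.graft G).hf (emb (inl f) s ss z)).2 + _
      rw [h3]
      rfl

lemma plus_graft_bump (Q : Env R T L N) (J : Set L) (G : Gr V E (Option {x // x ∉ J}))
    (hal : Q.Allowed J) : (Q.plus J).graft G.bump = ((Q.plus J).graft G).bump := by
  apply Gr.ext'
  · rintro (v | r)
    · change ((Q.plus J).graft G.bump).dec (inl v) = ((Q.plus J).graft G).dec (inl v)
      rw [Env.graft_dec_inl, Env.graft_dec_inl]
      congr 2
      unfold Env.unused
      apply finsum_congr
      rintro (_ | x)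
      · rw [finsum_eq_if, finsum_eq_if, if_neg, if_neg]
        · rintro ⟨h, _⟩
          exact h ⟨inr none, rfl⟩
        · rintro ⟨h, _⟩
          exact h ⟨inr none, rfl⟩
      · rw [G.bump_ne (by simp)]
    · rfl
  · intro z
    rcases graft_cases z with ⟨e, s, rfl⟩ | ⟨z, rfl⟩
    · rfl
    · rcases oldz_cases z with rfl | ⟨z, rfl⟩
      · rw [graft_hf_lft, Env.usehf_inl (plus_use_none Q J), G.bump_none]
        have h1 : lft E (inr none : (T × Bool) ⊕ Option N) = inr none := rfl
        rw [h1, Gr.bump_none, ← h1, graft_hf_lft, Env.usehf_inl (plus_use_none Q J)]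
        simp only
        congr 1
      · have h1 : lft E (oldz z : (T × Bool) ⊕ Option N) ≠ inr none := by
          rcases z with z | z
          · simp [lft, oldz]
          · simp [lft, oldz]
        rw [Gr.bump_ne _ h1, graft_hf_lft, graft_hf_lft]
        rcases hz : Q.use z with x | p
        · obtain ⟨hx, h2⟩ := hal.plus_use_inl hz
          rw [Env.usehf_inl h2, Env.usehf_inl h2, G.bump_ne (by simp)]
        · rw [Env.usehf_inr (plus_use_inr hz), Env.usehf_inr (plus_use_inr hz)]

lemma tailAt_congr {G : Gr V E L} {w : V} {f : E} {s : Bool} {h c : ℕ} {J J' : Set L}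
    (hJ : J = J') (H : G.TailAt w f s (Subtype.val : {x // x ∉ J} → L) h c) :
    G.TailAt w f s (Subtype.val : {x // x ∉ J'} → L) h c := by
  subst hJ
  exact H

lemma Jp_eq [Finite L] (H : Q.RelLegs x1 x2) {J : Finset L} (hJ : J ⊆ Q.US) {S : Set L}
    (hS : S = Jp x1 x2 J) (x : L) : x ∈ J ↔ x ∈ Q.US ∧ x ∈ S := by
  constructor
  · intro h
    exact ⟨hJ h, by rw [hS]; exact Or.inl h⟩
  · rintro ⟨h1, h2⟩
    rw [hS] at h2
    rcases h2 with h2 | rfl | rfl
    · exact h2
    · exact absurd ⟨_, H.u1⟩ (mem_US.1 h1).1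
    · exact absurd ⟨_, H.u2⟩ (mem_US.1 h1).1

lemma mterm_inl_of [Finite L] {g : ℕ} (H : Q.RelLegs x1 x2) (G : Gr V E L) {w : V} {f : E}
    {s : Bool} {J : Finset L} (hJ : J ⊆ Q.US)
    (HT : G.TailAt w f s (Subtype.val : {x // x ∉ Jp x1 x2 J} → L) 0 0) :
    mterm g (Q.graft G) (inl f, s) = (J.card.factorial : ℚ) • psi0 g Q.fg G w f s (Jp x1 x2 J) := by
  have hal := H.allowed hJ
  have ht0 := isTail_graft_inl hal (Nat.zero_le _) HT
  have hw := HT.cd.hw
  have k1 : ∀ x ∈ Jp x1 x2 J, G.hf (inr x) = ((G.hf (inl (f, s))).1, 0) := by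
    intro x hx
    refine Prod.ext ?_ (HT.leg x ((range_val _ x).2 hx))
    rw [hw]
    exact (HT.mem_iff x).2 hx
  have ht : MT (Q.graft G) (inl f, s) := (H.mt_iff G f s).2
    ⟨ht0, HT.exp, k1 x1 (Or.inr (Or.inl rfl)), k1 x2 (Or.inr (Or.inr rfl))⟩
  rw [mterm_of ht, psi0, dif_pos HT, plus_graft_bump _ _ _ hal, mk_iso (hal.iso HT ht0).bump,
    H.cut_eq G f s ht ht0]
  congr 3
  rw [Env.graft_hf_inl, hw, Env.graft_dec_inl, HT.dec]
  simp only
  rw [zero_add, card_unused, ← Nat.card_eq_finsetCard]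
  apply Nat.card_congr
  refine Equiv.subtypeEquivRight fun x => ?_
  rw [HT.mem_iff]
  constructor
  · rintro ⟨h1, h2⟩
    rcases h2 with h2 | rfl | rfl
    · exact h2
    · exact absurd ⟨_, H.u1⟩ h1
    · exact absurd ⟨_, H.u2⟩ h1
  · intro h
    exact ⟨(mem_US.1 (hJ h)).1, Or.inl h⟩

lemma mterm_inl_eq_sum [Finite L] {g : ℕ} [Fintype V] (H : Q.RelLegs x1 x2)
    (G : Gr V E L) (h0 : ∀ v, 0 ∉ (G.dec v).2) (f : E) (s : Bool) :
    mterm g (Q.graft G) (inl f, s) = ∑ w : V, ∑ J ∈ Q.US.powerset,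
      (J.card.factorial : ℚ) • psi0 g Q.fg G w f s (Jp x1 x2 J) := by
  by_cases ht : MT (Q.graft G) (inl f, s)
  · obtain ⟨ht0, h3, h4, h5⟩ := (H.mt_iff G f s).1 ht
    obtain ⟨hal, _, HT⟩ := isTail_graft_inl_of h0 ht0
    set w := (G.hf (inl (f, s))).1 with hw
    have hset : {x | (G.hf (inr x)).1 = w} =
        Jp x1 x2 (Q.US.filter fun x => (G.hf (inr x)).1 = w) := by
      ext x
      constructor
      · intro hx
        have h6 := hal x hx
        by_cases h7 : x = x1
        · exact Or.inr (Or.inl h7)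
        · by_cases h8 : x = x2
          · exact Or.inr (Or.inr h8)
          · left
            rw [Finset.mem_filter, mem_US]
            refine ⟨⟨?_, h6.2⟩, hx⟩
            intro h9
            rcases (H.range x).1 h9 with h | h | h
            · exact h7 h
            · exact h8 h
            · exact h6.1 h
      · rintro (hx | rfl | rfl)
        · exact (Finset.mem_filter.1 hx).2
        · show (G.hf (inr x)).1 = w
          rw [h4]
        · show (G.hf (inr x)).1 = w
          rw [h5]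
    rw [h3] at HT
    have HT' := tailAt_congr hset HT
    rw [Finset.sum_eq_single w, Finset.sum_eq_single (Q.US.filter fun x => (G.hf (inr x)).1 = w),
      mterm_inl_of H G (Finset.filter_subset _ _) HT']
    · intro J hJ hne
      rw [Finset.mem_powerset] at hJ
      rw [psi0, dif_neg, smul_zero]
      intro H2
      apply hne
      ext x
      have h6 : {x | (G.hf (inr x)).1 = w} = Jp x1 x2 J := by
        ext x
        exact H2.mem_iff x
      rw [Jp_eq H hJ h6, Finset.mem_filter]
      rfl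
    · intro h
      exact absurd (Finset.mem_powerset.2 (Finset.filter_subset _ _)) h
    · intro w' _ hne
      apply Finset.sum_eq_zero
      intro J _
      rw [psi0, dif_neg, smul_zero]
      intro H2
      exact hne H2.cd.hw.symm
    · intro h
      exact absurd (Finset.mem_univ _) h
  · rw [mterm_not ht]
    symm
    apply Finset.sum_eq_zero
    intro w _
    apply Finset.sum_eq_zero
    intro J hJ
    rw [Finset.mem_powerset] at hJ
    rw [psi0, dif_neg, smul_zero]
    intro HT
    apply ht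
    have hal := H.allowed hJ
    have k1 : ∀ x ∈ Jp x1 x2 J, G.hf (inr x) = ((G.hf (inl (f, s))).1, 0) := by
      intro x hx
      refine Prod.ext ?_ (HT.leg x ((range_val _ x).2 hx))
      rw [HT.cd.hw]
      exact (HT.mem_iff x).2 hx
    exact (H.mt_iff G f s).2 ⟨isTail_graft_inl hal (Nat.zero_le _) HT, HT.exp,
      k1 x1 (Or.inr (Or.inl rfl)), k1 x2 (Or.inr (Or.inr rfl))⟩

/-- No such half-edge in the environment. -/
lemma mixed_absurd0 [Finite V] [Finite E] [Finite L] (H : Q.RelLegs x1 x2) {G : Gr V E L}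
    {γ d : ℕ} {A : L → ℕ} (hd : 1 ≤ d) (hw : wt G γ A d ≠ 0) {y : T × Bool}
    (ht : MT (Q.graft G) (inr y.1, y.2)) : False := by
  obtain ⟨⟨_, hS2, _, _⟩, hdeg, _⟩ := wt_ne_zero hw
  have h2 := ht.kap
  have h3 := ht.e0
  have h4 := ht.l1
  have h5 := ht.l2
  have h6 := ht.only
  have e1 : (Q.graft G).hf (inl (inr y.1, y.2)) = (inl (G.hf (inr x1)).1, 0) := by
    rw [H.hf1] at h4
    refine Prod.ext ?_ h3
    exact (congrArg Prod.fst h4).symm
  rw [e1] at h2 h4 h5 h6
  rw [Env.graft_dec_inl] at h2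
  rw [H.hf1] at h4
  rw [H.hf2] at h5
  simp only at h2 h6
  set w := (G.hf (inr x1)).1 with hwdef
  have k5 : ∀ e s, (G.hf (inl (e, s))).1 ≠ w := by
    intro e s h7
    have := h6 (inl (inl e, s)) (by rw [Env.graft_hf_inl, h7])
    simp at this
  have k6 : ∀ v, v = w := by
    rcases hS2 {w} (by intro e; simp [k5]) with h | h
    · exact absurd h (Set.singleton_ne_empty w)
    · intro v
      have : v ∈ ({w} : Set V) := by rw [h]; trivial
      exact this
  have k7 : IsEmpty E := ⟨fun e => k5 e true (k6 _)⟩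
  have k8 : Unique V := ⟨⟨w⟩, k6⟩
  have k10 : Nat.card E = 0 := Nat.card_of_isEmpty
  have k12 : ∑ᶠ v, (G.dec v).2.sum = 0 := by
    rw [finsum_unique, k6 default]
    apply Multiset.sum_eq_zero
    intro k hk
    exact h2 k (Multiset.mem_add.2 (Or.inl hk))
  have k13 : ∀ x, (G.hf (inr x)).2 = 0 := by
    intro x
    by_cases hused : inl x ∈ Set.range Q.use
    · obtain ⟨z, hz⟩ := hused
      have h14 := h6 (lft E z) (by
        rw [graft_hf_lft, Env.usehf_inl hz]
        simp only
        rw [k6 (G.hf (inr x)).1])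
      have h15 : ((Q.graft G).hf (lft E z)).2 = 0 := by
        rcases h14 with h | h | h
        · rw [h, e1]
        · rw [h, H.hf1]
          exact congrArg Prod.snd h4
        · rw [h, H.hf2]
          exact congrArg Prod.snd h5
      rw [graft_hf_lft, Env.usehf_inl hz] at h15
      simp only at h15
      omega
    · have := h2 _ (Multiset.mem_add.2 (Or.inr (mem_unused.2 ⟨x, hused, k6 _, rfl⟩)))
      omega
  have k16 : ∑ᶠ y, (G.hf y).2 = 0 := by
    apply finsum_eq_zero_of_forall_eq_zero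
    rintro (z | x')
    · exact (k7.false z.1).elim
    · exact k13 x'
  unfold Gr.deg at hdeg
  rw [k10, k12, k16] at hdeg
  omega

end Vale.Agent.P273
end
end
end

section

section

noncomputable section

namespace Vale.Agent.P273

open Sum
open scoped Classical

variable {V E L L' N R T : Type} {Q : Env R T L (Option (Option N))} {x1 x2 : L}

lemma mem_Jp1 (J : Finset L) : x1 ∈ Jp x1 x2 J := Or.inr (Or.inl rfl)

lemma mem_Jp2 (J : Finset L) : x2 ∈ Jp x1 x2 J := Or.inr (Or.inr rfl)

/-- Contribution of the labelled graphs with `k` vertices and `m` edges. -/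
lemma rel_part [Finite L] [Finite N] [Finite T] {g : ℕ} (H : Q.RelLegs x1 x2) (γ : ℕ) (A : L → ℕ)
    (d k m : ℕ) (hd : 1 ≤ d) :
    ∑ G ∈ (finite_wt_km γ d A k m).toFinset, wt G γ A d • mrgG g (Q.graft G) =
      ∑ J ∈ Q.US.powerset, (J.card.factorial : ℚ) •
        (PhiC g (Q.fg.plus (Jp x1 x2 J)) γ (AM A (Jp x1 x2 J)) d (· = 0) (Fin k) (Fin m) +
        ∑ y : Fin m × Bool, ∑ w : Fin k, PhiC g (Q.fg.plus (Jp x1 x2 J)) γ (AM A (Jp x1 x2 J)) d
          (· ≠ 0) {v // v ≠ w} {e // e ≠ y.1}) := by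
  have := Fintype.ofFinite T
  have hS : ∀ G : Gr (Fin k) (Fin m) L, wt G γ A d ≠ 0 →
      G ∈ (finite_wt_km γ d A k m).toFinset := by
    intro G hG
    rw [Set.Finite.mem_toFinset]
    exact hG
  have h1 : ∀ G ∈ (finite_wt_km γ d A k m).toFinset, wt G γ A d • mrgG g (Q.graft G) =
      ∑ J ∈ Q.US.powerset, (J.card.factorial : ℚ) •
        (wt G γ A d • mu g Q.fg (Jp x1 x2 J) x1 G) -
      ∑ y : Fin m × Bool, ∑ w : Fin k, ∑ J ∈ Q.US.powerset, (J.card.factorial : ℚ) •
        (wt G γ A d • psi0 g Q.fg G w y.1 y.2 (Jp x1 x2 J)) := by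
    intro G hG
    rw [Set.Finite.mem_toFinset] at hG
    have h0 := (wt_ne_zero hG).2.2
    rw [mrgG, relLegs_main H G h0, smul_sub, Finset.smul_sum]
    congr 1
    · apply Finset.sum_congr rfl
      intro J _
      rw [smul_comm]
    · rw [finsum_eq_sum_of_fintype, ← Equiv.sum_comp (Equiv.sumProdDistrib _ T Bool).symm,
        Fintype.sum_sum_type, smul_add, Finset.smul_sum]
      have h2 : ∑ y : T × Bool, mterm g (Q.graft G)
          ((Equiv.sumProdDistrib (Fin m) T Bool).symm (inr y)) = 0 := by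
        apply Finset.sum_eq_zero
        intro y _
        apply mterm_not
        intro ht
        exact mixed_absurd0 H hd hG (y := y) ht
      rw [h2, smul_zero, add_zero]
      apply Finset.sum_congr rfl
      intro y _
      have h3 := mterm_inl_eq_sum (g := g) H G h0 y.1 y.2
      have h4 : mterm g (Q.graft G) ((Equiv.sumProdDistrib (Fin m) T Bool).symm (inl y)) =
        mterm g (Q.graft G) (inl y.1, y.2) := rfl
      rw [h4, h3, Finset.smul_sum]
      apply Finset.sum_congr rfl
      intro w _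
      rw [Finset.smul_sum]
      apply Finset.sum_congr rfl
      intro J _
      rw [smul_comm]
  rw [Finset.sum_congr rfl h1, Finset.sum_sub_distrib, Finset.sum_comm]
  have h5 : ∀ J ∈ Q.US.powerset, ∑ G ∈ (finite_wt_km γ d A k m).toFinset,
      (J.card.factorial : ℚ) • (wt G γ A d • mu g Q.fg (Jp x1 x2 J) x1 G) =
      (J.card.factorial : ℚ) •
        PhiC g (Q.fg.plus (Jp x1 x2 J)) γ (AM A (Jp x1 x2 J)) d (· = 0) (Fin k) (Fin m) := by
    intro J hJ
    rw [Finset.mem_powerset] at hJ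
    rw [← Finset.smul_sum, sum_mu Q.fg (fg_inj H.inj) (H.allowed hJ) (mem_Jp1 J) γ A d _ hS]
  rw [Finset.sum_congr rfl h5, Finset.sum_comm]
  have h6 : ∀ (y : Fin m × Bool), ∑ G ∈ (finite_wt_km γ d A k m).toFinset, ∑ w : Fin k,
      ∑ J ∈ Q.US.powerset, (J.card.factorial : ℚ) •
        (wt G γ A d • psi0 g Q.fg G w y.1 y.2 (Jp x1 x2 J)) =
      -∑ w : Fin k, ∑ J ∈ Q.US.powerset, (J.card.factorial : ℚ) •
        PhiC g (Q.fg.plus (Jp x1 x2 J)) γ (AM A (Jp x1 x2 J)) d (· ≠ 0) {v // v ≠ w}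
          {e // e ≠ y.1} := by
    intro y
    rw [Finset.sum_comm, ← Finset.sum_neg_distrib]
    apply Finset.sum_congr rfl
    intro w _
    rw [Finset.sum_comm, ← Finset.sum_neg_distrib]
    apply Finset.sum_congr rfl
    intro J _
    rw [← Finset.smul_sum, sum_psi0 Q.fg w y.1 y.2 (mem_Jp1 J) (mem_Jp2 J) H.ne γ A d _ hS,
      smul_neg]
  rw [Finset.sum_congr rfl fun y _ => h6 y, Finset.sum_neg_distrib, sub_neg_eq_add]
  simp only [smul_add, Finset.sum_add_distrib]
  congr 1
  simp only [Finset.smul_sum]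
  symm
  rw [Finset.sum_comm]
  apply Finset.sum_congr rfl
  intro y _
  rw [Finset.sum_comm]

lemma PhiC_zero {N' : Type} [Finite L'] (g : ℕ) (Q : Env R T (Option L') N') (γ : ℕ)
    (A : Option L' → ℕ) (d k m : ℕ) (h : d ≤ m ∨ d + 1 ≤ k) :
    PhiC g Q γ A d (· ≠ 0) (Fin k) (Fin m) = 0 := by
  unfold PhiC
  apply finsum_eq_zero_of_forall_eq_zero
  intro G
  by_cases h1 : (G.hf (inr none)).2 ≠ 0
  · rw [phiT_pos h1]
    have h2 : wt G γ A d = 0 := by
      by_contra hw
      obtain ⟨hst, hdeg, _⟩ := wt_ne_zero hw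
      have h3 := hst.conn_card
      rw [Nat.card_fin, Nat.card_fin] at h3
      have h4 : (G.hf (inr none)).2 ≤ ∑ᶠ y, (G.hf y).2 := by
        have := Fintype.ofFinite L'
        rw [finsum_eq_sum_of_fintype]
        exact Finset.single_le_sum (f := fun y => (G.hf y).2) (fun _ _ => Nat.zero_le _)
          (Finset.mem_univ _)
      unfold Gr.deg at hdeg
      rw [Nat.card_fin] at hdeg
      omega
    rw [h2, zero_smul]
  · rw [phiT_neg h1]

/-- The image of a relation under the merging of two of its legs. -/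
theorem mrg_rel [Finite L] [Finite N] [Finite T] {g : ℕ} (H : Q.RelLegs x1 x2) (γ : ℕ) (A : L → ℕ)
    (d : ℕ) (hd : 1 ≤ d) : mrg g N (Q.pix γ A d) = ∑ J ∈ Q.US.powerset, (J.card.factorial : ℚ) •
      mk g (Option N) ((Q.fg.plus (Jp x1 x2 J)).pix γ (AM A (Jp x1 x2 J)) d) := by
  have h1 : mrg g N (Q.pix γ A d) = ∑ k ∈ Finset.range (d + 2), ∑ m ∈ Finset.range (d + 1),
      (1 / ((k.factorial : ℚ) * m.factorial * 2 ^ m)) •
      ∑ G ∈ (finite_wt_km γ d A k m).toFinset, wt G γ A d • mrgG g (Q.graft G) := by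
    rw [Env.pix_eq_sum, map_sum, supp, Finset.sum_sigma]
    apply Finset.sum_congr rfl
    intro k _
    rw [Finset.sum_sigma]
    apply Finset.sum_congr rfl
    intro m _
    rw [Finset.smul_sum]
    apply Finset.sum_congr rfl
    intro G _
    rw [mrg_dl, smul_smul]
    congr 1
    simp only
    ring
  rw [h1]
  have h2 : ∀ k ∈ Finset.range (d + 2), ∀ m ∈ Finset.range (d + 1),
      (1 / ((k.factorial : ℚ) * m.factorial * 2 ^ m)) •
      ∑ G ∈ (finite_wt_km γ d A k m).toFinset, wt G γ A d • mrgG g (Q.graft G) =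
      ∑ J ∈ Q.US.powerset, (J.card.factorial : ℚ) •
        ((1 / ((k.factorial : ℚ) * m.factorial * 2 ^ m)) •
          PhiC g (Q.fg.plus (Jp x1 x2 J)) γ (AM A (Jp x1 x2 J)) d (· = 0) (Fin k) (Fin m) +
        (1 / ((k.factorial : ℚ) * m.factorial * 2 ^ m)) • ∑ y : Fin m × Bool, ∑ w : Fin k,
          PhiC g (Q.fg.plus (Jp x1 x2 J)) γ (AM A (Jp x1 x2 J)) d
          (· ≠ 0) {v // v ≠ w} {e // e ≠ y.1}) := by
    intro k _ m _
    rw [rel_part H γ A d k m hd, Finset.smul_sum]
    apply Finset.sum_congr rfl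
    intro J _
    rw [smul_comm, smul_add]
  rw [Finset.sum_congr rfl fun k hk => Finset.sum_congr rfl fun m hm => h2 k hk m hm]
  have h3 : ∑ k ∈ Finset.range (d + 2), ∑ m ∈ Finset.range (d + 1), ∑ J ∈ Q.US.powerset,
      (J.card.factorial : ℚ) • ((1 / ((k.factorial : ℚ) * m.factorial * 2 ^ m)) •
          PhiC g (Q.fg.plus (Jp x1 x2 J)) γ (AM A (Jp x1 x2 J)) d (· = 0) (Fin k) (Fin m) +
        (1 / ((k.factorial : ℚ) * m.factorial * 2 ^ m)) • ∑ y : Fin m × Bool, ∑ w : Fin k,
          PhiC g (Q.fg.plus (Jp x1 x2 J)) γ (AM A (Jp x1 x2 J)) d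
          (· ≠ 0) {v // v ≠ w} {e // e ≠ y.1}) =
      ∑ J ∈ Q.US.powerset, (J.card.factorial : ℚ) • ∑ k ∈ Finset.range (d + 2),
        ∑ m ∈ Finset.range (d + 1), ((1 / ((k.factorial : ℚ) * m.factorial * 2 ^ m)) •
          PhiC g (Q.fg.plus (Jp x1 x2 J)) γ (AM A (Jp x1 x2 J)) d (· = 0) (Fin k) (Fin m) +
        (1 / ((k.factorial : ℚ) * m.factorial * 2 ^ m)) • ∑ y : Fin m × Bool, ∑ w : Fin k,
          PhiC g (Q.fg.plus (Jp x1 x2 J)) γ (AM A (Jp x1 x2 J)) d
          (· ≠ 0) {v // v ≠ w} {e // e ≠ y.1}) := by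
    simp only [Finset.smul_sum]
    symm
    rw [Finset.sum_comm]
    apply Finset.sum_congr rfl
    intro k _
    rw [Finset.sum_comm]
  rw [h3]
  apply Finset.sum_congr rfl
  intro J _
  congr 1
  rw [mk_pix]
  simp only [Finset.sum_add_distrib, ← PhiC_add, smul_add]
  congr 1
  -- the shift
  set P1 : ℕ → ℕ → Sq g (Option N) := fun k m =>
    PhiC g (Q.fg.plus (Jp x1 x2 J)) γ (AM A (Jp x1 x2 J)) d (· ≠ 0) (Fin k) (Fin m) with hP1
  have h4 : ∀ k m, (1 / (((k + 1).factorial : ℚ) * (m + 1).factorial * 2 ^ (m + 1))) •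
      ∑ y : Fin (m + 1) × Bool, ∑ w : Fin (k + 1),
        PhiC g (Q.fg.plus (Jp x1 x2 J)) γ (AM A (Jp x1 x2 J)) d (· ≠ 0) {v // v ≠ w}
          {e // e ≠ y.1} = (1 / ((k.factorial : ℚ) * m.factorial * 2 ^ m)) • P1 k m := by
    intro k m
    have h5 : ∀ (y : Fin (m + 1) × Bool) (w : Fin (k + 1)),
        PhiC g (Q.fg.plus (Jp x1 x2 J)) γ (AM A (Jp x1 x2 J)) d (· ≠ 0) {v // v ≠ w}
          {e // e ≠ y.1} = P1 k m := by
      intro y w
      exact PhiC_congr g _ γ _ d _ (finSuccAboveEquiv w).symm (finSuccAboveEquiv y.1).symm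
    rw [Finset.sum_congr rfl fun y _ => Finset.sum_congr rfl fun w _ => h5 y w]
    rw [Finset.sum_const, Finset.sum_const]
    simp only [← Nat.cast_smul_eq_nsmul ℚ]
    rw [smul_smul, smul_smul]
    congr 1
    rw [Finset.card_univ, Finset.card_univ, Fintype.card_prod, Fintype.card_fin, Fintype.card_fin,
      Fintype.card_bool, Nat.factorial_succ, Nat.factorial_succ, pow_succ]
    have hk : (k.factorial : ℚ) ≠ 0 := Nat.cast_ne_zero.2 (Nat.factorial_ne_zero k)
    have hm : (m.factorial : ℚ) ≠ 0 := Nat.cast_ne_zero.2 (Nat.factorial_ne_zero m)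
    push_cast
    (clear * - hm hk; field_simp)
  rw [Finset.sum_range_succ']
  have h6 : ∑ m ∈ Finset.range (d + 1), (1 / (((0 : ℕ).factorial : ℚ) * m.factorial * 2 ^ m)) •
      ∑ y : Fin m × Bool, ∑ w : Fin 0,
        PhiC g (Q.fg.plus (Jp x1 x2 J)) γ (AM A (Jp x1 x2 J)) d (· ≠ 0) {v // v ≠ w}
          {e // e ≠ y.1} = 0 := by
    apply Finset.sum_eq_zero
    intro m _
    simp only [Nat.factorial_zero, Nat.cast_one, one_mul, one_div, mul_inv_rev, Finset.univ_eq_empty, ne_eq, Finset.sum_empty, Finset.sum_const_zero, smul_zero]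
  rw [h6, add_zero]
  have h7 : ∀ k ∈ Finset.range (d + 1), ∑ m ∈ Finset.range (d + 1),
      (1 / (((k + 1).factorial : ℚ) * m.factorial * 2 ^ m)) • ∑ y : Fin m × Bool,
        ∑ w : Fin (k + 1), PhiC g (Q.fg.plus (Jp x1 x2 J)) γ (AM A (Jp x1 x2 J)) d (· ≠ 0)
          {v // v ≠ w} {e // e ≠ y.1} =
      ∑ m ∈ Finset.range d, (1 / ((k.factorial : ℚ) * m.factorial * 2 ^ m)) • P1 k m := by
    intro k _
    rw [Finset.sum_range_succ']
    have h8 : (1 / (((k + 1).factorial : ℚ) * (0 : ℕ).factorial * 2 ^ 0)) •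
      ∑ y : Fin 0 × Bool, ∑ w : Fin (k + 1), PhiC g (Q.fg.plus (Jp x1 x2 J)) γ
        (AM A (Jp x1 x2 J)) d (· ≠ 0) {v // v ≠ w} {e // e ≠ y.1} = 0 := by simp only [Nat.factorial_zero, Nat.cast_one, mul_one, pow_zero, one_div, Finset.univ_eq_empty, ne_eq, Finset.sum_empty, smul_zero]
    rw [h8, add_zero]
    exact Finset.sum_congr rfl fun m _ => h4 k m
  rw [Finset.sum_congr rfl h7, Finset.sum_range_succ _ (d + 1)]
  have h9 : ∑ m ∈ Finset.range (d + 1), (1 / (((d + 1).factorial : ℚ) * m.factorial * 2 ^ m)) •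
      P1 (d + 1) m = 0 := by
    apply Finset.sum_eq_zero
    intro m _
    rw [hP1]
    simp only
    rw [PhiC_zero _ _ _ _ _ _ _ (Or.inr le_rfl), smul_zero]
  rw [h9, add_zero]
  apply Finset.sum_congr rfl
  intro k _
  rw [Finset.sum_range_succ]
  have h10 := PhiC_zero g (Q.fg.plus (Jp x1 x2 J)) γ (AM A (Jp x1 x2 J)) d k d (Or.inl le_rfl)
  rw [h10, smul_zero, add_zero]

lemma AM_le {A : L → ℕ} (hA : ∀ x, A x ≤ 1) (J : Set L) (x : Option {x // x ∉ J}) :
    AM A J x ≤ 1 := by
  rcases x with _ | x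
  · change parM A J ≤ 1
    unfold parM
    split_ifs <;> omega
  · exact hA x.1

lemma sum_AM [Finite L] (A : L → ℕ) (J : Set L) : ∑ᶠ x, AM A J x ≤ ∑ᶠ x, A x := by
  have := Fintype.ofFinite L
  rw [finsum_eq_sum_of_fintype, finsum_eq_sum_of_fintype, Fintype.sum_option,
    ← Fintype.sum_subtype_add_sum_subtype (fun x => x ∉ J) A, add_comm]
  apply add_le_add
  · exact le_rfl
  · change parM A J ≤ _
    unfold parM
    rw [finsum_eq_sum_of_fintype]
    split_ifs with h
    · exact Nat.zero_le _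
    · have := Nat.odd_iff.1 (Nat.not_even_iff_odd.1 h)
      omega

/-- Merging two legs preserves Pixton's span. -/
theorem mrg_P_mem [Finite L] {g : ℕ} {x : F (Option (Option L))} (hx : P g x) :
    mrg g L x ∈ Pbar g (Option L) := by
  induction hx with
  | triv x h =>
    rw [mrg_triv h]
    exact Submodule.zero_mem _
  | @pix R T L' Q γ d A hR hT hL hQ hA hγ =>
    rcases h1 : Q.use (inr none) with x1 | p
    · rcases h2 : Q.use (inr (some none)) with x2 | q
      · by_cases hb : Q.b x1 = 0 ∧ Q.b x2 = 0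
        · have H : Q.RelLegs x1 x2 := ⟨hQ, h1, h2, hb.1, hb.2⟩
          rw [mrg_rel H γ A d (by omega)]
          apply Submodule.sum_mem
          intro J hJ
          rw [Finset.mem_powerset] at hJ
          apply Submodule.smul_mem
          rw [mk_mem_Pbar]
          refine P.pix _ γ d _ hR hT inferInstance ((H.allowed hJ).plus_inj (fg_inj hQ))
            (AM_le hA _) ?_
          have := sum_AM A (Jp x1 x2 J)
          omega
        · rw [mrg_pix_zero Q γ d A]
          · exact Submodule.zero_mem _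
          · intro k m G
            rw [Env.graft_hf_leg, Env.graft_hf_leg, Env.usehf_inl h1, Env.usehf_inl h2]
            by_contra hcon
            push Not at hcon
            obtain ⟨h3, h4⟩ := hcon
            simp only [Prod.mk.injEq] at h3 h4
            omega
      · rw [mrg_pix_zero Q γ d A]
        · exact Submodule.zero_mem _
        · intro k m G
          rw [Env.graft_hf_leg, Env.graft_hf_leg, Env.usehf_inl h1, Env.usehf_inr h2]
          left
          simp
    · rcases h2 : Q.use (inr (some none)) with x2 | q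
      · rw [mrg_pix_zero Q γ d A]
        · exact Submodule.zero_mem _
        · intro k m G
          rw [Env.graft_hf_leg, Env.graft_hf_leg, Env.usehf_inr h1, Env.usehf_inl h2]
          left
          simp
      · exact mrg_env_mem Q hQ γ d A hA hγ h1 h2
  | lin x y c _ _ ih1 ih2 =>
    rw [map_add, map_smul]
    exact Submodule.add_mem _ ih1 (Submodule.smul_mem _ _ ih2)

end Vale.Agent.P273
end
end
end

section

section

/-! Words with insertion of repeated letters. -/

noncomputable section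
namespace Vale.Agent.P273.Noe
open scoped Classical

variable {C A : Type}

lemma wqo_words {T : Set C} (hT : T.Finite) {s : Set A} (hs : s.Finite) (y : ℕ → C × List A)
    (h : ∀ i, (y i).1 ∈ T ∧ ∀ x ∈ (y i).2, x ∈ s) :
    ∃ i j, i < j ∧ (y i).1 = (y j).1 ∧ (y i).2.Sublist (y j).2 := by
  have h1 : T.PartiallyWellOrderedOn (fun a b => a = b) := hT.partiallyWellOrderedOn
  have h2 : s.PartiallyWellOrderedOn (fun a b => a = b) := hs.partiallyWellOrderedOn
  have : IsPreorder A (fun a b => a = b) :=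
    { refl := fun _ => rfl, trans := fun _ _ _ h h' => h.trans h' }
  have h3 := Set.PartiallyWellOrderedOn.partiallyWellOrderedOn_sublistForall₂
    (fun a b : A => a = b) h2
  obtain ⟨i, j, hij, h4, h5⟩ := (h1.prod h3).exists_lt (f := y)
    (fun i => ⟨(h i).1, (h i).2⟩)
  refine ⟨i, j, hij, h4, ?_⟩
  rw [List.sublistForall₂_iff] at h5
  obtain ⟨l, h6, h7⟩ := h5
  have h8 : (y i).2 = l := by
    have := List.forall₂_eq_eq_eq (α := A)
    rw [← this]
    exact h6
  rw [h8]
  exact h7

/-- `w'` is obtained from `w` by repeating an idle letter at a later place -/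
def Ins (idle : A → Prop) {n : ℕ} (w : Fin n → A) (w' : Fin (n + 1) → A) : Prop :=
  ∃ (a : Fin n) (b : Fin (n + 1)), a.castSucc < b ∧ idle (w a) ∧
    w' = Fin.insertNth (α := fun _ => A) b (w a) w

/-- `w'` is obtained from `w` by repeating idle letters -/
def Emb (idle : A → Prop) {n m : ℕ} (w : Fin n → A) (w' : Fin m → A) : Prop :=
  ∃ φ : Fin n ↪o Fin m, (∀ p, w' (φ p) = w p) ∧
    ∀ q, q ∉ Set.range φ → idle (w' q) ∧ ∃ q' < q, w' q' = w' q

lemma emb_step {idle : A → Prop} {n m : ℕ} {w : Fin n → A} {w' : Fin (m + 1) → A}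
    (h : Emb idle w w') (hnm : n ≤ m) :
    ∃ w'' : Fin m → A, Emb idle w w'' ∧ Ins idle w'' w' := by
  obtain ⟨φ, h1, h2⟩ := h
  obtain ⟨b, hb⟩ : ∃ b, b ∉ Set.range φ := by
    by_contra hcon
    push Not at hcon
    have h3 : Function.Surjective φ := hcon
    have h4 := Fintype.card_le_of_surjective φ h3
    rw [Fintype.card_fin, Fintype.card_fin] at h4
    omega
  obtain ⟨hid, a, hab, ha⟩ := h2 b hb
  have hab' : a ≠ b := hab.ne
  obtain ⟨a', ha'⟩ := Fin.exists_succAbove_eq hab'
  have ha'' : a'.castSucc = a := by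
    rw [← ha']
    rw [← ha'] at hab
    exact (Fin.succAbove_of_castSucc_lt b a' ((Fin.succAbove_lt_iff_castSucc_lt b a').mp hab)).symm
  refine ⟨fun p => w' (b.succAbove p), ?_, a', b, by rw [ha'']; exact hab, ?_, ?_⟩
  · -- the embedding
    have h5 : ∀ p, φ p ≠ b := fun p hp => hb ⟨p, hp⟩
    choose ψ hψ using fun p => Fin.exists_succAbove_eq (h5 p)
    refine ⟨OrderEmbedding.ofStrictMono ψ ?_, ?_, ?_⟩
    · intro p q hpq
      have h6 : φ p < φ q := φ.strictMono hpq
      rw [← hψ p, ← hψ q] at h6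
      exact (Fin.strictMono_succAbove b).lt_iff_lt.mp h6
    · intro p
      change w' (b.succAbove (ψ p)) = w p
      rw [hψ p, h1]
    · intro q hq
      have h7 : b.succAbove q ∉ Set.range φ := by
        rintro ⟨p, hp⟩
        apply hq
        refine ⟨p, ?_⟩
        change ψ p = q
        rw [← hψ p] at hp
        exact Fin.succAbove_right_injective hp
      obtain ⟨h8, q', hq', h9⟩ := h2 _ h7
      refine ⟨h8, ?_⟩
      by_cases hqb : q' = b
      · subst hqb
        refine ⟨a', ?_, ?_⟩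
        · have h10 : q'.succAbove a' < q'.succAbove q := by
            rw [ha']
            exact hab.trans hq'
          exact (Fin.strictMono_succAbove q').lt_iff_lt.mp h10
        · change w' (q'.succAbove a') = _
          rw [ha', ha, h9]
      · obtain ⟨r, hr⟩ := Fin.exists_succAbove_eq hqb
        refine ⟨r, ?_, ?_⟩
        · rw [← hr] at hq'
          exact (Fin.strictMono_succAbove b).lt_iff_lt.mp hq'
        · change w' (b.succAbove r) = _
          rw [hr, h9]
  · change idle (w' (b.succAbove a'))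
    rw [ha', ha]
    exact hid
  · change w' = Fin.insertNth (α := fun _ => A) b (w' (b.succAbove a')) (fun p => w' (b.succAbove p))
    rw [ha', ha]
    exact (Fin.insertNth_self_removeNth b w').symm

lemma emb_eq {idle : A → Prop} {n : ℕ} {w w' : Fin n → A} (h : Emb idle w w') : w' = w := by
  obtain ⟨φ, h1, _⟩ := h
  have h2 : (φ : Fin n → Fin n) = id := by
    apply (StrictMono.range_inj φ.strictMono strictMono_id).mp
    rw [Set.range_id, Set.range_eq_univ]
    exact Finite.surjective_of_injective φ.injective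
  funext p
  rw [← h1 p, h2]
  rfl

/-- closure under repeating idle letters -/
lemma emb_closed {idle : A → Prop} {I : ∀ n, Set (C × (Fin n → A))}
    (h2 : ∀ n c w w', (c, w) ∈ I n → Ins idle w w' → (c, w') ∈ I (n + 1)) {n : ℕ} {c : C}
    {w : Fin n → A} (hw : (c, w) ∈ I n) (k : ℕ) :
    ∀ w' : Fin (n + k) → A, Emb idle w w' → (c, w') ∈ I (n + k) := by
  induction k with
  | zero =>
    intro w' h
    have := emb_eq h
    rw [this]
    exact hw
  | succ k ih =>
    intro w' h
    obtain ⟨w'', h3, h4⟩ := emb_step (m := n + k) h (by omega)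
    exact h2 _ _ _ _ (ih w'' h3) h4

/-- flags: non-idle letters and first occurrences -/
def Flag (idle : A → Prop) {n : ℕ} (w : Fin n → A) (p : Fin n) : Prop :=
  ¬ (idle (w p) ∧ ∃ q < p, w q = w p)

lemma card_flag {idle : A → Prop} {n D : ℕ} {w : Fin n → A} {s : Set A} (hs : s.Finite)
    (h1 : ∀ p, w p ∈ s) (h2 : Nat.card {p // ¬ idle (w p)} ≤ D) :
    Nat.card {p // Flag idle w p} ≤ D + Nat.card s := by
  have := hs.to_subtype
  have h3 : Nat.card {p // Flag idle w p} ≤
      Nat.card ({p // ¬ idle (w p)} ⊕ {p : Fin n // ∀ q < p, w q ≠ w p}) := by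
    apply Nat.card_le_card_of_injective (fun p : {p // Flag idle w p} =>
      if h : idle (w p.1) then Sum.inr ⟨p.1, fun q hq hh => p.2 ⟨h, q, hq, hh⟩⟩
      else Sum.inl ⟨p.1, h⟩)
    intro p p' hpp
    by_cases h : idle (w p.1) <;> by_cases h' : idle (w p'.1) <;>
      simp only [h, h', dif_pos, dif_neg, not_false_eq_true, reduceCtorEq, Sum.inr.injEq,
        Sum.inl.injEq, Subtype.mk.injEq] at hpp
    · exact Subtype.ext hpp
    · exact Subtype.ext hpp
  have h4 : Nat.card {p : Fin n // ∀ q < p, w q ≠ w p} ≤ Nat.card s := by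
    apply Nat.card_le_card_of_injective (fun p => ⟨w p.1, h1 p.1⟩)
    intro p p' hpp
    have h5 : w p.1 = w p'.1 := congrArg Subtype.val hpp
    rcases lt_trichotomy p.1 p'.1 with h | h | h
    · exact absurd h5 (p'.2 _ h)
    · exact Subtype.ext h
    · exact absurd h5.symm (p.2 _ h)
  rw [Nat.card_sum] at h3
  omega

lemma emb_of_sublist {idle : A → Prop} {n m : ℕ} {w : Fin n → A} {w' : Fin m → A}
    (h : (List.ofFn (fun p => (w p, decide (Flag idle w p)))).Sublist
      (List.ofFn (fun p => (w' p, decide (Flag idle w' p)))))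
    (hc : Nat.card {p // Flag idle w p} = Nat.card {p // Flag idle w' p}) : Emb idle w w' := by
  rw [List.sublist_iff_exists_fin_orderEmbedding_get_eq] at h
  obtain ⟨f, hf⟩ := h
  let e1 : Fin n ≃o Fin (List.ofFn (fun p => (w p, decide (Flag idle w p)))).length :=
    Fin.castOrderIso (List.length_ofFn).symm
  let e2 : Fin (List.ofFn (fun p => (w' p, decide (Flag idle w' p)))).length ≃o Fin m :=
    Fin.castOrderIso (List.length_ofFn)
  let φ : Fin n ↪o Fin m := (e1.toOrderEmbedding.trans f).trans e2.toOrderEmbedding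
  have h1 : ∀ p, (w p, decide (Flag idle w p)) = (w' (φ p), decide (Flag idle w' (φ p))) := by
    intro p
    have h2 := hf (e1 p)
    simp only [List.get_ofFn] at h2
    exact h2
  have h3 : ∀ p, w' (φ p) = w p := fun p => (congrArg Prod.fst (h1 p)).symm
  have h4 : ∀ p, Flag idle w p ↔ Flag idle w' (φ p) := by
    intro p
    have := congrArg Prod.snd (h1 p)
    simpa using this
  refine ⟨φ, h3, ?_⟩
  intro q hq
  by_contra hcon
  have h5 : Flag idle w' q := hcon
  have h6 : Function.Injective (fun p : {p // Flag idle w p} =>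
      (⟨φ p.1, (h4 p.1).mp p.2⟩ : {p // Flag idle w' p})) := by
    intro p p' hpp
    exact Subtype.ext (φ.injective (congrArg Subtype.val hpp))
  have h7 := (Nat.bijective_iff_injective_and_card _).mpr ⟨h6, hc⟩
  obtain ⟨p, hp⟩ := h7.2 ⟨q, h5⟩
  exact hq ⟨p.1, congrArg Subtype.val hp⟩

/-- the finiteness statement for words -/
theorem exists_bound (T : Set C) (hT : T.Finite) (s : Set A) (hs : s.Finite) (idle : A → Prop)
    (D : ℕ) (I : ∀ n, Set (C × (Fin n → A)))
    (h1 : ∀ n c w, (c, w) ∈ I n → c ∈ T ∧ (∀ p, w p ∈ s) ∧ Nat.card {p // ¬ idle (w p)} ≤ D)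
    (h2 : ∀ n c w w', (c, w) ∈ I n → Ins idle w w' → (c, w') ∈ I (n + 1)) :
    ∃ n0, ∀ n ≥ n0, ∀ c w', (c, w') ∈ I (n + 1) → ∃ w, (c, w) ∈ I n ∧ Ins idle w w' := by
  by_contra hcon
  push Not at hcon
  have hinf : {n | ∃ c w', (c, w') ∈ I (n + 1) ∧ ∀ w, (c, w) ∈ I n → ¬ Ins idle w w'}.Infinite := by
    apply Set.infinite_of_not_bddAbove
    rintro ⟨B, hB⟩
    obtain ⟨n, hn, c, w', h3, h4⟩ := hcon (B + 1)
    have := hB ⟨c, w', h3, h4⟩
    omega
  have := hinf.to_subtype
  let N : ℕ ↪o ℕ := Nat.orderEmbeddingOfSet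
    {n | ∃ c w', (c, w') ∈ I (n + 1) ∧ ∀ w, (c, w) ∈ I n → ¬ Ins idle w w'}
  have hN : ∀ i, ∃ c w', (c, w') ∈ I (N i + 1) ∧ ∀ w, (c, w) ∈ I (N i) → ¬ Ins idle w w' := by
    intro i
    have h : N i ∈ Set.range N := ⟨i, rfl⟩
    rw [Nat.orderEmbeddingOfSet_range] at h
    exact h
  choose c w' h3 h4 using hN
  obtain ⟨i, j, hij, h5, h6⟩ := wqo_words (T := T ×ˢ Set.Iic (D + Nat.card s))
    (s := s ×ˢ (Set.univ : Set Bool)) (hT.prod (Set.finite_Iic _)) (hs.prod Set.finite_univ)
    (fun i => ((c i, Nat.card {p // Flag idle (w' i) p}),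
      List.ofFn (fun p => (w' i p, decide (Flag idle (w' i) p))))) (by
      intro i
      obtain ⟨h7, h8, h9⟩ := h1 _ _ _ (h3 i)
      refine ⟨⟨h7, card_flag hs h8 h9⟩, ?_⟩
      intro x hx
      rw [List.mem_ofFn] at hx
      obtain ⟨p, rfl⟩ := hx
      exact ⟨h8 p, trivial⟩)
  simp only [Prod.mk.injEq] at h5
  have hemb := emb_of_sublist h6 h5.2
  have hlt : N i < N j := N.strictMono hij
  obtain ⟨w'', h7, h8⟩ := emb_step (m := N j) hemb (by omega)
  obtain ⟨k, hk⟩ := Nat.exists_eq_add_of_le (show N i + 1 ≤ N j by omega)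
  have key : ∀ (m : ℕ) (w'' : Fin m → A), m = N i + 1 + k → Emb idle (w' i) w'' →
      (c i, w'') ∈ I m := by
    rintro m w'' rfl h
    exact emb_closed h2 (h3 i) k w'' h
  apply h4 j w'' _ h8
  rw [← h5.1]
  exact key _ w'' hk h7

end Vale.Agent.P273.Noe
end
end
end

section

section

/-! Labelled graphs, their order, and leading terms. -/

noncomputable section
namespace Vale.Agent.P273
open Sum
open scoped Classical

variable {V E L : Type}

/-! ### leading terms -/

/-- `x` is the leading term of `f` -/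
def IsLead {B : Type} [LinearOrder B] (f : B → ℚ) (x : B) : Prop := f x ≠ 0 ∧ ∀ y, x < y → f y = 0

lemma exists_lead {B : Type} [LinearOrder B] [Finite B] {f : B → ℚ} (hf : f ≠ 0) :
    ∃ x, IsLead f x := by
  have h1 : {x | f x ≠ 0}.Nonempty := by
    by_contra hcon
    rw [Set.not_nonempty_iff_eq_empty] at hcon
    apply hf
    funext x
    by_contra h
    have : x ∈ {x | f x ≠ 0} := h
    rw [hcon] at this
    exact this
  obtain ⟨x, hx, hmax⟩ := Set.exists_max_image {x | f x ≠ 0} id (Set.toFinite _) h1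
  refine ⟨x, hx, ?_⟩
  intro y hy
  by_contra h
  exact absurd (hmax y h) (not_le.mpr hy)

theorem span_of_lead {B : Type} [LinearOrder B] [Finite B] (W : Submodule ℚ (B → ℚ))
    (G : Set (B → ℚ)) (hG : ∀ g ∈ G, g ∈ W)
    (h : ∀ f ∈ W, ∀ x, IsLead f x → ∃ g ∈ G, IsLead g x) :
    ∀ f ∈ W, f ∈ Submodule.span ℚ G := by
  have main : ∀ x : B, ∀ f ∈ W, IsLead f x → f ∈ Submodule.span ℚ G := by
    intro x
    induction x using WellFoundedLT.induction with
    | ind x ih =>
      intro f hf hx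
      obtain ⟨g, hg, hgx⟩ := h f hf x hx
      have hmem : f - (f x / g x) • g ∈ W := W.sub_mem hf (W.smul_mem _ (hG g hg))
      have key : f - (f x / g x) • g ∈ Submodule.span ℚ G := by
        by_cases h0 : f - (f x / g x) • g = 0
        · rw [h0]
          exact Submodule.zero_mem _
        · obtain ⟨y, hy⟩ := exists_lead h0
          apply ih y _ _ hmem hy
          rcases lt_trichotomy y x with h1 | h1 | h1
          · exact h1
          · exfalso
            apply hy.1
            rw [h1]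
            have := hgx.1
            simp only [Pi.sub_apply, Pi.smul_apply, smul_eq_mul]
            field_simp
            ring
          · exfalso
            apply hy.1
            simp only [Pi.sub_apply, Pi.smul_apply, smul_eq_mul]
            rw [hx.2 y h1, hgx.2 y h1]
            ring
      have h2 : f = (f - (f x / g x) • g) + (f x / g x) • g := by abel
      rw [h2]
      exact Submodule.add_mem _ key (Submodule.smul_mem _ _ (Submodule.subset_span hg))
  intro f hf
  by_cases h0 : f = 0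
  · rw [h0]
    exact Submodule.zero_mem _
  · obtain ⟨x, hx⟩ := exists_lead h0
    exact main x f hf hx

/-! ### labelled graphs -/

/-- the core of a labelled graph -/
def Core : Type := Σ k m : ℕ, (Fin k → ℕ × Multiset ℕ) × (Fin m × Bool → Fin k × ℕ)

instance : LinearOrder Core := linearOrderOfSTO (WellOrderingRel (α := Core))

/-- labelled graphs -/
structure LG (n : ℕ) : Type where
  k : ℕ
  m : ℕ
  G : Gr (Fin k) (Fin m) (Fin n)

variable {n : ℕ}

/-- the core -/
def LG.core (x : LG n) : Core := ⟨x.k, x.m, x.G.dec, fun y => x.G.hf (inl y)⟩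

/-- the word of the legs -/
def LG.word (x : LG n) (p : Fin n) : ℕ × ℕ := ((x.G.hf (inr p)).1, (x.G.hf (inr p)).2)

lemma LG.ext' {x y : LG n} (h1 : x.core = y.core) (h2 : x.word = y.word) : x = y := by
  obtain ⟨k, m, ⟨dec, hf⟩⟩ := x
  obtain ⟨k', m', ⟨dec', hf'⟩⟩ := y
  change (⟨k, m, (dec, fun y => hf (inl y))⟩ :
    Σ k m : ℕ, (Fin k → ℕ × Multiset ℕ) × (Fin m × Bool → Fin k × ℕ)) =
    ⟨k', m', (dec', fun y => hf' (inl y))⟩ at h1
  rw [Sigma.mk.injEq] at h1
  obtain ⟨rfl, h1⟩ := h1
  rw [heq_eq_eq, Sigma.mk.injEq] at h1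
  obtain ⟨rfl, h1⟩ := h1
  rw [heq_eq_eq, Prod.mk.injEq] at h1
  obtain ⟨h3, h4⟩ := h1
  subst h3
  have h5 : hf = hf' := by
    funext z
    rcases z with z | p
    · exact congrFun h4 z
    · have h6 := congrFun h2 p
      unfold LG.word at h6
      dsimp only at h6
      rw [Prod.mk.injEq] at h6
      exact Prod.ext (Fin.ext h6.1) h6.2
  rw [h5]

/-- the key for the order: fewer edges are bigger, then the core, then the word -/
def LG.key (x : LG n) : ℕᵒᵈ ×ₗ (Core ×ₗ Lex (Fin n → ℕ ×ₗ ℕ)) :=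
  toLex (OrderDual.toDual x.m, toLex (x.core, toLex (fun p => toLex (x.word p))))

lemma LG.key_inj : (LG.key (n := n)).Injective := by
  intro x y h
  have h0 := toLex.injective h
  have h1 := congrArg Prod.snd h0
  have h2 := toLex.injective h1
  apply LG.ext'
  · exact congrArg Prod.fst h2
  · have h3 := toLex.injective (congrArg Prod.snd h2)
    funext p
    exact toLex.injective (congrFun h3 p)

instance : LinearOrder (LG n) := LinearOrder.lift' LG.key LG.key_inj

lemma LG.lt_iff (x y : LG n) : x < y ↔ y.m < x.m ∨ (x.m = y.m ∧ (x.core < y.core ∨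
    (x.core = y.core ∧ ∃ p, (∀ q, q < p → x.word q = y.word q) ∧
      toLex (x.word p) < toLex (y.word p)))) := by
  change x.key < y.key ↔ _
  unfold LG.key
  rw [Prod.Lex.lt_iff, ofLex_toLex, ofLex_toLex, Prod.Lex.lt_iff, ofLex_toLex, ofLex_toLex]
  simp only [OrderDual.toDual_lt_toDual, OrderDual.toDual_inj]
  constructor
  · rintro (h | ⟨h1, h | ⟨h2, p, h3, h4⟩⟩)
    · exact Or.inl h
    · exact Or.inr ⟨h1, Or.inl h⟩
    · exact Or.inr ⟨h1, Or.inr ⟨h2, p, fun q hq => toLex.injective (h3 q hq), h4⟩⟩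
  · rintro (h | ⟨h1, h | ⟨h2, p, h3, h4⟩⟩)
    · exact Or.inl h
    · exact Or.inr ⟨h1, Or.inl h⟩
    · exact Or.inr ⟨h1, Or.inr ⟨h2, p, fun q hq => congrArg toLex (h3 q hq), h4⟩⟩

/-! ### insertion and deletion -/

/-- repeat the leg `a` at the place `b` -/
def Gr.insL (a : Fin n) (b : Fin (n + 1)) (G : Gr V E (Fin n)) : Gr V E (Fin (n + 1)) :=
  ⟨G.dec, Sum.elim (fun y => G.hf (inl y))
    (Fin.insertNth (α := fun _ => V × ℕ) b (G.hf (inr a)) (fun p => G.hf (inr p)))⟩

lemma Gr.insL_self (a : Fin n) (b : Fin (n + 1)) (G : Gr V E (Fin n)) :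
    (G.insL a b).hf (inr b) = G.hf (inr a) := by
  simp [Gr.insL]

lemma Gr.insL_succAbove (a : Fin n) (b : Fin (n + 1)) (G : Gr V E (Fin n)) (p : Fin n) :
    (G.insL a b).hf (inr (b.succAbove p)) = G.hf (inr p) := by
  simp [Gr.insL]

/-- remove the leg `b` -/
def Gr.delL (b : Fin (n + 1)) (G : Gr V E (Fin (n + 1))) : Gr V E (Fin n) :=
  ⟨G.dec, fun y => G.hf (y.map id b.succAbove)⟩

/-- repeat the leg `a` at the place `b` -/
def LG.ins (a : Fin n) (b : Fin (n + 1)) (x : LG n) : LG (n + 1) :=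
  ⟨x.k, x.m, x.G.insL a b⟩

lemma LG.ins_hf_self (a : Fin n) (b : Fin (n + 1)) (x : LG n) :
    (x.ins a b).G.hf (inr b) = x.G.hf (inr a) := x.G.insL_self a b

lemma LG.ins_hf_succAbove (a : Fin n) (b : Fin (n + 1)) (x : LG n) (p : Fin n) :
    (x.ins a b).G.hf (inr (b.succAbove p)) = x.G.hf (inr p) := x.G.insL_succAbove a b p

lemma LG.ins_word_self (a : Fin n) (b : Fin (n + 1)) (x : LG n) :
    (x.ins a b).word b = x.word a := by
  unfold LG.word
  rw [LG.ins_hf_self]

lemma LG.ins_word_succAbove (a : Fin n) (b : Fin (n + 1)) (x : LG n) (p : Fin n) :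
    (x.ins a b).word (b.succAbove p) = x.word p := by
  unfold LG.word
  rw [LG.ins_hf_succAbove]

lemma LG.ins_word (a : Fin n) (b : Fin (n + 1)) (x : LG n) :
    (x.ins a b).word = Fin.insertNth (α := fun _ => ℕ × ℕ) b (x.word a) x.word := by
  funext q
  by_cases hq : q = b
  · rw [hq, LG.ins_word_self]
    simp
  · obtain ⟨p, rfl⟩ := Fin.exists_succAbove_eq hq
    rw [LG.ins_word_succAbove]
    simp

theorem LG.ins_lt {a : Fin n} {b : Fin (n + 1)} (hab : a.castSucc < b) {x y : LG n} (h : x < y) :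
    x.ins a b < y.ins a b := by
  rw [LG.lt_iff] at h ⊢
  rcases h with h | ⟨h1, h | ⟨h2, p, h3, h4⟩⟩
  · exact Or.inl h
  · exact Or.inr ⟨h1, Or.inl h⟩
  · refine Or.inr ⟨h1, Or.inr ⟨h2, b.succAbove p, ?_, ?_⟩⟩
    · intro q hq
      by_cases hqb : q = b
      · subst hqb
        rw [LG.ins_word_self, LG.ins_word_self]
        apply h3
        have h5 : q ≤ p.castSucc := by
          by_contra hcon
          push Not at hcon
          rw [Fin.succAbove_of_castSucc_lt _ _ hcon] at hq
          exact absurd hq (not_lt.mpr hcon.le)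
        exact Fin.castSucc_lt_castSucc_iff.mp (hab.trans_le h5)
      · obtain ⟨r, rfl⟩ := Fin.exists_succAbove_eq hqb
        rw [LG.ins_word_succAbove, LG.ins_word_succAbove]
        exact h3 r ((Fin.strictMono_succAbove b).lt_iff_lt.mp hq)
    · rw [LG.ins_word_succAbove, LG.ins_word_succAbove]
      exact h4

/-- remove the leg `b` -/
def LG.del (b : Fin (n + 1)) (x : LG (n + 1)) : LG n :=
  ⟨x.k, x.m, x.G.delL b⟩

lemma LG.ins_del {a : Fin n} {b : Fin (n + 1)} {x : LG (n + 1)}
    (h : x.G.hf (inr b) = x.G.hf (inr (b.succAbove a))) : (x.del b).ins a b = x := by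
  apply LG.ext'
  · rfl
  · funext q
    by_cases hq : q = b
    · subst hq
      rw [LG.ins_word_self]
      unfold LG.word
      rw [h]
      rfl
    · obtain ⟨p, rfl⟩ := Fin.exists_succAbove_eq hq
      rw [LG.ins_word_succAbove]
      rfl

end Vale.Agent.P273
end
end
end

section

section

/-! Finiteness, relabelling, and the dual of the merging operator. -/

noncomputable section
namespace Vale.Agent.P273
open Sum
open scoped Classical

variable {V E L L' N : Type} {n : ℕ}

/-! ### relabelling the legs -/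

/-- relabel the legs -/
def Gr.rel (i : L' → L) (G : Gr V E L) : Gr V E L' := ⟨G.dec, fun y => G.hf (y.map id i)⟩

/-- the linear extension -/
def relF (i : L' → L) : F L →ₗ[ℚ] F L' := lift (fun D => dl (D.G.rel i) 1)

lemma relF_dl (i : L' → L) (G : Gr V E L) (c : ℚ) : relF i (dl G c) = dl (G.rel i) c := by
  rw [relF, lift_dl, smul_dl, mul_one]

lemma map_bij {E : Type} {i : L' → L} (hi : i.Bijective) :
    (Sum.map id i : (E × Bool) ⊕ L' → (E × Bool) ⊕ L).Bijective :=
  Function.Bijective.sumMap Function.bijective_id hi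

lemma Gr.rel_nv {i : L' → L} (hi : i.Bijective) (G : Gr V E L) (v : V) :
    (G.rel i).nv v = G.nv v := by
  unfold Gr.nv
  apply Nat.card_congr
  exact (Equiv.ofBijective _ (map_bij hi)).subtypeEquiv (fun y => Iff.rfl)

lemma Gr.rel_stab {i : L' → L} (hi : i.Bijective) (G : Gr V E L) (g : ℕ) :
    (G.rel i).Stab g ↔ G.Stab g := by
  unfold Gr.Stab
  simp_rw [G.rel_nv hi]
  rfl

lemma Gr.rel_valid {i : L' → L} (hi : i.Bijective) (G : Gr V E L) (g : ℕ) :
    (G.rel i).Valid g ↔ G.Valid g := by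
  unfold Gr.Valid
  rw [G.rel_stab hi]
  simp_rw [G.rel_nv hi]
  have h : ∀ v, ∑ᶠ (y) (_ : ((G.rel i).hf y).1 = v), ((G.rel i).hf y).2 =
      ∑ᶠ (y) (_ : (G.hf y).1 = v), (G.hf y).2 := by
    intro v
    rw [psi_eq_finsum, psi_eq_finsum]
    exact finsum_eq_of_bijective _ (map_bij hi) (fun y => rfl)
  simp_rw [h]
  rfl

lemma Gr.rel_deg {i : L' → L} (hi : i.Bijective) (G : Gr V E L) : (G.rel i).deg = G.deg := by
  unfold Gr.deg
  congr 1
  exact finsum_eq_of_bijective _ (map_bij hi) (fun y => rfl)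

/-- relabel the outer legs of an environment -/
def Env.rel {R T : Type} (i : L' → N) (Q : Env R T L N) : Env R T L L' :=
  ⟨Q.dec, fun y => Q.use (y.map id i), Q.b⟩

lemma Env.rel_graft {R T : Type} {i : L' → N} (hi : i.Bijective) (Q : Env R T L N)
    (G : Gr V E L) : (Q.rel i).graft G = (Q.graft G).rel i := by
  have hr : Set.range (Q.rel i).use = Set.range Q.use := by
    ext z
    constructor
    · rintro ⟨y, rfl⟩
      exact ⟨_, rfl⟩
    · rintro ⟨y, rfl⟩
      obtain ⟨y', rfl⟩ := (map_bij (E := T) hi).2 y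
      exact ⟨y', rfl⟩
  apply Gr.ext'
  · rintro (v | r)
    · change ((G.dec v).1, (G.dec v).2 + ∑ᶠ (x) (_ : inl x ∉ Set.range (Q.rel i).use ∧ _), _) =
        ((G.dec v).1, (G.dec v).2 + ∑ᶠ (x) (_ : inl x ∉ Set.range Q.use ∧ _), _)
      rw [hr]
      rfl
    · rfl
  · rintro (⟨e | t, s⟩ | x) <;> rfl

theorem P_relF [Finite L] [Finite L'] {g : ℕ} {i : L' → L} (hi : i.Bijective) {x : F L}
    (h : P g x) : P g (relF i x) := by
  induction h with
  | triv x hx =>
    cases hx with
    | iso G G' φ ρ h1 h2 h3 h4 h5 =>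
      rw [map_add, relF_dl, relF_dl]
      apply P.triv
      refine Triv.iso _ _ φ ρ h1 h2 h3 h4 ?_
      intro y
      have := h5 (y.map id i)
      rcases y with y | x
      · exact this
      · exact this
    | zero G hG =>
      rw [relF_dl]
      exact P.triv _ (Triv.zero _ (fun h => hG ((G.rel_valid hi g).mp h)))
    | dilaton G v =>
      rw [map_add, relF_dl, relF_dl]
      apply P.triv
      have := Triv.dilaton (g := g) (G.rel i) v
      rw [G.rel_nv hi] at this
      exact this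
  | @pix R T L'' Q γ d A h1 h2 h3 h4 h5 h6 =>
    have : relF i (Q.pix γ A d) = (Q.rel i).pix γ A d := by
      rw [Env.pix_eq_sum, Env.pix_eq_sum, map_sum]
      apply Finset.sum_congr rfl
      intro p _
      rw [relF_dl, Env.rel_graft hi]
    rw [this]
    apply P.pix _ γ d A h1 h2 h3 _ h5 h6
    intro y z x hy hz
    exact (map_bij hi).1 (h4 _ _ x hy hz)
  | lin x y c _ _ hx hy =>
    rw [map_add, map_smul]
    exact P.lin _ _ _ hx hy

/-! ### finiteness -/

/-- the labelled graphs that matter -/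
def OK (g D : ℕ) (x : LG n) : Prop := x.G.Valid g ∧ x.G.deg = D ∧ ∀ v, 0 ∉ (x.G.dec v).2

/-- the possible cores -/
def cores (g D : ℕ) : Set Core := {c | c.1 < D + 2 ∧ c.2.1 < D + 1 ∧
  (∀ v, c.2.2.1 v ∈ (Set.Iic g) ×ˢ {μ : Multiset ℕ | μ.sum ≤ D ∧ 0 ∉ μ}) ∧
  ∀ y, c.2.2.2 y ∈ (Set.univ : Set (Fin c.1)) ×ˢ (Set.Iic D)}

/-- the possible letters -/
def letters (D : ℕ) : Set (ℕ × ℕ) := (Set.Iio (D + 2)) ×ˢ (Set.Iic D)

lemma finite_letters (D : ℕ) : (letters D).Finite := (Set.finite_Iio _).prod (Set.finite_Iic _)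

lemma finite_cores (g D : ℕ) : (cores g D).Finite := by
  have h : ∀ k m : ℕ, {p : (Fin k → ℕ × Multiset ℕ) × (Fin m × Bool → Fin k × ℕ) |
      (∀ v, p.1 v ∈ (Set.Iic g) ×ˢ {μ : Multiset ℕ | μ.sum ≤ D ∧ 0 ∉ μ}) ∧
      ∀ y, p.2 y ∈ (Set.univ : Set (Fin k)) ×ˢ (Set.Iic D)}.Finite := by
    intro k m
    have h1 : {f : Fin k → ℕ × Multiset ℕ | ∀ v, f v ∈ (Set.Iic g) ×ˢ
        {μ : Multiset ℕ | μ.sum ≤ D ∧ 0 ∉ μ}}.Finite :=
      Set.Finite.pi' (fun _ => (Set.finite_Iic g).prod (finite_multisets D))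
    have h2 : {f : Fin m × Bool → Fin k × ℕ | ∀ y, f y ∈ (Set.univ : Set (Fin k)) ×ˢ
        (Set.Iic D)}.Finite :=
      Set.Finite.pi' (fun _ => (Set.finite_univ).prod (Set.finite_Iic D))
    exact (h1.prod h2).subset (fun p hp => ⟨hp.1, hp.2⟩)
  have h2 : (⋃ k ∈ Finset.range (D + 2), ⋃ m ∈ Finset.range (D + 1),
      (fun p => (⟨k, m, p⟩ : Core)) '' {p : (Fin k → ℕ × Multiset ℕ) × (Fin m × Bool → Fin k × ℕ) |
      (∀ v, p.1 v ∈ (Set.Iic g) ×ˢ {μ : Multiset ℕ | μ.sum ≤ D ∧ 0 ∉ μ}) ∧
      ∀ y, p.2 y ∈ (Set.univ : Set (Fin k)) ×ˢ (Set.Iic D)}).Finite := by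
    apply Set.Finite.biUnion (Finset.finite_toSet _)
    intro k _
    apply Set.Finite.biUnion (Finset.finite_toSet _)
    intro m _
    exact (h k m).image _
  apply h2.subset
  rintro ⟨k, m, p⟩ ⟨h3, h4, h5, h6⟩
  simp only [Set.mem_iUnion]
  exact ⟨k, Finset.mem_range.mpr h3, m, Finset.mem_range.mpr h4, p, ⟨h5, h6⟩, rfl⟩

lemma OK.psi_le {g D : ℕ} {x : LG n} (h : OK g D x) (y : (Fin x.m × Bool) ⊕ Fin n) :
    (x.G.hf y).2 ≤ D := by
  have h1 := h.2.1
  unfold Gr.deg at h1
  rw [finsum_eq_sum_of_fintype (fun y => (x.G.hf y).2)] at h1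
  have : (x.G.hf y).2 ≤ ∑ y, (x.G.hf y).2 :=
    Finset.single_le_sum (f := fun y => (x.G.hf y).2) (fun _ _ => Nat.zero_le _)
      (Finset.mem_univ y)
  omega

lemma OK.card {g D : ℕ} {x : LG n} (h : OK g D x) : x.k < D + 2 ∧ x.m < D + 1 := by
  have h1 := h.1.2.2.1.conn_card
  have h2 := h.2.1
  rw [Nat.card_eq_fintype_card, Nat.card_eq_fintype_card, Fintype.card_fin, Fintype.card_fin] at h1
  unfold Gr.deg at h2
  rw [Nat.card_eq_fintype_card, Fintype.card_fin] at h2
  omega

lemma OK.core_mem {g D : ℕ} {x : LG n} (h : OK g D x) : x.core ∈ cores g D := by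
  refine ⟨h.card.1, h.card.2, ?_, ?_⟩
  · intro v
    refine ⟨h.1.2.2.1.gen_le v, ?_, h.2.2 v⟩
    change (x.G.dec v).2.sum ≤ D
    have h1 := h.2.1
    unfold Gr.deg at h1
    rw [finsum_eq_sum_of_fintype (fun v => (x.G.dec v).2.sum)] at h1
    have : (x.G.dec v).2.sum ≤ ∑ v, (x.G.dec v).2.sum :=
      Finset.single_le_sum (f := fun v => (x.G.dec v).2.sum) (fun _ _ => Nat.zero_le _)
      (Finset.mem_univ v)
    omega
  · intro y
    exact ⟨trivial, h.psi_le (inl y)⟩

lemma OK.word_mem {g D : ℕ} {x : LG n} (h : OK g D x) (p : Fin n) : x.word p ∈ letters D := by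
  refine ⟨?_, h.psi_le (inr p)⟩
  have := (x.G.hf (inr p)).1.isLt
  have h1 := h.card.1
  change ((x.G.hf (inr p)).1 : ℕ) < D + 2
  omega

lemma OK.idle_card {g D : ℕ} {x : LG n} (h : OK g D x) :
    Nat.card {p // ¬ (x.word p).2 = 0} ≤ D := by
  rw [Nat.card_eq_fintype_card, Fintype.card_subtype, Finset.card_filter]
  have h1 := h.2.1
  unfold Gr.deg at h1
  rw [finsum_eq_sum_of_fintype (fun y => (x.G.hf y).2), Fintype.sum_sum_type] at h1
  have h2 : ∑ p, (if ¬ (x.word p).2 = 0 then 1 else 0) ≤ ∑ p, (x.G.hf (inr p)).2 := by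
    apply Finset.sum_le_sum
    intro p _
    split_ifs with h3
    · exact Nat.zero_le _
    · exact Nat.one_le_iff_ne_zero.mpr h3
  omega

lemma finite_OK (g D n : ℕ) : {x : LG n | OK g D x}.Finite := by
  have h1 : ((cores g D) ×ˢ {w : Fin n → ℕ × ℕ | ∀ p, w p ∈ letters D}).Finite :=
    (finite_cores g D).prod (Set.Finite.pi' (fun _ => finite_letters D))
  apply Set.Finite.of_finite_image (f := fun x : LG n => (x.core, x.word))
  · apply h1.subset
    rintro _ ⟨x, hx, rfl⟩
    exact ⟨hx.core_mem, hx.word_mem⟩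
  · intro x _ y _ hxy
    exact LG.ext' (congrArg Prod.fst hxy) (congrArg Prod.snd hxy)

/-- every valid graph is isomorphic to a labelled one -/
lemma exists_LG {g D : ℕ} {G : Gr V E (Fin n)} (h1 : G.Valid g) (h2 : G.deg = D)
    (h3 : ∀ v, 0 ∉ (G.dec v).2) : ∃ x : LG n, OK g D x ∧ G.Iso x.G ∧ x.m = Nat.card E := by
  have := h1.1
  have := h1.2.1
  obtain ⟨k, ⟨φ⟩⟩ := Finite.exists_equiv_fin V
  obtain ⟨m, ⟨ρ⟩⟩ := Finite.exists_equiv_fin E
  let G' : Gr (Fin k) (Fin m) (Fin n) := ⟨fun v => G.dec (φ.symm v),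
    fun y => (φ (G.hf (y.map (fun z => (ρ.symm z.1, z.2)) id)).1,
      (G.hf (y.map (fun z => (ρ.symm z.1, z.2)) id)).2)⟩
  have hiso : G.Iso G' := by
    apply Gr.Iso.mk' φ ρ
    · intro v
      change G.dec (φ.symm (φ v)) = _
      rw [φ.symm_apply_apply]
    · intro e s
      change (φ (G.hf (inl (ρ.symm (ρ e), s))).1, (G.hf (inl (ρ.symm (ρ e), s))).2) = _
      rw [ρ.symm_apply_apply]
    · intro x
      rfl
  refine ⟨⟨k, m, G'⟩, ⟨hiso.valid_iff.mp h1, ?_, ?_⟩, hiso, ?_⟩
  · obtain ⟨φ', ρ', I⟩ := hiso.data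
    rw [I.deg_eq, h2]
  · intro v
    exact h3 _
  · change m = _
    rw [Nat.card_congr ρ, Nat.card_eq_fintype_card, Fintype.card_fin]

end Vale.Agent.P273
end
end
end

section

section

/-! The dual of the merging operator and its leading terms. -/

noncomputable section
namespace Vale.Agent.P273
open Sum
open scoped Classical

variable {V E L L' N : Type} {n : ℕ}

/-- the legs which are merged -/
def iab (a : Fin n) (b : Fin (n + 1)) (o : Option (Option {p : Fin n // p ≠ a})) : Fin (n + 1) :=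
  o.elim b (fun o => b.succAbove (o.elim a Subtype.val))

lemma iab_bij (a : Fin n) (b : Fin (n + 1)) : (iab a b).Bijective := by
  constructor
  · rintro (_ | _ | ⟨p, hp⟩) (_ | _ | ⟨q, hq⟩) h
    · rfl
    · exact absurd h.symm (Fin.succAbove_ne b a)
    · exact absurd h.symm (Fin.succAbove_ne b q)
    · exact absurd h (Fin.succAbove_ne b a)
    · rfl
    · exact absurd (Fin.succAbove_right_injective h).symm hq
    · exact absurd h (Fin.succAbove_ne b p)
    · exact absurd (Fin.succAbove_right_injective h) hp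
    · have h1 : p = q := Fin.succAbove_right_injective h
      subst h1
      rfl
  · intro q
    by_cases hq : q = b
    · exact ⟨none, hq.symm⟩
    · obtain ⟨p, rfl⟩ := Fin.exists_succAbove_eq hq
      by_cases hp : p = a
      · exact ⟨some none, by rw [hp]; rfl⟩
      · exact ⟨some (some ⟨p, hp⟩), rfl⟩

/-- the legs after merging -/
def ja (a : Fin n) : Fin n → Option {p : Fin n // p ≠ a} := (Equiv.optionSubtypeNe a).symm

lemma ja_bij (a : Fin n) : (ja a).Bijective := (Equiv.optionSubtypeNe a).symm.bijective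

lemma ja_self (a : Fin n) : ja a a = none := by simp [ja]

lemma ja_ne {a p : Fin n} (h : p ≠ a) : ja a p = some ⟨p, h⟩ := by simp [ja, h]

/-- the functional on the merged legs -/
def nuB (g : ℕ) (lam : F (Fin n) →ₗ[ℚ] ℚ) (hlam : ∀ x, P g x → lam x = 0) (a : Fin n) :
    Sq g (Option {p : Fin n // p ≠ a}) →ₗ[ℚ] ℚ :=
  (Isub g (Option {p : Fin n // p ≠ a})).liftQ (lam.comp (relF (ja a))) (by
    intro x hx
    exact hlam _ (P_relF (ja_bij a) (Isub_le_Psub g _ hx)))

lemma nuB_mk {g : ℕ} {lam : F (Fin n) →ₗ[ℚ] ℚ} (hlam : ∀ x, P g x → lam x = 0) (a : Fin n)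
    (x : F (Option {p : Fin n // p ≠ a})) :
    nuB g lam hlam a (mk g _ x) = lam (relF (ja a) x) := rfl

lemma nuB_Pbar {g : ℕ} {lam : F (Fin n) →ₗ[ℚ] ℚ} (hlam : ∀ x, P g x → lam x = 0) (a : Fin n)
    {z : Sq g (Option {p : Fin n // p ≠ a})} (hz : z ∈ Pbar g _) : nuB g lam hlam a z = 0 := by
  obtain ⟨x, hx, rfl⟩ := hz
  rw [nuB_mk]
  exact hlam _ (P_relF (ja_bij a) hx)

/-- the dual functional -/
def dualF (g : ℕ) (lam : F (Fin n) →ₗ[ℚ] ℚ) (hlam : ∀ x, P g x → lam x = 0) (a : Fin n)
    (b : Fin (n + 1)) : F (Fin (n + 1)) →ₗ[ℚ] ℚ :=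
  ((nuB g lam hlam a).comp (mrg g {p : Fin n // p ≠ a})).comp (relF (iab a b))

lemma dualF_dl {g : ℕ} {lam : F (Fin n) →ₗ[ℚ] ℚ} (hlam : ∀ x, P g x → lam x = 0) (a : Fin n)
    (b : Fin (n + 1)) (G : Gr V E (Fin (n + 1))) :
    dualF g lam hlam a b (dl G 1) = nuB g lam hlam a (mrgG g (G.rel (iab a b))) := by
  unfold dualF
  rw [LinearMap.comp_apply, LinearMap.comp_apply, relF_dl, mrg_dl, one_smul]

lemma dualF_zero {g : ℕ} {lam : F (Fin n) →ₗ[ℚ] ℚ} (hlam : ∀ x, P g x → lam x = 0) (a : Fin n)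
    (b : Fin (n + 1)) {x : F (Fin (n + 1))}
    (hx : mrg g _ (relF (iab a b) x) ∈ Pbar g (Option {p : Fin n // p ≠ a})) :
    dualF g lam hlam a b x = 0 := nuB_Pbar hlam a hx

/-- the merging operator preserves Pixton's span (proved in another file) -/
theorem mrg_P_mem' [Finite L] {g : ℕ} {x : F (Option (Option L))} (hx : P g x) :
    mrg g L x ∈ Pbar g (Option L) := mrg_P_mem hx

lemma dualF_P {g : ℕ} {lam : F (Fin n) →ₗ[ℚ] ℚ} (hlam : ∀ x, P g x → lam x = 0) (a : Fin n)
    (b : Fin (n + 1)) {x : F (Fin (n + 1))} (hx : P g x) : dualF g lam hlam a b x = 0 :=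
  dualF_zero hlam a b (mrg_P_mem' (P_relF (iab_bij a b) hx))

lemma drp_zero_free {G : Gr V E (Option L)} (h0 : ∀ v, 0 ∉ (G.dec v).2) (v : V) :
    G.drp.dec v = G.dec v := by
  by_cases hv : v = G.vn
  · subst hv
    rw [G.drp_dec_self]
    apply Prod.ext
    · rfl
    · change (G.dec G.vn).2.filter (· ≠ 0) = (G.dec G.vn).2
      rw [Multiset.filter_eq_self]
      intro k hk hk0
      rw [hk0] at hk
      exact h0 _ hk
  · rw [G.drp_dec_ne hv]

lemma cfac_zero_free {G : Gr V E (Option L)} (h0 : ∀ v, 0 ∉ (G.dec v).2) : G.cfac = 1 := by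
  unfold Gr.cfac
  rw [Multiset.count_eq_zero_of_notMem (h0 _)]
  simp only [Finset.range_zero, ne_eq, Finset.prod_empty]

/-- the value when there is no rational tail -/
lemma dualF_no {g : ℕ} {lam : F (Fin n) →ₗ[ℚ] ℚ} (hlam : ∀ x, P g x → lam x = 0) (a : Fin n)
    (b : Fin (n + 1)) {G : Gr V E (Fin (n + 1))} (h0 : ∀ v, 0 ∉ (G.dec v).2)
    (hno : ∀ y, ¬ MT (G.rel (iab a b)) y) :
    dualF g lam hlam a b (dl G 1) =
      if G.hf (inr b) = G.hf (inr (b.succAbove a)) ∧ (G.hf (inr b)).2 = 0 then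
        lam (dl (G.delL b) 1) else 0 := by
  have h0 : ∀ v, 0 ∉ ((G.rel (iab a b)).dec v).2 := h0
  rw [dualF_dl, mrgG, finsum_eq_zero_of_forall_eq_zero (fun y => mterm_not (hno y)), sub_zero,
    cfac_zero_free h0, one_smul]
  have hmc : (G.rel (iab a b)).MC ↔ G.hf (inr b) = G.hf (inr (b.succAbove a)) ∧
    (G.hf (inr b)).2 = 0 := Iff.rfl
  by_cases hc : (G.rel (iab a b)).MC
  · rw [if_pos hc, if_pos (hmc.mp hc), nuB_mk, relF_dl]
    have h1 : ((G.rel (iab a b)).drp.rel (ja a)) = G.delL b := by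
      apply Gr.ext'
      · intro v
        exact drp_zero_free h0 v
      · rintro (y | p)
        · rfl
        · change (G.rel (iab a b)).drp.hf (inr (ja a p)) = G.hf (inr (b.succAbove p))
          by_cases hp : p = a
          · subst hp
            rw [ja_self]
            rfl
          · rw [ja_ne hp]
            rfl
    rw [h1]
  · rw [if_neg hc, if_neg (fun h => hc (hmc.mpr h)), map_zero]

lemma insL_nv [Finite E] (a : Fin n) (b : Fin (n + 1)) (G : Gr V E (Fin n)) (v : V) :
    (G.insL a b).nv v = G.nv v + if (G.hf (inr a)).1 = v then 1 else 0 := by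
  have := Fintype.ofFinite E
  rw [nv_eq_finsum, nv_eq_finsum, finsum_eq_sum_of_fintype, finsum_eq_sum_of_fintype,
    Fintype.sum_sum_type, Fintype.sum_sum_type, Fin.sum_univ_succAbove _ b, Gr.insL_self]
  simp_rw [Gr.insL_succAbove]
  have h3 : ∀ y, (G.insL a b).hf (inl y) = G.hf (inl y) := fun y => rfl
  simp_rw [h3]
  ring

lemma insL_psi [Finite E] (a : Fin n) (b : Fin (n + 1)) (G : Gr V E (Fin n))
    (h0 : (G.hf (inr a)).2 = 0) (v : V) :
    ∑ᶠ (y) (_ : ((G.insL a b).hf y).1 = v), ((G.insL a b).hf y).2 =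
      ∑ᶠ (y) (_ : (G.hf y).1 = v), (G.hf y).2 := by
  have := Fintype.ofFinite E
  rw [psi_eq_finsum, psi_eq_finsum, finsum_eq_sum_of_fintype, finsum_eq_sum_of_fintype,
    Fintype.sum_sum_type, Fintype.sum_sum_type, Fin.sum_univ_succAbove _ b, Gr.insL_self, h0]
  simp_rw [Gr.insL_succAbove]
  have h3 : ∀ y, (G.insL a b).hf (inl y) = G.hf (inl y) := fun y => rfl
  simp_rw [h3]
  simp only [ite_self, zero_add, Nat.add_left_cancel_iff]

lemma insL_deg [Finite E] (a : Fin n) (b : Fin (n + 1)) (G : Gr V E (Fin n))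
    (h0 : (G.hf (inr a)).2 = 0) : (G.insL a b).deg = G.deg := by
  have := Fintype.ofFinite E
  unfold Gr.deg
  congr 1
  rw [finsum_eq_sum_of_fintype, finsum_eq_sum_of_fintype, Fintype.sum_sum_type,
    Fintype.sum_sum_type, Fin.sum_univ_succAbove _ b, Gr.insL_self, h0, zero_add]
  simp_rw [Gr.insL_succAbove]
  rfl

lemma insL_valid [Finite E] {g : ℕ} (a : Fin n) (b : Fin (n + 1)) {G : Gr V E (Fin n)}
    (h0 : (G.hf (inr a)).2 = 0) (hG : G.Valid g) : (G.insL a b).Valid g := by
  obtain ⟨hV, hE, ⟨h1, h2, h3, h4⟩, h5⟩ := hG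
  refine ⟨hV, hE, ⟨h1, h2, h3, ?_⟩, ?_⟩
  · intro v
    have := h4 v
    rw [insL_nv]
    change 2 < 2 * (G.dec v).1 + _
    omega
  · intro v
    have := h5 v
    rw [insL_nv, insL_psi a b G h0]
    change (G.dec v).2.sum + _ + 3 ≤ 3 * (G.dec v).1 + _
    omega

lemma delL_deg [Finite E] (b : Fin (n + 1)) (G : Gr V E (Fin (n + 1)))
    (h0 : (G.hf (inr b)).2 = 0) : (G.delL b).deg = G.deg := by
  have := Fintype.ofFinite E
  unfold Gr.deg
  congr 1
  rw [finsum_eq_sum_of_fintype, finsum_eq_sum_of_fintype, Fintype.sum_sum_type,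
    Fintype.sum_sum_type, Fin.sum_univ_succAbove _ b, h0, zero_add]
  rfl

lemma OK.ins {g D : ℕ} {x : LG n} (hx : OK g D x) {a : Fin n} (b : Fin (n + 1))
    (h0 : (x.G.hf (inr a)).2 = 0) : OK g D (x.ins a b) :=
  ⟨insL_valid a b h0 hx.1, (insL_deg a b x.G h0).trans hx.2.1, hx.2.2⟩

/-- the value of the dual functional at the insertion -/
lemma dualF_ins {g D : ℕ} {lam : F (Fin n) →ₗ[ℚ] ℚ} (hlam : ∀ x, P g x → lam x = 0)
    {a : Fin n} (b : Fin (n + 1)) {x : LG n} (hx : OK g D x) (h0 : (x.G.hf (inr a)).2 = 0) :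
    dualF g lam hlam a b (dl (x.ins a b).G 1) = lam (dl x.G 1) := by
  have hno : ∀ y, ¬ MT ((x.G.insL a b).rel (iab a b)) y := by
    intro y hy
    have h1 := hy.nv_eq
    have h3 : ((x.G.insL a b).rel (iab a b)).hf (inr none) = x.G.hf (inr a) :=
      x.G.insL_self a b
    have h4 : (x.G.hf (inr a)).1 = (((x.G.insL a b).rel (iab a b)).hf (inl y)).1 := by
      rw [← h3, hy.l1]
    rw [Gr.rel_nv (iab_bij a b), insL_nv, if_pos h4] at h1
    have h7 := hx.1.2.2.1.2.2.2 (((x.G.insL a b).rel (iab a b)).hf (inl y)).1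
    have h8 : (x.G.dec (((x.G.insL a b).rel (iab a b)).hf (inl y)).1).1 = 0 := hy.gen
    omega
  have h5 : ∀ v, 0 ∉ ((x.G.insL a b).dec v).2 := hx.2.2
  have h6 := dualF_no hlam a b h5 hno
  rw [if_pos ⟨by rw [Gr.insL_self, Gr.insL_succAbove], by rw [Gr.insL_self]; exact h0⟩] at h6
  have h7 : (x.G.insL a b).delL b = x.G := by
    apply Gr.ext'
    · intro v; rfl
    · rintro (y | p)
      · rfl
      · exact x.G.insL_succAbove a b p
  rw [h7] at h6
  exact h6

/-- the value in the presence of a rational tail -/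
lemma dualF_mt {g D : ℕ} {lam : F (Fin n) →ₗ[ℚ] ℚ} (hlam : ∀ x, P g x → lam x = 0) (a : Fin n)
    (b : Fin (n + 1)) {x : LG (n + 1)} (hx : OK g D x) {y : Fin x.m × Bool}
    (hy : MT (x.G.rel (iab a b)) y) (hne : dualF g lam hlam a b (dl x.G 1) ≠ 0) :
    ∃ x' : LG n, OK g D x' ∧ x'.m + 1 = x.m ∧ lam (dl x'.G 1) ≠ 0 := by
  have h0 : ∀ v, 0 ∉ ((x.G.rel (iab a b)).dec v).2 := hx.2.2
  have hw : (x.G.rel (iab a b)).dec ((x.G.rel (iab a b)).hf (inl y)).1 = (0, 0) := by
    apply Prod.ext
    · exact hy.gen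
    · apply Multiset.eq_zero_of_forall_notMem
      intro k hk
      have := hy.kap k hk
      subst this
      exact h0 _ hk
  -- only one term
  have huniq : ∀ y', MT (x.G.rel (iab a b)) y' → y' = y := by
    intro y' hy'
    have h1 : ((x.G.rel (iab a b)).hf (inl y')).1 = ((x.G.rel (iab a b)).hf (inl y)).1 := by
      have h2 := hy'.l1
      rw [hy.l1] at h2
      exact (congrArg Prod.fst h2).symm
    rcases hy.only _ h1 with h | h | h
    · exact inl_injective h
    · simp at h
    · simp at h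
  -- the graph without the leg is not valid
  have hdrp : ¬ (x.G.rel (iab a b)).drp.Valid g := by
    intro hv
    have h2 := hv.2.2.1.2.2.2 ((x.G.rel (iab a b)).hf (inl y)).1
    have h3 := (x.G.rel (iab a b)).drp_nv ((x.G.rel (iab a b)).hf (inl y)).1
    have h4 : (x.G.rel (iab a b)).vn = ((x.G.rel (iab a b)).hf (inl y)).1 := by
      unfold Gr.vn
      rw [hy.l1]
    rw [if_pos h4, hy.nv_eq] at h3
    rw [drp_zero_free h0, hw] at h2
    omega
  have hval : dualF g lam hlam a b (dl x.G 1) = - lam (dl (hy.cut.bump.rel (ja a)) 1) := by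
    rw [dualF_dl, mrgG, finsum_eq_single _ y (fun y' hy' => mterm_not (fun h => hy' (huniq y' h))),
      mterm_of hy, mk_invalid hdrp, smul_zero]
    rw [hw]
    simp only [Multiset.card_zero, Nat.factorial_zero, Nat.cast_one, one_smul, ite_self, zero_sub,
      map_neg]
    rw [nuB_mk, relF_dl]
  have hT : (x.G.rel (iab a b)).TailAt ((x.G.rel (iab a b)).hf (inl y)).1 y.1 y.2
      (ss : {p : Fin n // p ≠ a} → _) 0 0 := by
    refine ⟨hy.cutData, hw, hy.e0, ?_⟩
    intro z hz
    rcases (not_range_ss z).1 hz with rfl | rfl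
    · rw [hy.l1]
    · rw [hy.l2]
  have hdeg : hy.cut.bump.deg = D := by
    have h2 := deg_ins ((x.G.rel (iab a b)).hf (inl y)).1 y.1 y.2 ss ss_inj 0 0 hy.cut
      (Nat.zero_le _)
    have h3 := Gr.ins_cut hT
    have h4 : hy.cut = (x.G.rel (iab a b)).cut ((x.G.rel (iab a b)).hf (inl y)).1 y.1 y.2 ss
      hT.cd.hne := rfl
    rw [h4, h3, Gr.rel_deg (iab_bij a b), hx.2.1] at h2
    rw [← h4] at h2
    rw [h2]
    unfold Gr.deg
    rw [add_assoc (Nat.card _ + _)]
    congr 1
    rw [finsum_flags, finsum_flags (fun y' => (hy.cut.hf y').2), hy.cut.bump_none]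
    have h5 : ∀ z, (hy.cut.bump.hf (optEquiv {e // e ≠ y.1} {p : Fin n // p ≠ a} (some z))).2 =
        (hy.cut.hf (optEquiv {e // e ≠ y.1} {p : Fin n // p ≠ a} (some z))).2 := by
      intro z
      rw [hy.cut.bump_ne]
      rcases z with z | z
      · simp [optEquiv]
      · simp [optEquiv]
    simp_rw [h5]
    ring
  have hne' : lam (dl (hy.cut.bump.rel (ja a)) 1) ≠ 0 := by
    intro h
    rw [hval, h, neg_zero] at hne
    exact hne rfl
  have hvalid : (hy.cut.bump.rel (ja a)).Valid g := by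
    by_contra hcon
    apply hne'
    have h2 : P g (dl (hy.cut.bump.rel (ja a)) 1) := P.triv _ (Triv.zero _ hcon)
    exact hlam _ h2
  obtain ⟨x', h1, h2, h3⟩ := exists_LG (D := D) hvalid
    (by rw [Gr.rel_deg (ja_bij a), hdeg]) (fun v => h0 v.1)
  refine ⟨x', h1, ?_, ?_⟩
  · rw [h3]
    have := Gr.card_ne (Fin x.m) y.1
    rw [Nat.card_eq_fintype_card, Fintype.card_fin] at this
    exact this.symm
  · have h4 : lam (dl (hy.cut.bump.rel (ja a)) 1) - lam (dl x'.G 1) = 0 := by
      rw [← map_sub]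
      exact hlam _ (Isub_le_Psub g _ (h2.mem 1))
    intro h5
    rw [h5, sub_zero] at h4
    exact hne' h4

end Vale.Agent.P273
end
end
end

section

section

/-! The noetherian argument. -/

noncomputable section
namespace Vale.Agent.P273
open Sum
open scoped Classical

variable {V E L L' N : Type} {n : ℕ}

/-- the finite set of labelled graphs -/
abbrev BB (g D n : ℕ) : Type := {x : LG n // OK g D x}

instance (g D n : ℕ) : Finite (BB g D n) := (finite_OK g D n).to_subtype

/-- the values of a functional -/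
def ev (g D n : ℕ) : (F (Fin n) →ₗ[ℚ] ℚ) →ₗ[ℚ] (BB g D n → ℚ) where
  toFun := fun lam x => lam (dl x.1.G 1)
  map_add' := fun _ _ => rfl
  map_smul' := fun _ _ => rfl

/-- functionals that kill Pixton's span -/
def VV (g : ℕ) (L : Type) : Submodule ℚ (F L →ₗ[ℚ] ℚ) where
  carrier := {lam | ∀ x, P g x → lam x = 0}
  add_mem' := by
    intro a b ha hb x hx
    rw [LinearMap.add_apply, ha x hx, hb x hx, add_zero]
  zero_mem' := fun _ _ => rfl
  smul_mem' := by
    intro c a ha x hx
    rw [LinearMap.smul_apply, ha x hx, smul_zero]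

lemma lg_le_m {x y : LG n} (h : x ≤ y) : y.m ≤ x.m := by
  rcases lt_or_eq_of_le h with h | h
  · rw [LG.lt_iff] at h
    rcases h with h | h
    · exact h.le
    · exact h.1.ge
  · rw [h]

/-- leading terms of dual functionals -/
theorem dualF_lead {g D : ℕ} {lam : F (Fin n) →ₗ[ℚ] ℚ} (hlam : ∀ x, P g x → lam x = 0)
    {a : Fin n} {b : Fin (n + 1)} (hab : a.castSucc < b) {x : LG n} (hx : OK g D x)
    (h0 : (x.G.hf (inr a)).2 = 0) (hlead : IsLead (ev g D n lam) ⟨x, hx⟩) :
    IsLead (ev g D (n + 1) (dualF g lam hlam a b)) ⟨x.ins a b, hx.ins b h0⟩ := by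
  constructor
  · change dualF g lam hlam a b (dl (x.ins a b).G 1) ≠ 0
    rw [dualF_ins hlam b hx h0]
    exact hlead.1
  · rintro ⟨y, hy⟩ hlt
    have hlt' : x.ins a b < y := hlt
    by_contra hne
    have hne' : dualF g lam hlam a b (dl y.G 1) ≠ 0 := hne
    have hmax : ∀ z : LG n, OK g D z → lam (dl z.G 1) ≠ 0 → z ≤ x := by
      intro z hz hz'
      by_contra hcon
      exact hz' (hlead.2 ⟨z, hz⟩ (lt_of_not_ge hcon))
    by_cases hmt : ∃ t, MT (y.G.rel (iab a b)) t
    · obtain ⟨t, ht⟩ := hmt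
      obtain ⟨z, h1, h2, h3⟩ := dualF_mt hlam a b hy ht hne'
      have h4 := lg_le_m (hmax z h1 h3)
      have h5 := lg_le_m hlt'.le
      have h6 : (x.ins a b).m = x.m := rfl
      omega
    · push Not at hmt
      rw [dualF_no hlam a b hy.2.2 hmt] at hne'
      by_cases hc : y.G.hf (inr b) = y.G.hf (inr (b.succAbove a)) ∧ (y.G.hf (inr b)).2 = 0
      · rw [if_pos hc] at hne'
        have hval : (y.G.delL b).Valid g := by
          by_contra hcon
          exact hne' (hlam _ (P.triv _ (Triv.zero _ hcon)))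
        have hok : OK g D (y.del b) := ⟨hval, (delL_deg b y.G hc.2).trans hy.2.1, hy.2.2⟩
        have h1 := hmax _ hok hne'
        have h2 : (y.del b).ins a b = y := LG.ins_del hc.1
        rcases lt_or_eq_of_le h1 with h3 | h3
        · have h4 := LG.ins_lt hab h3
          rw [h2] at h4
          exact absurd h4 (lt_asymm hlt')
        · rw [h3] at h2
          rw [h2] at hlt'
          exact lt_irrefl _ hlt'
      · rw [if_neg hc] at hne'
        exact hne' rfl

/-- a functional is determined by its values on the labelled graphs -/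
theorem ev_zero {g D : ℕ} {nu : F (Fin n) →ₗ[ℚ] ℚ} (hnu : ∀ x, P g x → nu x = 0)
    (h : ev g D n nu = 0) (G : Gr V E (Fin n)) (hG : G.deg = D) : nu (dl G 1) = 0 := by
  by_cases hval : G.Valid g
  · have := hval.1
    have := hval.2.1
    have main : ∀ N : ℕ, ∀ G : Gr V E (Fin n), G.deg = D → ∑ᶠ v, (G.dec v).2.count 0 = N →
        nu (dl G 1) = 0 := by
      intro N
      have := Fintype.ofFinite V
      induction N with
      | zero =>
        intro G hG hN
        by_cases hval : G.Valid g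
        · have h0 : ∀ v, 0 ∉ (G.dec v).2 := by
            intro v
            rw [finsum_eq_sum_of_fintype] at hN
            exact Multiset.count_eq_zero.mp ((Finset.sum_eq_zero_iff.mp hN) v (Finset.mem_univ v))
          obtain ⟨x, h1, h2, _⟩ := exists_LG hval hG h0
          have h3 : nu (dl x.G 1) = 0 := congrFun h ⟨x, h1⟩
          have h4 : nu (dl G 1 - dl x.G 1) = 0 := hnu _ (Isub_le_Psub g _ (h2.mem 1))
          rw [map_sub, h3, sub_zero] at h4
          exact h4
        · exact hnu _ (P.triv _ (Triv.zero _ hval))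
      | succ N ih =>
        intro G hG hN
        obtain ⟨v, hv⟩ : ∃ v, (G.dec v).2.count 0 ≠ 0 := by
          by_contra hcon
          push Not at hcon
          simp [hcon] at hN
        have hmem : 0 ∈ (G.dec v).2 := Multiset.count_ne_zero.mp hv
        let G' : Gr V E (Fin n) :=
          ⟨Function.update G.dec v ((G.dec v).1, (G.dec v).2.erase 0), G.hf⟩
        have hdec : ∀ u, u ≠ v → G'.dec u = G.dec u := fun u hu => Function.update_of_ne hu _ _
        have hdecv : G'.dec v = ((G.dec v).1, (G.dec v).2.erase 0) := by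
          change Function.update G.dec v ((G.dec v).1, (G.dec v).2.erase 0) v = _
          rw [Function.update_self]
        have h1 := Triv.dilaton (g := g) G' v
        have h2 : (⟨Function.update G'.dec v ((G'.dec v).1, 0 ::ₘ (G'.dec v).2), G'.hf⟩ :
            Gr V E (Fin n)) = G := by
          apply Gr.ext'
          · intro u
            by_cases hu : u = v
            · subst hu
              change Function.update G'.dec u _ u = _
              rw [Function.update_self, hdecv]
              exact Prod.ext rfl (Multiset.cons_erase hmem)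
            · change Function.update G'.dec v _ u = _
              rw [Function.update_of_ne hu, hdec u hu]
          · intro y; rfl
        rw [h2] at h1
        have h3 := hnu _ (P.triv _ h1)
        have h4 : nu (dl G' 1) = 0 := by
          apply ih G'
          · rw [← hG]
            unfold Gr.deg
            congr 2
            apply finsum_congr
            intro u
            by_cases hu : u = v
            · subst hu
              rw [hdecv]
              change ((G.dec u).2.erase 0).sum = _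
              conv_rhs => rw [← Multiset.cons_erase hmem]
              rw [Multiset.sum_cons, zero_add]
            · rw [hdec u hu]
          · rw [finsum_eq_sum_of_fintype] at hN ⊢
            rw [← Finset.add_sum_erase _ _ (Finset.mem_univ v)] at hN ⊢
            have h5 : ∀ u ∈ Finset.univ.erase v, (G'.dec u).2.count 0 = (G.dec u).2.count 0 := by
              intro u hu
              rw [hdec u (Finset.ne_of_mem_erase hu)]
            rw [Finset.sum_congr rfl h5, hdecv]
            have h6 : ((G.dec v).2.erase 0).count 0 = (G.dec v).2.count 0 - 1 :=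
              Multiset.count_erase_self _ _
            change ((G.dec v).2.erase 0).count 0 + _ = N
            rw [h6]
            omega
        rw [map_add, dl_eq_smul G', map_smul, h4, smul_zero, add_zero] at h3
        exact h3
    exact main _ G hG rfl
  · exact hnu _ (P.triv _ (Triv.zero _ hval))

/-- the leading terms -/
def leads (g D n : ℕ) : Set (Core × (Fin n → ℕ × ℕ)) :=
  {p | ∃ (x : LG n) (hx : OK g D x) (lam : F (Fin n) →ₗ[ℚ] ℚ), (∀ x, P g x → lam x = 0) ∧
    IsLead (ev g D n lam) ⟨x, hx⟩ ∧ x.core = p.1 ∧ x.word = p.2}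

theorem leads_bound (g D : ℕ) : ∃ n0, ∀ n ≥ n0, ∀ (x : LG (n + 1)) (hx : OK g D x)
    (lam : F (Fin (n + 1)) →ₗ[ℚ] ℚ), (∀ x, P g x → lam x = 0) →
    IsLead (ev g D (n + 1) lam) ⟨x, hx⟩ → ∃ (mu : F (Fin n) →ₗ[ℚ] ℚ) (hmu : ∀ x, P g x → mu x = 0)
      (a : Fin n) (b : Fin (n + 1)), a.castSucc < b ∧
      IsLead (ev g D (n + 1) (dualF g mu hmu a b)) ⟨x, hx⟩ := by
  obtain ⟨n0, hn0⟩ := Noe.exists_bound (cores g D) (finite_cores g D) (letters D)
    (finite_letters D) (fun l => l.2 = 0) D (leads g D) (by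
      rintro n c w ⟨x, hx, lam, h1, h2, h3, h4⟩
      dsimp only at h3 h4
      rw [← h3, ← h4]
      exact ⟨hx.core_mem, hx.word_mem, hx.idle_card⟩) (by
      rintro n c w w' ⟨x, hx, lam, h1, h2, h3, h4⟩ ⟨a, b, hab, hid, hw'⟩
      dsimp only at h3 h4
      have h0 : (x.G.hf (inr a)).2 = 0 := by
        rw [← h4] at hid
        exact hid
      refine ⟨x.ins a b, hx.ins b h0, dualF g lam h1 a b, ?_, ?_, h3, ?_⟩
      · intro z hz
        exact dualF_P h1 a b hz
      · exact dualF_lead h1 hab hx h0 h2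
      · rw [LG.ins_word, h4]
        exact hw'.symm)
  refine ⟨n0, ?_⟩
  intro n hn x hx lam hlam hlead
  obtain ⟨w, ⟨z, hz, mu, h1, h2, h3, h4⟩, a, b, hab, hid, hw'⟩ :=
    hn0 n hn x.core x.word ⟨x, hx, lam, hlam, hlead, rfl, rfl⟩
  dsimp only at h3 h4
  have h0 : (z.G.hf (inr a)).2 = 0 := by
    rw [← h4] at hid
    exact hid
  have h5 : z.ins a b = x := by
    apply LG.ext'
    · exact h3
    · rw [LG.ins_word, h4]
      exact hw'.symm
  subst h5
  exact ⟨mu, h1, a, b, hab, dualF_lead h1 hab hz h0 h2⟩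

end Vale.Agent.P273
end
end
end

section

section

noncomputable section

namespace Vale.Agent.P273

open Sum
open scoped Classical

end Vale.Agent.P273
end
end
end

section

section

/-! The relation `Mg` is given by the operator `mrg`. -/

noncomputable section

namespace Vale.Agent.P273

open Sum
open scoped Classical

variable {V E L : Type}

lemma addLeg_drp {G : Gr V E (Option L)} {v : V} (h0 : 0 ∉ (G.dec v).2) :
    (G.addLeg v (G.dec v).2 0).drp = G := by
  have hvn : (G.addLeg v (G.dec v).2 0).vn = v := rfl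
  apply Gr.ext'
  · intro u
    by_cases hu : u = v
    · subst hu
      have h1 := (G.addLeg u (G.dec u).2 0).drp_dec_self
      rw [hvn, addLeg_dec_self] at h1
      rw [h1]
      apply Prod.ext
      · rfl
      · change (G.dec u).2.filter (· ≠ 0) = (G.dec u).2
        rw [Multiset.filter_eq_self]
        intro k hk hk0
        rw [hk0] at hk
        exact h0 hk
    · rw [Gr.drp_dec_ne _ (by rw [hvn]; exact hu), addLeg_dec_ne _ hu]
  · rintro (y | x) <;> rfl

lemma addLeg_nv [Finite E] [Finite L] (G : Gr V E (Option L)) (v : V) (K : Multiset ℕ) (c : ℕ) :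
    (G.addLeg v K c).nv v = G.nv v + 1 := by
  have := Fintype.ofFinite E
  have := Fintype.ofFinite L
  rw [nv_eq_finsum, nv_eq_finsum, finsum_flags, addLeg_hf_none, if_pos rfl, add_comm]
  congr 1
  apply finsum_congr
  rintro (y | x) <;> rfl

lemma mrgG_main [Finite L] {g : ℕ} {G : Gr V E (Option L)} {v : V} (hS : G.Stab g)
    (hv : G.hf (inr none) = (v, 0)) (h0 : 0 ∉ (G.dec v).2) :
    mrgG g (G.addLeg v (G.dec v).2 0) = mk g (Option L) (dl G 1) := by
  by_cases hval : (G.addLeg v (G.dec v).2 0).Valid g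
  · have hE : Finite E := hval.2.1
    have hno : ∀ y, ¬ MT (G.addLeg v (G.dec v).2 0) y := by
      intro y hy
      have h1 := hy.nv_eq
      have h2 : ((G.addLeg v (G.dec v).2 0).hf (inl y)).1 = v := by
        have h3 := hy.l1
        rw [addLeg_hf_none] at h3
        exact (congrArg Prod.fst h3).symm
      have h4 := hy.gen
      rw [h2] at h1 h4
      rw [addLeg_nv] at h1
      rw [addLeg_dec_self] at h4
      have h5 := hS.2.2.2 v
      change (G.dec v).1 = 0 at h4
      omega
    have hmc : (G.addLeg v (G.dec v).2 0).MC := by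
      constructor
      · rw [addLeg_hf_none]
        exact hv.symm
      · rw [addLeg_hf_none]
    have hcf : (G.addLeg v (G.dec v).2 0).cfac = 1 := by
      unfold Gr.cfac
      have hvn : (G.addLeg v (G.dec v).2 0).vn = v := rfl
      rw [hvn, addLeg_dec_self, Multiset.count_eq_zero_of_notMem h0]
      simp only [Finset.range_zero, ne_eq, Finset.prod_empty]
    rw [mrgG, finsum_eq_zero_of_forall_eq_zero (fun y => mterm_not (hno y)), sub_zero,
      if_pos hmc, hcf, one_smul, addLeg_drp h0]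
  · rw [mrgG_invalid hval, mk_invalid]
    intro hG
    apply hval
    apply valid_of_drp
    · rw [addLeg_hf_none]
    · rw [addLeg_drp h0]
      exact hG

lemma bubble_hf_self {L : Type} (G : Gr V E L) (x : L) :
    (G.bubble (inr x)).hf (inr (some x)) = (none, 0) := by
  unfold Gr.bubble
  simp only [ne_eq, reduceCtorEq, not_false_eq_true, Function.update_of_ne, update_inr_apply_inr, Option.elim'_update, elim_inr, Function.update_self]

lemma bubble_hf_leg {L : Type} (G : Gr V E L) {z : (E × Bool) ⊕ L} {x : L} (h : inr x ≠ z) :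
    (G.bubble z).hf (inr (some x)) = (some (G.hf (inr x)).1, (G.hf (inr x)).2) := by
  unfold Gr.bubble
  simp only [elim_inr, Option.elim'_some, Function.update_of_ne h]

lemma bubble_hf_edge {L : Type} (G : Gr V E L) {z : (E × Bool) ⊕ L} {e : E} {s : Bool}
    (h : inl (e, s) ≠ z) :
    (G.bubble z).hf (inl (some e, s)) = (some (G.hf (inl (e, s))).1, (G.hf (inl (e, s))).2) := by
  unfold Gr.bubble
  simp only [elim_inl, Option.elim_some, Function.update_of_ne h]

/-- the value on a graph with a rational tail carrying the two legs -/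
lemma mrgG_MT [Finite L] {g : ℕ} {G : Gr V E (Option (Option L))} {y : E × Bool} (hy : MT G y)
    (h0 : 0 ∉ (G.dec (G.hf (inl y)).1).2) :
    mrgG g G = - mk g (Option L) (dl hy.cut.bump 1) := by
  have hw : G.dec (G.hf (inl y)).1 = (0, 0) := by
    apply Prod.ext
    · exact hy.gen
    · apply Multiset.eq_zero_of_forall_notMem
      intro k hk
      have := hy.kap k hk
      subst this
      exact h0 hk
  by_cases hval : G.Valid g
  · have hE : Finite E := hval.2.1
    have huniq : ∀ y', MT G y' → y' = y := by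
      intro y' hy'
      have h1 : (G.hf (inl y')).1 = (G.hf (inl y)).1 := by
        have h2 := hy'.l1
        rw [hy.l1] at h2
        exact (congrArg Prod.fst h2).symm
      rcases hy.only _ h1 with h | h | h
      · exact inl_injective h
      · simp at h
      · simp at h
    have hdrp : ¬ G.drp.Valid g := by
      intro hv
      have h2 := hv.2.2.1.2.2.2 (G.hf (inl y)).1
      have h3 := G.drp_nv (G.hf (inl y)).1
      have h4 : G.vn = (G.hf (inl y)).1 := by
        unfold Gr.vn
        rw [hy.l1]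
      rw [if_pos h4, hy.nv_eq] at h3
      rw [G.drp_gen, hw] at h2
      change 2 < 2 * 0 + _ at h2
      omega
    rw [mrgG, finsum_eq_single _ y (fun y' hy' => mterm_not (fun h => hy' (huniq y' h))),
      mterm_of hy, mk_invalid hdrp, smul_zero, hw]
    simp only [Multiset.card_zero, Nat.factorial_zero, Nat.cast_one, one_smul, ite_self, zero_sub]
  · rw [mrgG_invalid hval, mk_invalid (fun H => hval (hy.valid_of_cut H)), neg_zero]

end Vale.Agent.P273
end
end
end

section

section

noncomputable section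

namespace Vale.Agent.P273

open Sum
open scoped Classical

variable {V E L : Type}

lemma low_vn (G : Gr V E L) (v : V) : (G.low v).vn = v := rfl

lemma low_dec_self (G : Gr V E L) (v : V) : (G.low v).dec v = ((G.dec v).1 - 1, (G.dec v).2) := by
  unfold Gr.low
  simp

lemma low_dec_ne (G : Gr V E L) {v u : V} (h : u ≠ v) : (G.low v).dec u = G.dec u :=
  Function.update_of_ne h _ _

lemma filter_self {K : Multiset ℕ} (h : 0 ∉ K) : K.filter (· ≠ 0) = K := by
  rw [Multiset.filter_eq_self]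
  rintro a ha rfl
  exact h ha

lemma low_rai {G : Gr V E L} {v : V} (h1 : 1 ≤ (G.dec v).1) (h0 : 0 ∉ (G.dec v).2) :
    (G.low v).rai = G := by
  apply Gr.ext'
  · intro u
    by_cases hu : u = v
    · subst hu
      have h := (G.low u).rai_dec_self
      rw [low_vn, low_dec_self] at h
      rw [h]
      simp only
      rw [filter_self h0]
      refine Prod.ext ?_ rfl
      simp only
      omega
    · rw [Gr.rai_dec_ne _ (by rw [low_vn]; exact hu), low_dec_ne G hu]
  · rintro (y | x) <;> rfl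

lemma low_cfac {G : Gr V E L} {v : V} (h0 : 0 ∉ (G.dec v).2) : (G.low v).cfac = 1 := by
  unfold Gr.cfac
  rw [low_vn, low_dec_self]
  simp only
  rw [Multiset.count_eq_zero_of_notMem h0, Finset.prod_range_zero]

lemma low_deg [Finite V] [Finite E] [Finite L] (G : Gr V E L) (v : V) :
    (G.low v).deg = G.deg := by
  have := Fintype.ofFinite V
  unfold Gr.deg
  rw [finsum_flags (fun y => ((G.low v).hf y).2)]
  have h1 : ∑ᶠ u, ((G.low v).dec u).2.sum = ∑ᶠ u, (G.dec u).2.sum := by
    apply finsum_congr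
    intro u
    by_cases hu : u = v
    · subst hu
      rw [low_dec_self]
    · rw [low_dec_ne G hu]
  have h2 : ((G.low v).hf (inr none)).2 = 0 := rfl
  have h3 : ∑ᶠ y, ((G.low v).hf (optEquiv E L (some y))).2 = ∑ᶠ y, (G.hf y).2 := by
    apply finsum_congr
    rintro (y | x) <;> rfl
  rw [h1, h2, h3, zero_add]

lemma phiG_low_invalid {θ D g : ℕ} (hθ : 1 ≤ θ) {G : Gr V E L} (hG : ¬ G.Valid g) {v : V}
    (h0 : 0 ∉ (G.dec v).2) : phiG θ D g (G.low v) = 0 := by
  unfold phiG
  by_cases hc : (G.low v).Cond θ D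
  · have h1 := hc.2.2
    rw [low_vn, low_dec_self] at h1
    simp only at h1
    rw [if_pos hc, low_rai (by omega) h0, mk_invalid hG, smul_zero]
  · rw [if_neg hc]

lemma phiG_low [Finite V] [Finite E] [Finite L] {θ g : ℕ} (hθ : 1 ≤ θ) (G : Gr V E L) {v : V}
    (h0 : 0 ∉ (G.dec v).2) : phiG θ G.deg g (G.low v) =
      if θ < (G.dec v).1 then (1 / (G.big θ : ℚ)) • mk g L (dl G 1) else 0 := by
  unfold phiG
  by_cases h1 : θ < (G.dec v).1
  · have hc : (G.low v).Cond θ G.deg := by
      refine ⟨low_deg G v, rfl, ?_⟩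
      rw [low_vn, low_dec_self]
      simp only
      omega
    rw [if_pos hc, if_pos h1, low_rai (by omega) h0, low_cfac h0]
  · rw [if_neg h1, if_neg]
    rintro ⟨_, _, h2⟩
    rw [low_vn, low_dec_self] at h2
    simp only at h2
    omega

lemma exists_big [Finite L] {θ g : ℕ} (hθ : 1 ≤ θ) {G : Gr V E L} (hG : G.Valid g)
    (h : (G.deg + 1) * θ < g) : ∃ v, θ < (G.dec v).1 := by
  obtain ⟨hV, hE, hS, _⟩ := hG
  by_contra hcon
  push Not at hcon
  have := Fintype.ofFinite V
  have h1 := hS.conn_card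
  have h2 := hS.2.2.1
  have h3 : ∑ᶠ v, (G.dec v).1 ≤ Nat.card V * θ := by
    rw [finsum_eq_sum_of_fintype, Nat.card_eq_fintype_card]
    calc ∑ v, (G.dec v).1 ≤ ∑ _v : V, θ := Finset.sum_le_sum fun v _ => hcon v
      _ = Fintype.card V * θ := by simp only [Finset.sum_const, Finset.card_univ, smul_eq_mul]
  have h4 : Nat.card E ≤ G.deg := by
    unfold Gr.deg
    omega
  obtain ⟨θ, rfl⟩ : ∃ θ', θ = θ' + 1 := ⟨θ - 1, by omega⟩
  have h5 : Nat.card V * θ ≤ (Nat.card E + 1) * θ := Nat.mul_le_mul_right θ h1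
  have h6 : (Nat.card E + 1) * (θ + 1) ≤ (G.deg + 1) * (θ + 1) :=
    Nat.mul_le_mul_right (θ + 1) (by omega)
  have h7 : Nat.card V * (θ + 1) = Nat.card V * θ + Nat.card V := by ring
  have h8 : (Nat.card E + 1) * (θ + 1) = (Nat.card E + 1) * θ + (Nat.card E + 1) := by ring
  omega

lemma phi_sum_low [Finite L] {θ g : ℕ} (hθ : 1 ≤ θ) (G : Gr V E L)
    (h0 : ∀ v, 0 ∉ (G.dec v).2) (h : (G.deg + 1) * θ < g) (c : ℚ) :
    phi θ G.deg g L (∑ᶠ (v) (_ : (G.dec v).1 ≠ 0), dl (G.low v) c) = mk g L (dl G c) := by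
  by_cases hG : G.Valid g
  · have hV : Finite V := hG.1
    have hE : Finite E := hG.2.1
    have := Fintype.ofFinite V
    rw [finsum_eq_sum_of_fintype, map_sum]
    have h1 : ∀ v, phi θ G.deg g L (∑ᶠ (_ : (G.dec v).1 ≠ 0), dl (G.low v) c) =
        if θ < (G.dec v).1 then (1 / (G.big θ : ℚ)) • mk g L (dl G c) else 0 := by
      intro v
      rw [finsum_eq_if]
      by_cases hv : (G.dec v).1 ≠ 0
      · rw [if_pos hv, phi_dl, phiG_low hθ G (h0 v)]
        split_ifs
        · rw [smul_comm, ← map_smul (mk g L), smul_dl, mul_one]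
        · rw [smul_zero]
      · rw [if_neg hv, if_neg (by omega), map_zero]
    rw [Finset.sum_congr rfl fun v _ => h1 v, ← Finset.sum_filter, Finset.sum_const,
      ← Nat.cast_smul_eq_nsmul ℚ, smul_smul]
    obtain ⟨v, hv⟩ := exists_big hθ hG h
    have h2 : (Finset.univ.filter fun v => θ < (G.dec v).1).card = G.big θ := by
      unfold Gr.big
      rw [Nat.card_eq_fintype_card, Fintype.card_subtype]
    have h3 : (G.big θ : ℚ) ≠ 0 := by
      rw [← h2]
      exact Nat.cast_ne_zero.2 (Finset.card_ne_zero_of_mem (Finset.mem_filter.2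
        ⟨Finset.mem_univ v, hv⟩))
    rw [h2, mul_one_div_cancel h3, one_smul]
  · rw [mk_invalid hG]
    by_cases hf : (Function.support fun v => ∑ᶠ (_ : (G.dec v).1 ≠ 0), dl (G.low v) c).Finite
    · rw [finsum_eq_sum _ hf, map_sum, Finset.sum_eq_zero]
      intro v _
      rw [finsum_eq_if]
      by_cases hv : (G.dec v).1 ≠ 0
      · rw [if_pos hv, phi_dl, phiG_low_invalid hθ hG (h0 v), smul_zero]
      · rw [if_neg hv, map_zero]
    · rw [finsum_of_infinite_support hf, map_zero]

variable {K : ℕ → ℕ → ∀ L, F L → Prop}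

end Vale.Agent.P273
end
end
end

section

section

/-! In each codimension, completeness is a finite problem. -/

noncomputable section

namespace Vale.Agent.P273

open Sum
open scoped Classical

variable {V E L L' L'' : Type}

end Vale.Agent.P273
end
end
end

section

section
namespace Vale.Agent.P273.Alg
open Finset

lemma trick_aux (z : ℕ → ℚ) (d : ℕ) (hz : ∀ i, d < i → z i = 0) (s : ℕ) :
    (∑ i ∈ range (d + 1), Polynomial.C (z i / (i.factorial : ℚ)) * descPochhammer ℚ i).eval (s : ℚ) =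
      ∑ i ∈ range (s + 1), (s.choose i : ℚ) * z i := by
  rw [Polynomial.eval_finsetSum]
  have h1 : ∀ i, (Polynomial.C (z i / (i.factorial : ℚ)) * descPochhammer ℚ i).eval (s : ℚ) =
      (s.choose i : ℚ) * z i := by
    intro i
    rw [Polynomial.eval_mul, Polynomial.eval_C, descPochhammer_eval_eq_descFactorial,
      Nat.descFactorial_eq_factorial_mul_choose]
    have : ((i.factorial : ℕ) : ℚ) ≠ 0 := by positivity
    push_cast
    field_simp
  simp_rw [h1]
  have h2 : ∀ N, d ≤ N → s ≤ N → ∀ M, (M = d ∨ M = s) →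
      ∑ i ∈ range (M + 1), (s.choose i : ℚ) * z i = ∑ i ∈ range (N + 1), (s.choose i : ℚ) * z i := by
    intro N h1 h2 M hM
    apply sum_subset
    · apply range_subset_range.mpr; omega
    · intro i _ hi
      rw [mem_range] at hi
      rcases hM with rfl | rfl
      · rw [hz i (by omega), mul_zero]
      · rw [Nat.choose_eq_zero_of_lt (by omega)]; simp
  rw [h2 (max d s) (le_max_left _ _) (le_max_right _ _) d (Or.inl rfl),
    h2 (max d s) (le_max_left _ _) (le_max_right _ _) s (Or.inr rfl)]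

lemma trick (z : ℕ → ℚ) (d s0 : ℕ) (hz : ∀ i, d < i → z i = 0)
    (hs : ∀ s, s ≤ s0 → s % 2 = s0 % 2 → ∑ i ∈ range (s + 1), (s.choose i : ℚ) * z i = 0)
    (h : 2 * d ≤ s0) : ∀ i, z i = 0 := by
  set p : Polynomial ℚ :=
    ∑ i ∈ range (d + 1), Polynomial.C (z i / (i.factorial : ℚ)) * descPochhammer ℚ i with hp
  have hdeg : p.natDegree ≤ d := by
    rw [hp]
    apply Polynomial.natDegree_sum_le_of_forall_le
    intro i hi
    rw [mem_range] at hi
    refine (Polynomial.natDegree_C_mul_le _ _).trans ?_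
    rw [descPochhammer_natDegree]
    omega
  have hp0 : p = 0 := by
    apply Polynomial.eq_zero_of_natDegree_lt_card_of_eval_eq_zero p
      (f := fun j : Fin (d + 1) => ((s0 - 2 * j : ℕ) : ℚ))
    · intro a b hab
      simp only [Nat.cast_inj] at hab
      apply Fin.ext
      have := a.2
      have := b.2
      (clear z hz hs p hp hdeg; omega)
    · intro j
      rw [hp, trick_aux z d hz]
      have := j.2
      apply hs _ (by omega) (by omega)
    · simp; omega
  intro i
  induction i using Nat.strong_induction_on with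
  | _ i ih =>
    have h1 := trick_aux z d hz i
    rw [← hp, hp0, Polynomial.eval_zero, sum_range_succ] at h1
    rw [sum_eq_zero (fun j hj => by rw [ih j (mem_range.mp hj), mul_zero])] at h1
    simpa using h1.symm

open MvPolynomial

/-- all monomials of `q` have weight at least `n` -/
def Ge (w : ℕ → ℕ) (n : ℕ) (q : MvPolynomial ℕ ℚ) : Prop :=
  ∀ e ∈ q.support, n ≤ Finsupp.weight w e

lemma Ge.mul {w : ℕ → ℕ} {m n : ℕ} {p q : MvPolynomial ℕ ℚ} (hp : Ge w m p) (hq : Ge w n q) :
    Ge w (m + n) (p * q) := by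
  classical
  intro e he
  have h := support_mul p q he
  rw [Finset.mem_add] at h
  obtain ⟨a, ha, b, hb, rfl⟩ := h
  rw [map_add]
  exact add_le_add (hp a ha) (hq b hb)

lemma Ge.zero (w : ℕ → ℕ) (q : MvPolynomial ℕ ℚ) : Ge w 0 q := fun _ _ => Nat.zero_le _

lemma Ge.pow {w : ℕ → ℕ} {m : ℕ} {p : MvPolynomial ℕ ℚ} (hp : Ge w m p) (n : ℕ) :
    Ge w (n * m) (p ^ n) := by
  induction n with
  | zero => simpa using Ge.zero w _
  | succ n ih =>
    rw [pow_succ, Nat.succ_mul]
    exact ih.mul hp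

/-- the element attached to an extra point with coefficient function `f` -/
noncomputable def Xs (D : ℕ) (f : ℕ → ℚ) : MvPolynomial ℕ ℚ := ∑ j ∈ range (D + 1), C (f j) * X j

lemma Xs_add (D : ℕ) (f g : ℕ → ℚ) : Xs D (fun j => f j + g j) = Xs D f + Xs D g := by
  simp only [Xs, C_add, add_mul, sum_add_distrib]

lemma Xs_hom (D : ℕ) (f : ℕ → ℚ) : (Xs D f).IsHomogeneous 1 := by
  apply IsHomogeneous.sum
  intro j _
  have := (isHomogeneous_C ℕ (f j)).mul (isHomogeneous_X ℚ j)
  simpa using this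

lemma Xs_Ge (D : ℕ) (f : ℕ → ℚ) (w : ℕ → ℕ) (n : ℕ) (h : ∀ j, f j ≠ 0 → n ≤ w j) :
    Ge w n (Xs D f) := by
  classical
  intro e he
  have h1 := Finsupp.mem_support_iff.mp he
  change coeff e (Xs D f) ≠ 0 at h1
  unfold Xs at h1
  rw [coeff_sum] at h1
  obtain ⟨j, _, hj⟩ := exists_ne_zero_of_sum_ne_zero h1
  rw [coeff_C_mul, coeff_X] at hj
  split_ifs at hj with h2
  · subst h2
    rw [Finsupp.weight_single]
    have : f j ≠ 0 := by intro h; simp [h] at hj
    simpa using h j this
  · simp at hj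

noncomputable def hh (D : ℕ) : MvPolynomial ℕ ℚ := Xs D (fun j => if j = 0 then 0 else - b0 j)

noncomputable def ex (D : ℕ) : MvPolynomial ℕ ℚ :=
  ∑ t ∈ range (D + 1), C (1 / (t.factorial : ℚ)) * hh D ^ t

variable {P : Type} [Fintype P]

open Classical in
/-- exponent functions with all values at most `D` -/
noncomputable def box (P : Type) [Fintype P] (D : ℕ) : Finset (P → ℕ) :=
  Fintype.piFinset (fun _ : P => range (D + 1))

lemma mem_box {D : ℕ} {c : P → ℕ} : c ∈ box P D ↔ ∀ p, c p < D + 1 := by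
  classical
  unfold box
  rw [@Fintype.mem_piFinset]
  simp only [mem_range, Order.lt_add_one_iff]

noncomputable def Psi (D : ℕ) (Φ : (P → ℕ) → MvPolynomial ℕ ℚ →ₗ[ℚ] ℚ) (w : P → ℕ → ℚ)
    (q : MvPolynomial ℕ ℚ) : ℚ :=
  ∑ c ∈ box P D, (∏ p, w p (c p)) * Φ c (ex D * q)

/-- a functional with the dilaton property and the degree property -/
structure Fun (P : Type) [Fintype P] (χ : ℚ) (D : ℕ)
    (Φ : (P → ℕ) → MvPolynomial ℕ ℚ →ₗ[ℚ] ℚ) : Prop where
  deg : ∀ c e, ∑ p, c p + Finsupp.weight id e ≠ D → Φ c (monomial e 1) = 0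
  dil : ∀ c e, Φ c (monomial (Finsupp.single 0 1 + e) 1) =
    (χ + ((Finsupp.weight (fun _ => (1 : ℕ)) e : ℕ) : ℚ)) * Φ c (monomial e 1)

lemma Phi_eq (Φ : MvPolynomial ℕ ℚ →ₗ[ℚ] ℚ) (q : MvPolynomial ℕ ℚ) :
    Φ q = ∑ e ∈ q.support, coeff e q * Φ (monomial e 1) := by
  conv_lhs => rw [as_sum q]
  rw [map_sum]
  apply sum_congr rfl
  intro e _
  rw [← smul_eq_mul, ← map_smul, smul_monomial, smul_eq_mul, mul_one]

lemma Phi_zero_of_support {Φ : MvPolynomial ℕ ℚ →ₗ[ℚ] ℚ} {q : MvPolynomial ℕ ℚ}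
    (h : ∀ e ∈ q.support, Φ (monomial e 1) = 0) : Φ q = 0 := by
  rw [Phi_eq]
  apply sum_eq_zero
  intro e he
  rw [h e he, mul_zero]

lemma Fun.zero_of_Ge {χ : ℚ} {D : ℕ} {Φ : (P → ℕ) → MvPolynomial ℕ ℚ →ₗ[ℚ] ℚ}
    (hΦ : Fun P χ D Φ) {c : P → ℕ} {n : ℕ} {q : MvPolynomial ℕ ℚ} (hq : Ge id n q)
    (h : D < ∑ p, c p + n) : Φ c q = 0 := by
  apply Phi_zero_of_support
  intro e he
  apply hΦ.deg
  have := hq e he
  omega

lemma Fun.X0 {χ : ℚ} {D : ℕ} {Φ : (P → ℕ) → MvPolynomial ℕ ℚ →ₗ[ℚ] ℚ}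
    (hΦ : Fun P χ D Φ) {c : P → ℕ} {n : ℕ} {q : MvPolynomial ℕ ℚ} (hq : q.IsHomogeneous n) :
    Φ c (X 0 * q) = (χ + n) * Φ c q := by
  conv_lhs => rw [as_sum q]
  rw [mul_sum, map_sum, Phi_eq (Φ c) q, mul_sum]
  apply sum_congr rfl
  intro e he
  have h1 : Finsupp.weight (fun _ => (1 : ℕ)) e = n := by
    have := hq (mem_support_iff.mp he)
    simpa [Pi.one_def] using this
  have h2 : (X 0 : MvPolynomial ℕ ℚ) * monomial e (coeff e q) =
      coeff e q • monomial (Finsupp.single 0 1 + e) (1 : ℚ) := by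
    rw [X, monomial_mul, smul_monomial, one_mul, smul_eq_mul, mul_one]
  rw [h2, map_smul, hΦ.dil, h1, smul_eq_mul]
  ring

lemma hh_hom (D : ℕ) : (hh D).IsHomogeneous 1 := Xs_hom _ _

lemma hh_Ge (D : ℕ) : Ge id 1 (hh D) := by
  apply Xs_Ge
  intro j hj
  simp only [id]
  by_contra h
  have : j = 0 := by omega
  simp [this] at hj

lemma Xs_B0 (D : ℕ) : Xs D (Bc 0) = X 0 - hh D := by
  unfold hh Xs
  rw [sum_range_succ' , sum_range_succ' _ D]
  simp only [Bc_zero, b0_zero]
  simp only [Nat.add_eq_zero_iff, one_ne_zero, and_false, if_false, map_neg, neg_mul,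
    sum_neg_distrib, if_true, map_zero, zero_mul, add_zero, map_one, one_mul]
  ring

/-- the extra points with the series `B_0` act as Euler operator -/
lemma Fun.dilaton {χ : ℚ} {D : ℕ} {Φ : (P → ℕ) → MvPolynomial ℕ ℚ →ₗ[ℚ] ℚ}
    (hΦ : Fun P χ D Φ) {c : P → ℕ} {n : ℕ} {q : MvPolynomial ℕ ℚ} (hq : q.IsHomogeneous n) :
    Φ c (ex D * (Xs D (Bc 0) * q)) = (χ + n) * Φ c (ex D * q) := by
  have e1 : ex D * (Xs D (Bc 0) * q) =
      ∑ t ∈ range (D + 1), (1 / (t.factorial : ℚ)) • (X 0 * (hh D ^ t * q)) -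
      ∑ t ∈ range (D + 1), (1 / (t.factorial : ℚ)) • (hh D ^ (t + 1) * q) := by
    rw [Xs_B0]
    unfold ex
    rw [← sum_sub_distrib, sum_mul]
    apply sum_congr rfl
    intro t _
    rw [smul_eq_C_mul, smul_eq_C_mul]
    ring
  have e2 : ex D * q = ∑ t ∈ range (D + 1), (1 / (t.factorial : ℚ)) • (hh D ^ t * q) := by
    unfold ex
    rw [sum_mul]
    apply sum_congr rfl
    intro t _
    rw [smul_eq_C_mul]
    ring
  rw [e1, e2, map_sub, map_sum, map_sum, map_sum]
  simp only [map_smul]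
  have e3 : ∀ t, Φ c (X 0 * (hh D ^ t * q)) = (χ + (t + n : ℕ)) * Φ c (hh D ^ t * q) := by
    intro t
    apply hΦ.X0
    have := ((hh_hom D).pow t).mul hq
    simpa using this
  simp_rw [e3]
  have e4 : ∑ t ∈ range (D + 1), (1 / (t.factorial : ℚ)) • Φ c (hh D ^ (t + 1) * q) =
      ∑ t ∈ range (D + 1), ((t : ℚ) / (t.factorial : ℚ)) • Φ c (hh D ^ t * q) := by
    rw [sum_range_succ, sum_range_succ' (fun t => ((t : ℚ) / (t.factorial : ℚ)) • Φ c (hh D ^ t * q))]
    have z : Φ c (hh D ^ (D + 1) * q) = 0 := by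
      apply hΦ.zero_of_Ge (((hh_Ge D).pow (D + 1)).mul (Ge.zero id q))
      omega
    rw [z]
    simp only [smul_zero, add_zero, Nat.cast_zero, zero_div, zero_smul]
    apply sum_congr rfl
    intro t _
    congr 1
    have hf : ((t + 1).factorial : ℚ) = (t + 1) * (t.factorial : ℚ) := by
      rw [Nat.factorial_succ]; push_cast; ring
    have e5 : ((t : ℚ) + 1) ≠ 0 := by (clear * -; positivity)
    have e6 : ((t.factorial : ℕ) : ℚ) ≠ 0 := by positivity
    rw [hf]
    push_cast
    field_simp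
  rw [e4, ← sum_sub_distrib, mul_sum]
  apply sum_congr rfl
  intro t _
  simp only [smul_eq_mul]
  push_cast
  ring

lemma Psi_dilaton {χ : ℚ} {D : ℕ} {Φ : (P → ℕ) → MvPolynomial ℕ ℚ →ₗ[ℚ] ℚ}
    (hΦ : Fun P χ D Φ) (w : P → ℕ → ℚ) {n : ℕ} {q : MvPolynomial ℕ ℚ} (hq : q.IsHomogeneous n) :
    Psi D Φ w (Xs D (Bc 0) * q) = (χ + n) * Psi D Φ w q := by
  unfold Psi
  rw [mul_sum]
  apply sum_congr rfl
  intro c _
  rw [hΦ.dilaton hq]
  ring

end Vale.Agent.P273.Alg
end
end

section

section
namespace Vale.Agent.P273.Alg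
open Finset MvPolynomial

variable {P : Type} [Fintype P]

lemma Psi_add (D : ℕ) (Φ : (P → ℕ) → MvPolynomial ℕ ℚ →ₗ[ℚ] ℚ) (w : P → ℕ → ℚ)
    (q q' : MvPolynomial ℕ ℚ) : Psi D Φ w (q + q') = Psi D Φ w q + Psi D Φ w q' := by
  unfold Psi
  rw [← sum_add_distrib]
  apply sum_congr rfl
  intro c _
  rw [mul_add, map_add, mul_add]

lemma Psi_smul (D : ℕ) (Φ : (P → ℕ) → MvPolynomial ℕ ℚ →ₗ[ℚ] ℚ) (w : P → ℕ → ℚ)
    (a : ℚ) (q : MvPolynomial ℕ ℚ) : Psi D Φ w (a • q) = a * Psi D Φ w q := by
  unfold Psi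
  rw [mul_sum]
  apply sum_congr rfl
  intro c _
  rw [mul_smul_comm, map_smul, smul_eq_mul]
  ring

lemma Psi_sum {ι : Type} (D : ℕ) (Φ : (P → ℕ) → MvPolynomial ℕ ℚ →ₗ[ℚ] ℚ) (w : P → ℕ → ℚ)
    (s : Finset ι) (q : ι → MvPolynomial ℕ ℚ) :
    Psi D Φ w (∑ i ∈ s, q i) = ∑ i ∈ s, Psi D Φ w (q i) := by
  classical
  induction s using Finset.induction_on with
  | empty =>
    have := Psi_smul D Φ w 0 0
    simpa using this
  | insert a s ha ih => rw [sum_insert ha, sum_insert ha, Psi_add, ih]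

lemma Psi_zero_w (D : ℕ) (Φ : (P → ℕ) → MvPolynomial ℕ ℚ →ₗ[ℚ] ℚ) (w : P → ℕ → ℚ)
    (q : MvPolynomial ℕ ℚ) (p : P) (h : ∀ j, w p j = 0) : Psi D Φ w q = 0 := by
  unfold Psi
  apply sum_eq_zero
  intro c _
  rw [prod_eq_zero (mem_univ p) (h _), zero_mul]

/-- the difference series -/
noncomputable def U (D : ℕ) : MvPolynomial ℕ ℚ := Xs D (fun j => Bc 1 j - Bc 0 j)

lemma U_hom (D : ℕ) : (U D).IsHomogeneous 1 := Xs_hom _ _

lemma U_Ge (D : ℕ) : Ge id 1 (U D) := by
  apply Xs_Ge
  intro j hj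
  simp only [id]
  by_contra h
  have : j = 0 := by omega
  rw [this, Bc_zero, Bc_one, b0_zero, b1_zero] at hj
  simp at hj

lemma Xs_B1 (D : ℕ) : Xs D (Bc 1) = Xs D (Bc 0) + U D := by
  unfold U
  rw [← Xs_add]
  congr 1
  funext j
  ring

lemma Psi_dilaton_pow {χ : ℚ} {D : ℕ} {Φ : (P → ℕ) → MvPolynomial ℕ ℚ →ₗ[ℚ] ℚ}
    (hΦ : Fun P χ D Φ) (w : P → ℕ → ℚ) {n : ℕ} {q : MvPolynomial ℕ ℚ} (hq : q.IsHomogeneous n)
    (m : ℕ) : Psi D Φ w (Xs D (Bc 0) ^ m * q) = rp (χ + n) m * Psi D Φ w q := by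
  induction m with
  | zero => simp [rp_zero]
  | succ m ih =>
    rw [pow_succ', mul_assoc, Psi_dilaton hΦ w (n := m + n), ih, rp_succ]
    · push_cast; ring
    · have := ((Xs_hom D (Bc 0)).pow m).mul hq
      simpa using this

lemma rp_add (a : ℚ) (m n : ℕ) : rp a (m + n) = rp a m * rp (a + m) n := by
  induction n with
  | zero => simp [rp_zero]
  | succ n ih => rw [← add_assoc, rp_succ, ih, rp_succ]; push_cast; ring

lemma rp_pos {a : ℚ} (ha : 0 < a) (m : ℕ) : 0 < rp a m := by
  unfold rp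
  apply prod_pos
  intro j _
  positivity

lemma Psi_expand {χ : ℚ} (hχ : 0 < χ) {D : ℕ} {Φ : (P → ℕ) → MvPolynomial ℕ ℚ →ₗ[ℚ] ℚ}
    (hΦ : Fun P χ D Φ) (w : P → ℕ → ℚ) (s : ℕ) :
    Psi D Φ w (Xs D (Bc 1) ^ s) =
      rp χ s * ∑ i ∈ range (s + 1), (s.choose i : ℚ) * (Psi D Φ w (U D ^ i) / rp χ i) := by
  rw [Xs_B1, add_comm, add_pow, Psi_sum, mul_sum]
  apply sum_congr rfl
  intro i hi
  rw [mem_range] at hi
  have e : U D ^ i * Xs D (Bc 0) ^ (s - i) * (s.choose i : MvPolynomial ℕ ℚ) =
      (s.choose i : ℚ) • (Xs D (Bc 0) ^ (s - i) * U D ^ i) := by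
    rw [smul_eq_C_mul, map_natCast]
    ring
  rw [e, Psi_smul, Psi_dilaton_pow hΦ w (n := i)]
  · have h1 : rp χ s = rp χ i * rp (χ + i) (s - i) := by
      rw [← rp_add]; congr 1; omega
    have h2 := (rp_pos hχ i).ne'
    rw [h1]
    field_simp
  · simpa using (U_hom D).pow i

/-- the main trick for the functional `Psi` -/
lemma Psi_trick {χ : ℚ} (hχ : 0 < χ) {D : ℕ} {Φ : (P → ℕ) → MvPolynomial ℕ ℚ →ₗ[ℚ] ℚ}
    (hΦ : Fun P χ D Φ) (w : P → ℕ → ℚ) (d s0 : ℕ) (hz : ∀ i, d < i → Psi D Φ w (U D ^ i) = 0)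
    (hs : ∀ s, s ≤ s0 → s % 2 = s0 % 2 → Psi D Φ w (Xs D (Bc 1) ^ s) = 0)
    (h : 2 * d ≤ s0) : ∀ i, Psi D Φ w (U D ^ i) = 0 := by
  have key := trick (fun i => Psi D Φ w (U D ^ i) / rp χ i) d s0
    (by intro i hi; simp [hz i hi])
    (by
      intro s h1 h2
      have h3 := hs s h1 h2
      rw [Psi_expand hχ hΦ] at h3
      have h4 := (rp_pos hχ s).ne'
      exact (mul_eq_zero.mp h3).resolve_left h4) h
  intro i
  have h5 := key i
  have h6 := (rp_pos hχ i).ne'
  simpa [h6] using h5

lemma ex_Ge (D : ℕ) : Ge id 0 (ex D) := Ge.zero _ _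

lemma Psi_zero_of_deg {χ : ℚ} {D : ℕ} {Φ : (P → ℕ) → MvPolynomial ℕ ℚ →ₗ[ℚ] ℚ}
    (hΦ : Fun P χ D Φ) (w : P → ℕ → ℚ) (o : P → ℕ) (ho : ∀ p j, j < o p → w p j = 0)
    {n : ℕ} {q : MvPolynomial ℕ ℚ} (hq : Ge id n q) (h : D < ∑ p, o p + n) : Psi D Φ w q = 0 := by
  classical
  unfold Psi
  apply sum_eq_zero
  intro c _
  by_cases hc : ∀ p, o p ≤ c p
  · rw [hΦ.zero_of_Ge (n := n), mul_zero]
    · have := (ex_Ge D).mul hq
      simpa using this
    · have : ∑ p, o p ≤ ∑ p, c p := sum_le_sum (fun p _ => hc p)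
      omega
  · push Not at hc
    obtain ⟨p, hp⟩ := hc
    rw [prod_eq_zero (mem_univ p) (ho p _ hp), zero_mul]

/-- the interior relations -/
def Rel (g D : ℕ) (Φ : (P → ℕ) → MvPolynomial ℕ ℚ →ₗ[ℚ] ℚ) : Prop :=
  ∀ (A : P → ℕ) (s : ℕ), ∑ p, A p + s + g + 1 ≤ 3 * D →
    (∑ p, A p + s + g + 1) % 2 = (3 * D) % 2 →
    Psi D Φ (fun p => Bc (A p)) (Xs D (Bc 1) ^ s) = 0

open Classical in
/-- additivity in the weights over a set `E` of coordinates -/
lemma Psi_subset (D : ℕ) (Φ : (P → ℕ) → MvPolynomial ℕ ℚ →ₗ[ℚ] ℚ) (u v : P → ℕ → ℚ)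
    (E : Finset P) (q : MvPolynomial ℕ ℚ) :
    Psi D Φ (fun p => if p ∈ E then (fun j => u p j + v p j) else v p) q =
      ∑ E' ∈ E.powerset, Psi D Φ (fun p => if p ∈ E' then u p else v p) q := by
  unfold Psi
  rw [sum_comm]
  apply sum_congr rfl
  intro c _
  rw [← sum_mul]
  congr 1
  have h1 : ∀ E' : Finset P, (∏ p, (if p ∈ E' then u p else v p) (c p)) =
      (∏ p ∈ E', u p (c p)) * ∏ p ∈ univ \ E', v p (c p) := by
    intro E'
    rw [← prod_sdiff (subset_univ E'), mul_comm]
    congr 1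
    · apply prod_congr rfl
      intro p hp
      rw [if_pos hp]
    · apply prod_congr rfl
      intro p hp
      rw [mem_sdiff] at hp
      rw [if_neg hp.2]
  have h2 : (∏ p, (if p ∈ E then (fun j => u p j + v p j) else v p) (c p)) =
      (∏ p ∈ E, (u p (c p) + v p (c p))) * ∏ p ∈ univ \ E, v p (c p) := by
    rw [← prod_sdiff (subset_univ E), mul_comm]
    congr 1
    · apply prod_congr rfl
      intro p hp
      rw [if_pos hp]
    · apply prod_congr rfl
      intro p hp
      rw [mem_sdiff] at hp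
      rw [if_neg hp.2]
  rw [h2, prod_add, sum_mul]
  apply sum_congr rfl
  intro E' hE'
  rw [mem_powerset] at hE'
  rw [h1, mul_assoc]
  congr 1
  rw [← prod_union]
  · apply prod_congr _ (fun _ _ => rfl)
    ext p
    simp only [mem_union, mem_sdiff, mem_univ, true_and]
    constructor
    · rintro (⟨_, h⟩ | h)
      · exact h
      · exact fun h' => h (hE' h')
    · intro h
      by_cases hp : p ∈ E
      · exact Or.inl ⟨hp, h⟩
      · exact Or.inr hp
  · rw [disjoint_left]
    intro p hp hp'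
    rw [mem_sdiff] at hp hp'
    exact hp'.2 hp.1

lemma Bc_order (a j : ℕ) (h : 3 * j + 3 ≤ a) : Bc a j = 0 := by
  unfold Bc
  rw [if_pos (by omega)]

open Classical in
/-- Step 1 -/
lemma step1 {χ : ℚ} (hχ : 0 < χ) {g D : ℕ} {Φ : (P → ℕ) → MvPolynomial ℕ ℚ →ₗ[ℚ] ℚ}
    (hΦ : Fun P χ D Φ) (hrel : Rel g D Φ) (k : P → ℕ) (hk : ∑ p, k p + g + 1 ≤ D) (E : Finset P) :
    ∀ i, Psi D Φ (fun p => if p ∈ E then (fun j => Bc (3 * k p + 1) j - Bc (3 * k p) j)
      else Bc (3 * k p)) (U D ^ i) = 0 := by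
  induction E using Finset.strongInduction with
  | H E ih =>
    set w : P → ℕ → ℚ := fun p => if p ∈ E then (fun j => Bc (3 * k p + 1) j - Bc (3 * k p) j)
      else Bc (3 * k p) with hw
    have ho : ∀ p j, j < k p + (if p ∈ E then 1 else 0) → w p j = 0 := by
      intro p j hj
      rw [hw]
      dsimp only
      split_ifs at hj ⊢ with h
      · change Bc (3 * k p + 1) j - Bc (3 * k p) j = 0
        rcases Nat.lt_or_ge j (k p) with h1 | h1
        · rw [Bc_order _ _ (by omega), Bc_order _ _ (by omega), sub_zero]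
        · have : j = k p := by omega
          subst this
          unfold Bc
          have e1 : (3 * k p + 1) / 3 = k p := by omega
          have e2 : (3 * k p + 1) % 3 = 1 := by omega
          have e3 : (3 * k p) / 3 = k p := by omega
          have e4 : (3 * k p) % 3 = 0 := by omega
          simp only [e1, lt_self_iff_false, ↓reduceIte, e2, one_ne_zero, tsub_self, b1_zero, ne_eq, OfNat.ofNat_ne_zero, not_false_eq_true, mul_div_cancel_left₀, Nat.mul_mod_right, b0_zero, sub_self]
      · exact Bc_order _ _ (by omega)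
    have hsum : ∑ p, (k p + (if p ∈ E then 1 else 0)) = ∑ p, k p + E.card := by
      rw [sum_add_distrib]
      simp only [sum_ite_mem, univ_inter, sum_const, smul_eq_mul, mul_one, Nat.add_left_cancel_iff]
    have hdeg : ∀ i, D < ∑ p, k p + E.card + i → Psi D Φ w (U D ^ i) = 0 := by
      intro i hi
      apply Psi_zero_of_deg hΦ w _ ho (n := i)
      · simpa using (U_Ge D).pow i
      · rw [hsum]; exact hi
    rcases Nat.lt_or_ge D (∑ p, k p + E.card) with hbig | hbig
    · intro i
      exact hdeg i (by omega)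
    · apply Psi_trick hχ hΦ w (D - ∑ p, k p - E.card) (3 * D - g - 1 - 3 * ∑ p, k p - E.card)
      · intro i hi
        exact hdeg i (by omega)
      · intro s hs hpar
        -- compare with the full weights
        set v : P → ℕ → ℚ := fun p => Bc (3 * k p + (if p ∈ E then 1 else 0)) with hv
        have hv0 : Psi D Φ v (Xs D (Bc 1) ^ s) = 0 := by
          have e1 : ∑ p, (3 * k p + (if p ∈ E then 1 else 0)) = 3 * ∑ p, k p + E.card := by
            rw [sum_add_distrib, mul_sum]
            simp only [sum_ite_mem, univ_inter, sum_const, smul_eq_mul, mul_one, Nat.add_left_cancel_iff]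
          apply hrel
          · rw [e1]; omega
          · rw [e1]; omega
        have hcomp : ∀ i, Psi D Φ w (U D ^ i) = Psi D Φ v (U D ^ i) := by
          intro i
          have e1 : v = (fun p => if p ∈ E then
              (fun j => (Bc (3 * k p + 1) j - Bc (3 * k p) j) + Bc (3 * k p) j)
              else Bc (3 * k p)) := by
            rw [hv]
            funext p j
            split_ifs <;> simp
          rw [e1, Psi_subset D Φ (fun p j => Bc (3 * k p + 1) j - Bc (3 * k p) j)
            (fun p => Bc (3 * k p)) E]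
          rw [sum_eq_single E]
          · intro E' hE' hne
            rw [mem_powerset] at hE'
            exact ih E' (lt_of_le_of_ne hE' hne) i
          · intro h
            exact absurd (mem_powerset_self E) h
        rw [Psi_expand hχ hΦ] at hv0 ⊢
        rw [← hv0]
        congr 1
        apply sum_congr rfl
        intro i _
        rw [hcomp]
      · omega

end Vale.Agent.P273.Alg
end
end

section

section
namespace Vale.Agent.P273.Alg
open Finset MvPolynomial

variable {P : Type} [Fintype P]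

lemma Fun.ex_one {χ : ℚ} {D : ℕ} {Φ : (P → ℕ) → MvPolynomial ℕ ℚ →ₗ[ℚ] ℚ}
    (hΦ : Fun P χ D Φ) (c : P → ℕ) (hc : D ≤ ∑ p, c p) : Φ c (ex D * 1) = Φ c 1 := by
  have e2 : ex D * 1 = ∑ t ∈ range (D + 1), (1 / (t.factorial : ℚ)) • (hh D ^ t) := by
    unfold ex
    rw [mul_one]
    apply sum_congr rfl
    intro t _
    rw [smul_eq_C_mul]
  rw [e2, map_sum, sum_eq_single 0]
  · simp only [Nat.factorial_zero, Nat.cast_one, ne_eq, one_ne_zero, not_false_eq_true, div_self, pow_zero, one_smul]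
  · intro t _ ht
    rw [map_smul, hΦ.zero_of_Ge ((hh_Ge D).pow t), smul_zero]
    omega
  · intro h; simp only [mem_range, lt_add_iff_pos_left, Order.lt_add_one_iff, zero_le, not_true_eq_false] at h

lemma Psi_lead {χ : ℚ} {D : ℕ} {Φ : (P → ℕ) → MvPolynomial ℕ ℚ →ₗ[ℚ] ℚ}
    (hΦ : Fun P χ D Φ) (w : P → ℕ → ℚ) (o : P → ℕ) (ho : ∀ p j, j < o p → w p j = 0)
    (hD : ∑ p, o p = D) : Psi D Φ w 1 = (∏ p, w p (o p)) * Φ o 1 := by
  classical
  unfold Psi
  rw [sum_eq_single o]
  · rw [hΦ.ex_one o hD.ge]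
  · intro c _ hne
    by_cases hc : ∀ p, o p ≤ c p
    · rw [hΦ.zero_of_Ge (n := 0), mul_zero]
      · exact Ge.zero _ _
      · rw [← hD, add_zero]
        apply sum_lt_sum (fun p _ => hc p)
        by_contra h
        push Not at h
        apply hne
        funext p
        exact le_antisymm (h p (mem_univ p)) (hc p)
    · push Not at hc
      obtain ⟨p, hp⟩ := hc
      rw [prod_eq_zero (mem_univ p) (ho p _ hp), zero_mul]
  · intro h
    exfalso
    apply h
    rw [mem_box]
    intro p
    have : o p ≤ ∑ p, o p := single_le_sum (fun _ _ => Nat.zero_le _) (mem_univ p)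
    omega

/-- interior classes with large support vanish -/
lemma supp_big {χ : ℚ} (hχ : 0 < χ) {g D : ℕ} {Φ : (P → ℕ) → MvPolynomial ℕ ℚ →ₗ[ℚ] ℚ}
    (hΦ : Fun P χ D Φ) (hrel : Rel g D Φ) (c : P → ℕ) (hc : ∑ p, c p = D)
    (hs : g + 1 ≤ (univ.filter (fun p => c p ≠ 0)).card) : Φ c 1 = 0 := by
  classical
  obtain ⟨J, hJ, hJc⟩ := exists_subset_card_eq hs
  have hJ1 : ∀ p ∈ J, 1 ≤ c p := by
    intro p hp
    have := hJ hp
    rw [mem_filter] at this
    omega
  set k : P → ℕ := fun p => c p - (if p ∈ J then 1 else 0) with hk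
  have hkc : ∀ p, k p + (if p ∈ J then 1 else 0) = c p := by
    intro p
    rw [hk]
    dsimp only
    split_ifs with h
    · have := hJ1 p h; omega
    · rfl
  have hsum : ∑ p, k p + (g + 1) = D := by
    rw [← hc, ← sum_congr rfl (fun p _ => hkc p), sum_add_distrib]
    simp only [sum_ite_mem, univ_inter, sum_const, hJc, smul_eq_mul, mul_one, Nat.add_left_cancel_iff]
  have h1 := step1 hχ hΦ hrel k (by omega) J 0
  rw [pow_zero, Psi_lead hΦ _ c _ hc] at h1
  · rcases mul_eq_zero.mp h1 with h2 | h2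
    · exfalso
      rw [prod_eq_zero_iff] at h2
      obtain ⟨p, _, hp⟩ := h2
      split_ifs at hp with h3
      · have e0 : c p = k p + 1 := by rw [← hkc p, if_pos h3]
        change Bc (3 * k p + 1) (c p) - Bc (3 * k p) (c p) = 0 at hp
        unfold Bc at hp
        have e1 : (3 * k p + 1) / 3 = k p := by omega
        have e2 : (3 * k p + 1) % 3 = 1 := by omega
        have e3 : (3 * k p) / 3 = k p := by omega
        have e4 : (3 * k p) % 3 = 0 := by omega
        have e5 : k p + 1 - k p = 1 := by omega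
        have e6 : ¬ (k p + 1 < k p) := by omega
        rw [e1, e2, e3, e4, e0, e5] at hp
        simp only [e6, if_false] at hp
        have := b1_sub_b0 0
        simp only [zero_add, CharP.cast_eq_zero, mul_zero, add_zero, mul_one, b0_zero, one_ne_zero, ↓reduceIte] at this hp
        rw [this] at hp
        norm_num at hp
      · have e0 : c p = k p := by rw [← hkc p, if_neg h3, add_zero]
        unfold Bc at hp
        have e3 : (3 * k p) / 3 = k p := by omega
        have e4 : (3 * k p) % 3 = 0 := by omega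
        rw [e3, e4, e0] at hp
        simp [b0_zero] at hp
    · exact h2
  · intro p j hj
    split_ifs with h3
    · change Bc (3 * k p + 1) j - Bc (3 * k p) j = 0
      have e0 : c p = k p + 1 := by rw [← hkc p, if_pos h3]
      rcases Nat.lt_or_ge j (k p) with h1 | h1
      · rw [Bc_order _ _ (by omega), Bc_order _ _ (by omega), sub_zero]
      · have : j = k p := by omega
        subst this
        unfold Bc
        have e1 : (3 * k p + 1) / 3 = k p := by omega
        have e2 : (3 * k p + 1) % 3 = 1 := by omega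
        have e3 : (3 * k p) / 3 = k p := by omega
        have e4 : (3 * k p) % 3 = 0 := by omega
        simp only [e1, lt_self_iff_false, ↓reduceIte, e2, one_ne_zero, tsub_self, b1_zero, ne_eq, OfNat.ofNat_ne_zero, not_false_eq_true, mul_div_cancel_left₀, Nat.mul_mod_right, b0_zero, sub_self]
    · have e0 : c p = k p := by rw [← hkc p, if_neg h3, add_zero]
      exact Bc_order _ _ (by omega)

/-- weight function counting the nontrivial extra points -/
def nz : ℕ → ℕ := fun j => if j = 0 then 0 else 1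

lemma U_nz (D : ℕ) : Ge nz 1 (U D) := by
  apply Xs_Ge
  intro j hj
  unfold nz
  split_ifs with h
  · rw [h, Bc_zero, Bc_one, b0_zero, b1_zero] at hj
    simp at hj
  · exact le_refl _

open Classical in
lemma Psi_ms (D : ℕ) (Φ : (P → ℕ) → MvPolynomial ℕ ℚ →ₗ[ℚ] ℚ) (n : P → ℕ)
    (α : P → ℕ → ℚ) (q : MvPolynomial ℕ ℚ) :
    Psi D Φ (fun p j => ∑ a ∈ range (n p), α p a * Bc a j) q =
      ∑ a ∈ Fintype.piFinset (fun p => range (n p)), (∏ p, α p (a p)) *
        Psi D Φ (fun p => Bc (a p)) q := by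
  unfold Psi
  simp_rw [mul_sum]
  rw [sum_comm]
  apply sum_congr rfl
  intro c _
  rw [prod_univ_sum, sum_mul]
  apply sum_congr rfl
  intro a _
  rw [prod_mul_distrib]
  ring

open Classical in
lemma step2 {χ : ℚ} (hχ : 0 < χ) {g D : ℕ} {Φ : (P → ℕ) → MvPolynomial ℕ ℚ →ₗ[ℚ] ℚ}
    (hΦ : Fun P χ D Φ) (hrel : Rel g D Φ) (hD1 : g + 1 ≤ D) (hD2 : 5 * g ≤ 3 * D + 1)
    (c : P → ℕ) (hc : ∑ p, c p = D) (r : ℕ) (hr : r ≤ g)
    (hcr : (univ.filter (fun p => c p ≠ 0)).card = r)
    (IH : ∀ (c' : P → ℕ) e', r + 1 ≤ (univ.filter (fun p => c' p ≠ 0)).card +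
      Finsupp.weight nz e' → Φ c' (monomial e' 1) = 0) : Φ c 1 = 0 := by
  classical
  -- the leading term
  have h0 := Psi_lead hΦ (fun p => Y (c p)) c (fun p j hj => Y_lt hj) hc
  simp only [Y_self, prod_const_one, one_mul] at h0
  rw [← h0]
  choose α hα using Y_span
  have e1 : (fun p => Y (c p)) = (fun (p : P) (j : ℕ) =>
      ∑ a ∈ range (3 * c p / 2 + 1), α (c p) a * Bc a j) := by
    funext p j
    exact hα (c p) j
  rw [e1, Psi_ms D Φ (fun p => 3 * c p / 2 + 1) (fun p => α (c p))]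
  apply sum_eq_zero
  intro a ha
  rw [Fintype.mem_piFinset] at ha
  have ha' : ∀ p, a p ≤ 3 * c p / 2 := by
    intro p
    have := ha p
    rw [mem_range] at this
    omega
  by_cases hmod : ∃ p, a p % 3 = 2
  · obtain ⟨p, hp⟩ := hmod
    rw [Psi_zero_w D Φ _ _ p, mul_zero]
    intro j
    unfold Bc
    rw [if_neg (by omega : ¬ a p % 3 = 0), if_neg (by omega : ¬ a p % 3 = 1)]
    simp
  push Not at hmod
  set T := univ.filter (fun p => 3 ≤ a p) with hT
  -- numerical facts
  have hTc : T ⊆ univ.filter (fun p => c p ≠ 0) := by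
    intro p hp
    rw [hT, mem_filter] at hp
    rw [mem_filter]
    have := ha' p
    exact ⟨mem_univ p, by omega⟩
  have hTr : T.card ≤ r := by rw [← hcr]; exact card_le_card hTc
  have hrsum : ∑ p, (if c p ≠ 0 then 1 else 0) = r := by rw [← hcr, card_filter]
  have hTsum : ∑ p, (if 3 ≤ a p then 1 else 0) = T.card := by rw [hT, card_filter]
  set u := (univ.filter (fun p => c p = 1)).card with hu
  have husum : ∑ p, (if c p = 1 then 1 else 0) = u := by rw [hu, card_filter]
  set δ : P → ℕ := fun p => if 2 ≤ c p then 3 * c p - 3 * c p / 2 else 0 with hδ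
  have hkey : 2 * r + ∑ p, a p + ∑ p, δ p ≤ 3 * D + 2 * T.card := by
    have : ∑ p, (2 * (if c p ≠ 0 then 1 else 0) + a p + δ p) ≤
        ∑ p, (3 * c p + 2 * (if 3 ≤ a p then 1 else 0)) := by
      apply sum_le_sum
      intro p _
      have h1 := ha' p
      have h2 := hmod p
      rw [hδ]
      dsimp only
      split_ifs <;> omega
    rw [sum_add_distrib, sum_add_distrib, sum_add_distrib, ← mul_sum, ← mul_sum, ← mul_sum,
      hrsum, hTsum, hc] at this
    exact this
  have hδ2 : 3 * D ≤ 2 * ∑ p, δ p + 3 * u := by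
    have : ∑ p, (3 * c p) ≤ ∑ p, (2 * δ p + 3 * (if c p = 1 then 1 else 0)) := by
      apply sum_le_sum
      intro p _
      rw [hδ]
      dsimp only
      split_ifs <;> omega
    rw [sum_add_distrib, ← mul_sum, ← mul_sum, ← mul_sum, hc, husum] at this
    exact this
  have hu2 : u < r := by
    rw [hu, ← hcr]
    apply card_lt_card
    rw [ssubset_iff_subset_ne]
    refine ⟨?_, ?_⟩
    · intro p hp
      rw [mem_filter] at hp ⊢
      exact ⟨mem_univ p, by omega⟩
    · intro heq
      have h1 : D = r := by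
        rw [← hc, ← hrsum]
        apply sum_congr rfl
        intro p _
        split_ifs with h
        · have : p ∈ univ.filter (fun p => c p ≠ 0) := by simp only [ne_eq, mem_filter, mem_univ, h, not_false_eq_true, and_self]
          rw [← heq, mem_filter] at this
          exact this.2
        · push Not at h
          exact h
      omega
  have hfin := Psi_trick hχ hΦ (fun p => Bc (a p)) (r - T.card) (3 * D - g - 1 - ∑ p, a p)
    (by
      intro i hi
      unfold Psi
      apply sum_eq_zero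
      intro c' _
      by_cases hc' : ∀ p ∈ T, c' p ≠ 0
      · have : Φ c' (ex D * U D ^ i) = 0 := by
          apply Phi_zero_of_support
          intro e he
          apply IH
          have h1 : Ge nz i (ex D * U D ^ i) := by
            have := (Ge.zero nz (ex D)).mul ((U_nz D).pow i)
            simpa using this
          have h2 := h1 e he
          have h3 : T.card ≤ (univ.filter (fun p => c' p ≠ 0)).card := by
            apply card_le_card
            intro p hp
            rw [mem_filter]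
            exact ⟨mem_univ p, hc' p hp⟩
          omega
        rw [this, mul_zero]
      · push Not at hc'
        obtain ⟨p, hp, hp0⟩ := hc'
        rw [prod_eq_zero (mem_univ p), zero_mul]
        rw [hT, mem_filter] at hp
        rw [hp0]
        exact Bc_order _ _ (by omega))
    (by
      intro s hs hpar
      apply hrel
      · omega
      · omega)
    (by omega) 0
  rw [pow_zero] at hfin
  rw [hfin, mul_zero]

end Vale.Agent.P273.Alg
end
end

section

section
namespace Vale.Agent.P273.Alg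
open Finset MvPolynomial

variable {L : Type} [Fintype L]

/-- adding `m` extra marked points -/
noncomputable def ext (m : ℕ) (Φ : (L → ℕ) → MvPolynomial ℕ ℚ →ₗ[ℚ] ℚ) :
    (L ⊕ Fin m → ℕ) → MvPolynomial ℕ ℚ →ₗ[ℚ] ℚ :=
  fun c => (Φ (c ∘ Sum.inl)) ∘ₗ LinearMap.mulLeft ℚ (∏ j : Fin m, X (c (Sum.inr j)))

omit [Fintype L] in
lemma ext_apply (m : ℕ) (Φ : (L → ℕ) → MvPolynomial ℕ ℚ →ₗ[ℚ] ℚ) (c : L ⊕ Fin m → ℕ)
    (q : MvPolynomial ℕ ℚ) :
    ext m Φ c q = Φ (c ∘ Sum.inl) ((∏ j : Fin m, X (c (Sum.inr j))) * q) := rfl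

lemma prod_X_eq (m : ℕ) (f : Fin m → ℕ) :
    (∏ j : Fin m, (X (f j) : MvPolynomial ℕ ℚ)) = monomial (∑ j, Finsupp.single (f j) 1) 1 := by
  rw [monomial_sum_one]
  rfl

lemma Fun.ext {χ : ℚ} {D : ℕ} {Φ : (L → ℕ) → MvPolynomial ℕ ℚ →ₗ[ℚ] ℚ}
    (hΦ : Fun L χ D Φ) (m : ℕ) : Fun (L ⊕ Fin m) (χ + m) D (ext m Φ) := by
  constructor
  · intro c e h
    rw [ext_apply, prod_X_eq, monomial_mul, one_mul]
    apply hΦ.deg
    rw [map_add, map_sum]
    simp only [Finsupp.weight_single, id, smul_eq_mul, one_mul]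
    rw [Fintype.sum_sum_type] at h
    simp only [Function.comp]
    omega
  · intro c e
    rw [ext_apply, ext_apply, prod_X_eq, monomial_mul, monomial_mul, one_mul]
    rw [show ∑ j, Finsupp.single (c (Sum.inr j)) 1 + (Finsupp.single 0 1 + e) =
      Finsupp.single 0 1 + (∑ j, Finsupp.single (c (Sum.inr j)) 1 + e) by abel]
    rw [hΦ.dil, map_add, map_sum]
    simp only [Finsupp.weight_single]
    simp only [smul_eq_mul, mul_one, sum_const, card_univ, Fintype.card_fin, Nat.cast_add, mul_eq_mul_right_iff]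
    left
    ring

open Classical in
lemma Psi_ext (D m : ℕ) (Φ : (L → ℕ) → MvPolynomial ℕ ℚ →ₗ[ℚ] ℚ) (w : L ⊕ Fin m → ℕ → ℚ)
    (q : MvPolynomial ℕ ℚ) :
    Psi D (ext m Φ) w q = Psi D Φ (fun l => w (Sum.inl l))
      ((∏ j : Fin m, Xs D (w (Sum.inr j))) * q) := by
  have h1 : (∏ j : Fin m, Xs D (w (Sum.inr j))) =
      ∑ c' ∈ box (Fin m) D,
        (∏ j, w (Sum.inr j) (c' j)) • ∏ j, (X (c' j) : MvPolynomial ℕ ℚ) := by
    unfold Xs
    rw [prod_univ_sum]
    apply sum_congr (by ext c; rw [mem_box, Fintype.mem_piFinset]; simp only [mem_range, Order.lt_add_one_iff])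
    intro c' _
    rw [prod_mul_distrib, smul_eq_C_mul, map_prod]
  rw [h1, sum_mul, Psi_sum]
  simp_rw [smul_mul_assoc, Psi_smul]
  unfold Psi
  simp_rw [mul_sum]
  rw [← sum_product']
  symm
  refine sum_bij' (fun x _ => Sum.elim x.2 x.1) (fun c _ => (c ∘ Sum.inr, c ∘ Sum.inl))
    ?_ ?_ ?_ ?_ ?_
  · rintro ⟨x, y⟩ h
    rw [mem_product, mem_box, mem_box] at h
    rw [mem_box]
    rintro (l | j)
    · exact h.2 l
    · exact h.1 j
  · intro c h
    rw [mem_box] at h
    rw [mem_product, mem_box, mem_box]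
    exact ⟨fun j => h _, fun l => h _⟩
  · rintro ⟨x, y⟩ _
    simp
  · intro c _
    simp
  · rintro ⟨x, y⟩ _
    simp only [Fintype.prod_sum_type, Sum.elim_inl, Sum.elim_inr, ext_apply, Sum.elim_comp_inl]
    rw [show ex D * ((∏ j, (X (x j) : MvPolynomial ℕ ℚ)) * q) =
      (∏ j, (X (x j) : MvPolynomial ℕ ℚ)) * (ex D * q) by ring]
    ring

/-- the interior relations with arbitrary extra parts -/
def RelS (g D : ℕ) (Φ : (L → ℕ) → MvPolynomial ℕ ℚ →ₗ[ℚ] ℚ) : Prop :=
  ∀ (A : L → ℕ) (σ : Multiset ℕ), ∑ p, A p + σ.sum + g + 1 ≤ 3 * D →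
    (∑ p, A p + σ.sum + g + 1) % 2 = (3 * D) % 2 →
    Psi D Φ (fun p => Bc (A p)) ((σ.map (fun b => Xs D (Bc b))).prod) = 0

/-- the interior relations with positive extra parts -/
def RelM (g D : ℕ) (Φ : (L → ℕ) → MvPolynomial ℕ ℚ →ₗ[ℚ] ℚ) : Prop :=
  ∀ (A : L → ℕ) (σ : Multiset ℕ), (∀ p, A p % 3 ≠ 2) → (∀ b ∈ σ, b ≠ 0 ∧ b % 3 ≠ 2) →
    ∑ p, A p + σ.sum + g + 1 ≤ 3 * D →
    (∑ p, A p + σ.sum + g + 1) % 2 = (3 * D) % 2 →
    Psi D Φ (fun p => Bc (A p)) ((σ.map (fun b => Xs D (Bc b))).prod) = 0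

lemma Bc_two {a : ℕ} (h : a % 3 = 2) (j : ℕ) : Bc a j = 0 := by
  unfold Bc
  rw [if_neg (by omega : ¬ a % 3 = 0), if_neg (by omega : ¬ a % 3 = 1)]
  simp

lemma prod_Xs_hom (D : ℕ) (σ : Multiset ℕ) :
    ((σ.map (fun b => Xs D (Bc b))).prod).IsHomogeneous (Multiset.card σ) := by
  induction σ using Multiset.induction_on with
  | empty => simpa using isHomogeneous_one ℕ ℚ
  | cons a σ ih =>
    rw [Multiset.map_cons, Multiset.prod_cons, Multiset.card_cons, add_comm]
    exact (Xs_hom D _).mul ih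

lemma RelM.relS {χ : ℚ} {g D : ℕ} {Φ : (L → ℕ) → MvPolynomial ℕ ℚ →ₗ[ℚ] ℚ}
    (hΦ : Fun L χ D Φ) (h : RelM g D Φ) : RelS g D Φ := by
  intro A σ h1 h2
  by_cases hA : ∃ p, A p % 3 = 2
  · obtain ⟨p, hp⟩ := hA
    exact Psi_zero_w D Φ _ _ p (fun j => Bc_two hp j)
  by_cases hσ : ∃ b ∈ σ, b % 3 = 2
  · obtain ⟨b, hb, hb2⟩ := hσ
    have : (σ.map (fun b => Xs D (Bc b))).prod = 0 := by
      apply Multiset.prod_eq_zero
      rw [Multiset.mem_map]
      refine ⟨b, hb, ?_⟩
      unfold Xs
      apply sum_eq_zero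
      intro j _
      rw [Bc_two hb2]
      simp
    rw [this]
    have := Psi_smul D Φ (fun p => Bc (A p)) 0 0
    simpa using this
  push Not at hA hσ
  have hsplit : σ = σ.filter (· ≠ 0) + Multiset.replicate (σ.count 0) 0 := by
    conv_lhs => rw [← Multiset.filter_add_not (· ≠ 0) σ]
    congr 1
    have : (fun a : ℕ => ¬ (a ≠ 0)) = (fun a => 0 = a) := by
      funext a
      simp [eq_comm]
    rw [show Multiset.filter (fun a => ¬ (a ≠ 0)) σ = Multiset.filter (fun a => 0 = a) σ by
      congr! 2; simp [eq_comm]]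
    rw [Multiset.filter_eq]
  rw [hsplit, Multiset.map_add, Multiset.prod_add, Multiset.map_replicate,
    Multiset.prod_replicate, mul_comm, Psi_dilaton_pow hΦ _ (prod_Xs_hom D _)]
  rw [h, mul_zero]
  · exact hA
  · intro b hb
    rw [Multiset.mem_filter] at hb
    exact ⟨hb.2, hσ b hb.1⟩
  · have : σ.sum = (σ.filter (· ≠ 0)).sum := by
      conv_lhs => rw [hsplit]
      simp
    omega
  · have : σ.sum = (σ.filter (· ≠ 0)).sum := by
      conv_lhs => rw [hsplit]
      simp
    omega

lemma RelS.ext {g D : ℕ} {Φ : (L → ℕ) → MvPolynomial ℕ ℚ →ₗ[ℚ] ℚ} (h : RelS g D Φ) (m : ℕ) :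
    Rel g D (ext m Φ) := by
  intro A s h1 h2
  rw [Psi_ext]
  have h3 : (∏ j : Fin m, Xs D (Bc (A (Sum.inr j)))) * Xs D (Bc 1) ^ s =
      (((univ.val.map (fun j : Fin m => A (Sum.inr j))) + Multiset.replicate s 1).map
        (fun b => Xs D (Bc b))).prod := by
    rw [Multiset.map_add, Multiset.prod_add, Multiset.map_replicate, Multiset.prod_replicate,
      Multiset.map_map]
    rfl
  rw [h3]
  have h4 : ((univ.val.map (fun j : Fin m => A (Sum.inr j))) + Multiset.replicate s 1).sum =
      ∑ j : Fin m, A (Sum.inr j) + s := by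
    rw [Multiset.sum_add, Multiset.sum_replicate, smul_eq_mul, mul_one]
    rfl
  rw [Fintype.sum_sum_type] at h1 h2
  apply h (fun l => A (Sum.inl l))
  · rw [h4]; omega
  · rw [h4]; omega

end Vale.Agent.P273.Alg
end
end

section

section
namespace Vale.Agent.P273.Alg
open Finset MvPolynomial

variable {L : Type} [Fintype L]

lemma card_ne_zero_sum {m : ℕ} (c : L ⊕ Fin m → ℕ) :
    (univ.filter (fun p => c p ≠ 0)).card =
      (univ.filter (fun p => c (Sum.inl p) ≠ 0)).card +
        (univ.filter (fun j => c (Sum.inr j) ≠ 0)).card := by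
  rw [card_filter, card_filter, card_filter, Fintype.sum_sum_type]

lemma card_nz {m : ℕ} (f : Fin m → ℕ) :
    (univ.filter (fun j => f j ≠ 0)).card = Finsupp.weight nz (∑ j, Finsupp.single (f j) 1) := by
  rw [map_sum, card_filter]
  apply sum_congr rfl
  intro j _
  rw [Finsupp.weight_single]
  unfold nz
  split_ifs <;> simp_all

lemma card_elim {m : ℕ} (c : L → ℕ) (f : Fin m → ℕ) :
    (univ.filter (fun p => (Sum.elim c f) p ≠ 0)).card = (univ.filter (fun p => c p ≠ 0)).card +
      Finsupp.weight nz (∑ j, Finsupp.single (f j) 1) := by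
  rw [← card_nz, card_filter, card_filter, card_filter, Fintype.sum_sum_type]
  rfl

/-- every multi-index is the multi-index of a family -/
lemma exists_family (e : ℕ →₀ ℕ) : ∃ m, ∃ f : Fin m → ℕ, ∑ j, Finsupp.single (f j) 1 = e := by
  induction e using Finsupp.induction_linear with
  | zero => exact ⟨0, fun j => j.elim0, by simp⟩
  | add e e' h h' =>
    obtain ⟨m, f, rfl⟩ := h
    obtain ⟨m', f', rfl⟩ := h'
    refine ⟨m + m', Fin.append f f', ?_⟩
    rw [Fin.sum_univ_add]
    simp only [Fin.append_left, Fin.append_right]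
  | single a n =>
    refine ⟨n, fun _ => a, ?_⟩
    simp only [sum_const, card_univ, Fintype.card_fin, Finsupp.smul_single, smul_eq_mul, mul_one]

/-- the interior relations kill everything in high degree -/
theorem vanish {χ : ℚ} (hχ : 0 < χ) {g D : ℕ} {Φ : (L → ℕ) → MvPolynomial ℕ ℚ →ₗ[ℚ] ℚ}
    (hΦ : Fun L χ D Φ) (hrel : RelM g D Φ) (hD1 : g + 1 ≤ D) (hD2 : 5 * g ≤ 3 * D + 1)
    (c : L → ℕ) (q : MvPolynomial ℕ ℚ) : Φ c q = 0 := by
  classical
  have hS := hrel.relS hΦ
  have main : ∀ k : ℕ, ∀ (c : L → ℕ) e, g + 1 ≤ (univ.filter (fun p => c p ≠ 0)).card +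
      Finsupp.weight nz e + k → Φ c (monomial e 1) = 0 := by
    intro k
    induction k with
    | zero =>
      intro c e h
      obtain ⟨m, f, rfl⟩ := exists_family e
      have h1 : Φ c (monomial (∑ j, Finsupp.single (f j) 1) 1) = ext m Φ (Sum.elim c f) 1 := by
        rw [ext_apply, prod_X_eq, mul_one]
        rfl
      rw [h1]
      by_cases hD : ∑ p, (Sum.elim c f) p = D
      · apply supp_big (χ := χ + m) (by (clear * - hχ; positivity)) (hΦ.ext m) (hS.ext m) _ hD
        rw [card_elim]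
        exact h
      · rw [← h1]
        apply hΦ.deg
        rw [Fintype.sum_sum_type] at hD
        simp only [Sum.elim_inl, Sum.elim_inr] at hD
        rw [map_sum]
        simp only [Finsupp.weight_single, id, smul_eq_mul, one_mul]
        exact hD
    | succ k ih =>
      intro c e h
      rcases Nat.lt_or_ge g ((univ.filter (fun p => c p ≠ 0)).card + Finsupp.weight nz e + k)
        with h' | h'
      · exact ih c e h'
      obtain ⟨m, f, rfl⟩ := exists_family e
      have h1 : Φ c (monomial (∑ j, Finsupp.single (f j) 1) 1) = ext m Φ (Sum.elim c f) 1 := by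
        rw [ext_apply, prod_X_eq, mul_one]
        rfl
      rw [h1]
      by_cases hD : ∑ p, (Sum.elim c f) p = D
      · apply step2 (χ := χ + m) (by (clear * - hχ; positivity)) (hΦ.ext m) (hS.ext m) hD1 hD2 _ hD (g - k)
          (by omega)
        · rw [card_elim]
          omega
        · intro c' e' h2
          rw [ext_apply, prod_X_eq, monomial_mul, one_mul]
          apply ih
          rw [map_add, ← card_nz]
          rw [card_ne_zero_sum] at h2
          simp only [Function.comp]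
          omega
      · rw [← h1]
        apply hΦ.deg
        rw [Fintype.sum_sum_type] at hD
        simp only [Sum.elim_inl, Sum.elim_inr] at hD
        rw [map_sum]
        simp only [Finsupp.weight_single, id, smul_eq_mul, one_mul]
        exact hD
  apply Phi_zero_of_support
  intro e _
  apply main (g + 1)
  omega

end Vale.Agent.P273.Alg
end
end

section

section
namespace Vale.Agent.P273.Alg
open Finset MvPolynomial

variable {L : Type} [Fintype L]

lemma b0_one : b0 1 = -60 := by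
  have := b0_succ 0
  rw [b0_zero] at this
  norm_num at this
  exact this

lemma b1_one : b1 1 = 84 := by
  have := b1_sub_b0 0
  rw [b0_zero, b0_one] at this
  norm_num at this
  linarith only [this]

lemma ex_one_eq : ex 1 = 1 + C 60 * X 1 := by
  simp only [ex, Nat.reduceAdd, one_div, hh, Xs, sum_range_succ, range_one, sum_singleton, ↓reduceIte, C_0, zero_mul, one_ne_zero, b0_one, neg_neg, zero_add, Nat.factorial_zero, Nat.cast_one, inv_one, C_1, pow_zero, mul_one, Nat.factorial_one, pow_one, one_mul]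

/-- reduction to multi-indices without zeros -/
lemma Fun.zero_of_reduced {χ : ℚ} {D : ℕ} {Φ : (L → ℕ) → MvPolynomial ℕ ℚ →ₗ[ℚ] ℚ}
    (hΦ : Fun L χ D Φ) (h : ∀ c e, e 0 = 0 → Φ c (monomial e 1) = 0) (c : L → ℕ)
    (q : MvPolynomial ℕ ℚ) : Φ c q = 0 := by
  apply Phi_zero_of_support
  intro e he
  clear he
  obtain ⟨n, hn⟩ : ∃ n, e 0 = n := ⟨_, rfl⟩
  induction n generalizing e with
  | zero => exact h c e hn
  | succ n ih =>
    have h1 : e = Finsupp.single 0 1 + (e - Finsupp.single 0 1) := by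
      rw [add_comm, tsub_add_cancel_of_le]
      rw [Finsupp.single_le_iff]
      omega
    rw [h1, hΦ.dil, ih, mul_zero]
    simp only [Finsupp.coe_tsub, Pi.sub_apply, hn, Finsupp.single_eq_same, add_tsub_cancel_right]

lemma Psi_single (Φ : (L → ℕ) → MvPolynomial ℕ ℚ →ₗ[ℚ] ℚ) (w : L → ℕ → ℚ)
    (q : MvPolynomial ℕ ℚ) (p0 : L) (hp : ∀ p, p = p0) :
    Psi 1 Φ w q = w p0 0 * Φ (fun _ => 0) (ex 1 * q) + w p0 1 * Φ (fun _ => 1) (ex 1 * q) := by
  classical
  have huniv : (univ : Finset L) = {p0} := by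
    ext p; simp only [hp p, mem_univ, mem_singleton]
  have hbox : box L 1 = {fun _ => 0, fun _ => 1} := by
    ext c
    rw [mem_box]
    simp only [mem_insert, mem_singleton]
    constructor
    · intro h
      have h0 := h p0
      have h1 : c p0 = 0 ∨ c p0 = 1 := by omega
      rcases h1 with h1 | h1
      · left; funext p; rw [hp p, h1]
      · right; funext p; rw [hp p, h1]
    · rintro (rfl | rfl) p
      · exact Nat.zero_lt_two
      · exact Nat.one_lt_two
  unfold Psi
  rw [hbox, sum_insert, sum_singleton, huniv, prod_singleton, prod_singleton]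
  rw [mem_singleton]
  intro h
  have := congrFun h p0
  omega

theorem vanish_one_one {Φ : (L → ℕ) → MvPolynomial ℕ ℚ →ₗ[ℚ] ℚ}
    (hΦ : Fun L 1 1 Φ) (hrel : RelM 1 1 Φ) (p0 : L) (hp : ∀ p, p = p0)
    (c : L → ℕ) (q : MvPolynomial ℕ ℚ) : Φ c q = 0 := by
  classical
  have huniv : (univ : Finset L) = {p0} := by
    ext p; simp only [hp p, mem_univ, mem_singleton]
  have e2 : (X 0 : MvPolynomial ℕ ℚ) = monomial (Finsupp.single 0 1 + 0) 1 := by
    rw [add_zero]; rfl
  have e3 : (X 0 * X 1 : MvPolynomial ℕ ℚ) =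
      monomial (Finsupp.single 0 1 + Finsupp.single 1 1) 1 := by
    rw [X, X, monomial_mul, one_mul]
  have e1 : (X 1 : MvPolynomial ℕ ℚ) = monomial (Finsupp.single 1 1) 1 := rfl
  have e0 : (1 : MvPolynomial ℕ ℚ) = monomial 0 1 := rfl
  have z1 : Φ (fun _ => 0) 1 = 0 := by
    rw [e0]; apply hΦ.deg; simp only [sum_const_zero, map_zero, add_zero, ne_eq, zero_ne_one, not_false_eq_true]
  have z2 : Φ (fun _ => 1) (X 1) = 0 := by
    rw [e1]; apply hΦ.deg; rw [huniv]; simp [Finsupp.weight_single]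
  have z3 : Φ (fun _ => 0) (X 0) = 0 := by
    rw [e2, hΦ.dil, ← e0, z1, mul_zero]
  have z4 : Φ (fun _ => 0) (X 0 * X 1) = 2 * Φ (fun _ => 0) (X 1) := by
    rw [e3, hΦ.dil, ← e1, Finsupp.weight_single]; norm_num
  have z5 : Φ (fun _ => 1) (X 0) = Φ (fun _ => 1) 1 := by
    rw [e2, hΦ.dil, ← e0]; simp only [map_zero, CharP.cast_eq_zero, add_zero, one_mul]
  have z6 : Φ (fun _ => 1) (X 0 * X 1) = 0 := by
    rw [e3, hΦ.dil, ← e1, z2, mul_zero]
  have z7 : Φ (fun _ => 0) (X 1 * X 1) = 0 := by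
    rw [e1, monomial_mul]
    rw [mul_one]
    apply hΦ.deg
    rw [huniv]; simp only [sum_const_zero, map_add, Finsupp.weight_single, id_eq, smul_eq_mul, mul_one, Nat.reduceAdd, zero_add, ne_eq, OfNat.ofNat_ne_one, not_false_eq_true]
  have z8 : Φ (fun _ => 1) (X 1 * X 1) = 0 := by
    rw [e1, monomial_mul]
    rw [mul_one]
    apply hΦ.deg
    rw [huniv]; simp [Finsupp.weight_single]
  have r1 := hrel (fun _ => 1) 0 (by simp) (by simp) (by rw [huniv]; simp) (by rw [huniv]; simp)
  rw [Psi_single Φ _ _ p0 hp] at r1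
  have r2 := hrel (fun _ => 0) {1} (by simp) (by simp only [Multiset.mem_singleton, ne_eq, forall_eq, one_ne_zero, not_false_eq_true, Nat.one_mod, OfNat.one_ne_ofNat, and_self]) (by rw [huniv]; simp)
    (by rw [huniv]; simp)
  rw [Psi_single Φ _ _ p0 hp] at r2
  simp only [Multiset.map_zero, Multiset.prod_zero, mul_one, Bc_one, b1_zero, b1_one] at r1
  simp only [Multiset.map_singleton, Multiset.prod_singleton, Bc_zero, b0_zero, b0_one] at r2
  have f1 : ex 1 = 1 + (60 : ℚ) • X 1 := by rw [ex_one_eq, smul_eq_C_mul]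
  have f2 : ex 1 * Xs 1 (Bc 1) = X 0 + (84 : ℚ) • X 1 + (60 : ℚ) • (X 0 * X 1) +
      (60 * 84 : ℚ) • (X 1 * X 1) := by
    rw [ex_one_eq]
    unfold Xs
    rw [sum_range_succ, sum_range_succ, sum_range_zero, Bc_one, Bc_one, b1_zero, b1_one]
    simp only [smul_eq_C_mul, map_mul, map_one]
    ring
  rw [f1] at r1
  rw [f2] at r2
  simp only [map_add, map_smul, smul_eq_mul, z1, z2, z3, z4, z5, z6, z7, z8] at r1 r2
  have hx : Φ (fun _ => 0) (X 1) = 0 := by linarith only [r1, r2]
  have hy : Φ (fun _ => 1) 1 = 0 := by linarith only [r1, r2]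
  apply hΦ.zero_of_reduced
  intro c e he
  by_cases hdeg : ∑ p, c p + Finsupp.weight id e = 1
  · rw [huniv, sum_singleton] at hdeg
    have hc : c = fun _ => c p0 := by funext p; rw [hp p]
    have hc1 : c p0 = 0 ∨ c p0 = 1 := by omega
    rcases hc1 with h1 | h1
    · rw [hc, h1]
      rw [h1, zero_add] at hdeg
      have : e = Finsupp.single 1 1 := by
        have hle : ∀ j, j ≠ 0 → e j * j ≤ 1 := by
          intro j _
          by_cases hj : j ∈ e.support
          · rw [← hdeg, Finsupp.weight_apply, Finsupp.sum]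
            exact single_le_sum (f := fun a => e a • id a) (fun _ _ => Nat.zero_le _) hj
          · have : e j = 0 := by simpa only [Finsupp.mem_support_iff, ne_eq, Decidable.not_not] using hj
            rw [this]; omega
        ext j
        rw [Finsupp.single_apply]
        rcases j with _ | _ | j
        · simpa only [one_ne_zero, ↓reduceIte] using he
        · simp only [if_true, zero_add]
          have h3 := hle 1 (by omega)
          by_contra hne
          have h4 : e 1 = 0 := by omega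
          have h5 : e = 0 := by
            ext j
            rcases j with _ | _ | j
            · simpa only [Finsupp.coe_zero, Pi.zero_apply] using he
            · simpa only [zero_add, Finsupp.coe_zero, Pi.zero_apply] using h4
            · have := hle (j + 2) (by omega)
              change e (j + 2) = 0
              by_contra h6
              have : 1 ≤ e (j + 2) := by omega
              (clear Φ hΦ hrel hp q huniv e2 e3 e1 e0 z1 z2 z3 z4 z5 z6 z7 z8 f1 f2 r1 r2 hx hy he hc h1 h3 hne h4; nlinarith)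
          rw [h5] at hdeg
          simp at hdeg
        · have := hle (j + 2) (by omega)
          rw [if_neg (by omega)]
          change e (j + 2) = 0
          by_contra h6
          have : 1 ≤ e (j + 2) := by omega
          (clear Φ hΦ hrel hp q huniv e2 e3 e1 e0 z1 z2 z3 z4 z5 z6 z7 z8 f1 f2 r1 r2 hx hy he hc h1; nlinarith)
      rw [this, ← e1, hx]
    · rw [hc, h1]
      have h2 : Finsupp.weight id e = 0 := by omega
      have : e = 0 := by
        have hle : ∀ j, j ≠ 0 → e j * j ≤ 0 := by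
          intro j _
          by_cases hj : j ∈ e.support
          · rw [← h2, Finsupp.weight_apply, Finsupp.sum]
            exact single_le_sum (f := fun a => e a • id a) (fun _ _ => Nat.zero_le _) hj
          · have : e j = 0 := by simpa only [Finsupp.mem_support_iff, ne_eq, Decidable.not_not] using hj
            rw [this]; omega
        ext j
        rcases j with _ | j
        · simpa only [Finsupp.coe_zero, Pi.zero_apply] using he
        · have := hle (j + 1) (by omega)
          rw [Finsupp.coe_zero, Pi.zero_apply]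
          by_contra h6
          have : 1 ≤ e (j + 1) := by omega
          (clear Φ hΦ hrel hp q huniv e2 e3 e1 e0 z1 z2 z3 z4 z5 z6 z7 z8 f1 f2 r1 r2 hx hy he hc; nlinarith)
      rw [this, ← e0, hy]
  · exact hΦ.deg c e hdeg

end Vale.Agent.P273.Alg
end
end

section

section

/-! The exponential of the kappa classes in the multi-index basis, and the weight of a graph with
one vertex. -/

noncomputable section
namespace Vale.Agent.P273
open Sum
open scoped Classical

open Alg

/-- coefficient of the kappa leg -/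
def h0 (j : ℕ) : ℚ := if j = 0 then 0 else - b0 j

lemma h0_eq (j : ℕ) : (0 : ℚ) ^ j - B 0 1 j = h0 j := by
  rw [B_zero_eq, one_pow, one_mul]
  unfold h0
  split_ifs with h
  · subst h; simp [b0_zero]
  · simp [h]

lemma kapF_one (μ : Multiset ℕ) :
    kapF μ 1 = (μ.map h0).prod / ∏ c ∈ μ.toFinset, ((μ.count c).factorial : ℚ) := by
  unfold kapF
  simp_rw [h0_eq]

lemma kapF_sign (μ : Multiset ℕ) (s : ℚ) :
    kapF μ s = s ^ μ.sum * kapF μ 1 := by
  unfold kapF
  have h1 : ∀ c, (0 : ℚ) ^ c - B 0 s c = s ^ c * (0 ^ c - B 0 1 c) := by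
    intro c
    rw [B_zero_eq, B_zero_eq, one_pow, one_mul]
    rcases c with _ | c
    · simp
    · simp only [ne_eq, Nat.add_eq_zero_iff, one_ne_zero, and_false, not_false_eq_true, zero_pow, zero_sub, mul_neg]
  simp_rw [h1]
  rw [Multiset.prod_map_mul, mul_div_assoc]
  congr 1
  induction μ using Multiset.induction_on with
  | empty => simp
  | cons a μ ih => simp [ih, pow_add]

lemma B_sign (a c : ℕ) (s : ℚ) : B a s c = s ^ (a + c) * B a 1 c := by
  unfold B
  rw [one_pow]
  ring

lemma countPerms_eq (μ : Multiset ℕ) :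
    (μ.countPerms : ℚ) = (μ.card.factorial : ℚ) / ∏ c ∈ μ.toFinset, ((μ.count c).factorial : ℚ) := by
  have h : (∏ i ∈ μ.toFinset, (μ.count i).factorial) * Nat.multinomial μ.toFinset (μ.count) =
      (∑ i ∈ μ.toFinset, μ.count i).factorial := Nat.multinomial_spec _ _
  have h2 : μ.countPerms = Nat.multinomial μ.toFinset (μ.count) := rfl
  rw [Multiset.toFinset_sum_count_eq] at h
  have h3 : (∏ c ∈ μ.toFinset, ((μ.count c).factorial : ℚ)) ≠ 0 := by
    apply Finset.prod_ne_zero_iff.mpr
    intro c _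
    positivity
  rw [h2, eq_div_iff h3, mul_comm]
  exact_mod_cast h

lemma prod_map_CX (μ : Multiset ℕ) :
    (μ.map (fun j => (MvPolynomial.C (h0 j) * MvPolynomial.X j : MvPolynomial ℕ ℚ))).prod =
      (μ.map h0).prod • MvPolynomial.monomial (Multiset.toFinsupp μ) 1 := by
  induction μ using Multiset.induction_on with
  | empty => simp
  | cons a μ ih =>
    rw [Multiset.map_cons, Multiset.prod_cons, ih, Multiset.map_cons, Multiset.prod_cons]
    rw [show (a ::ₘ μ) = {a} + μ from (Multiset.singleton_add a μ).symm, map_add,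
      Multiset.toFinsupp_singleton, MvPolynomial.smul_eq_C_mul, MvPolynomial.smul_eq_C_mul,
      MvPolynomial.X, map_mul]
    rw [show MvPolynomial.monomial (Finsupp.single a 1 + Multiset.toFinsupp μ) (1 : ℚ) =
      MvPolynomial.monomial (Finsupp.single a 1) 1 * MvPolynomial.monomial (Multiset.toFinsupp μ) 1
      by rw [MvPolynomial.monomial_mul, one_mul]]
    ring

/-- the multisets occurring in the truncated exponential -/
def kset (D : ℕ) : Finset (Multiset ℕ) :=
  (Finset.range (D + 1)).biUnion (fun t => ((Finset.range (D + 1)).sym t).image (fun k => k.1))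

lemma mem_kset {D : ℕ} {μ : Multiset ℕ} :
    μ ∈ kset D ↔ μ.card < D + 1 ∧ ∀ c ∈ μ, c < D + 1 := by
  unfold kset
  rw [Finset.mem_biUnion]
  constructor
  · rintro ⟨t, ht, hμ⟩
    rw [Finset.mem_image] at hμ
    obtain ⟨k, hk, rfl⟩ := hμ
    rw [Finset.mem_sym_iff] at hk
    refine ⟨?_, ?_⟩
    · rw [k.2]; exact Finset.mem_range.mp ht
    · intro c hc
      exact Finset.mem_range.mp (hk c hc)
  · rintro ⟨h1, h2⟩
    refine ⟨μ.card, Finset.mem_range.mpr h1, ?_⟩
    rw [Finset.mem_image]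
    refine ⟨Sym.mk μ rfl, ?_, rfl⟩
    apply Finset.mem_sym_iff.mpr
    intro c hc
    exact Finset.mem_range.mpr (h2 c hc)

theorem ex_eq (D : ℕ) :
    ex D = ∑ μ ∈ kset D, kapF μ 1 • MvPolynomial.monomial (Multiset.toFinsupp μ) 1 := by
  unfold kset
  rw [Finset.sum_biUnion]
  · unfold ex
    apply Finset.sum_congr rfl
    intro t _
    rw [Finset.sum_image]
    · have h1 : hh D = (Finset.range (D + 1)).sum
          (fun j => (MvPolynomial.C (h0 j) * MvPolynomial.X j : MvPolynomial ℕ ℚ)) := rfl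
      rw [h1, Finset.sum_pow, Finset.mul_sum]
      apply Finset.sum_congr rfl
      intro k _
      rw [prod_map_CX, kapF_one]
      have h2 := countPerms_eq k.1
      have h3 : ((k.val.countPerms : ℕ) : MvPolynomial ℕ ℚ) =
          MvPolynomial.C ((k.val.countPerms : ℕ) : ℚ) := (map_natCast MvPolynomial.C _).symm
      rw [h3, MvPolynomial.smul_eq_C_mul, MvPolynomial.smul_eq_C_mul, ← mul_assoc, ← mul_assoc,
        ← map_mul, ← map_mul]
      congr 2
      have h4 : ((t.factorial : ℕ) : ℚ) ≠ 0 := by positivity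
      have h5 : k.1.card = t := k.2
      change 1 / (t.factorial : ℚ) * ((k.1.countPerms : ℕ) : ℚ) * _ = _
      rw [h2, h5]
      (clear * - h4; field_simp)
    · intro a _ b _ hab
      exact Subtype.ext hab
  · intro a _ b _ hab
    rw [Function.onFun, Finset.disjoint_left]
    intro μ h1 h2
    rw [Finset.mem_image] at h1 h2
    obtain ⟨k, _, rfl⟩ := h1
    obtain ⟨k', _, h⟩ := h2
    apply hab
    rw [← k.2, ← k'.2, h]

end Vale.Agent.P273
end
end
end

section

section

/-! The weight of a graph with one vertex and no edge. -/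

noncomputable section
namespace Vale.Agent.P273
open Sum
open scoped Classical

open Alg

variable {L : Type}

/-- the graph with one vertex and no edge -/
def pt1 (γ : ℕ) (κ : Multiset ℕ) (c : L → ℕ) : Gr (Fin 1) (Fin 0) L :=
  ⟨fun _ => (γ, κ), Sum.elim (fun y => y.1.elim0) (fun x => (0, c x))⟩

lemma eq_pt1 (G : Gr (Fin 1) (Fin 0) L) :
    G = pt1 (G.dec 0).1 (G.dec 0).2 (fun x => (G.hf (inr x)).2) := by
  apply Gr.ext'
  · intro v
    have : v = 0 := Subsingleton.elim _ _
    subst this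
    rfl
  · rintro (⟨e, _⟩ | x)
    · exact e.elim0
    · exact Prod.ext (Subsingleton.elim _ _) rfl

lemma nv_pt1 [Finite L] (γ : ℕ) (κ : Multiset ℕ) (c : L → ℕ) (v : Fin 1) :
    (pt1 γ κ c).nv v = Nat.card L := by
  unfold Gr.nv
  apply Nat.card_congr
  refine ⟨fun y => Sum.elim (fun y => y.1.elim0) id y.1,
    fun x => ⟨inr x, Subsingleton.elim _ _⟩, ?_, ?_⟩
  · rintro ⟨⟨e, _⟩ | x, h⟩
    · exact e.elim0
    · rfl
  · intro x; rfl

lemma stab_pt1 [Finite L] (γ γ' : ℕ) (κ : Multiset ℕ) (c : L → ℕ) :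
    (pt1 γ κ c).Stab γ' ↔ γ = γ' ∧ 2 < 2 * γ + Nat.card L := by
  unfold Gr.Stab
  have h1 : ∑ᶠ v, ((pt1 γ κ c).dec v).1 = γ := by
    rw [finsum_eq_sum_of_fintype]
    simp [pt1]
  rw [h1]
  simp only [nv_pt1, Nat.card_eq_fintype_card, Fintype.card_fin]
  constructor
  · rintro ⟨_, _, h3, h4⟩
    exact ⟨by omega, h4 0⟩
  · rintro ⟨rfl, h4⟩
    refine ⟨⟨0⟩, ?_, by omega, fun _ => h4⟩
    intro s _
    rcases Set.eq_empty_or_nonempty s with h | ⟨x, hx⟩
    · exact Or.inl h
    · right
      ext y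
      rw [Subsingleton.elim y x]
      simp [hx]

lemma deg_pt1 [Finite L] (γ : ℕ) (κ : Multiset ℕ) (c : L → ℕ) :
    (pt1 γ κ c).deg = κ.sum + ∑ᶠ x, c x := by
  have := Fintype.ofFinite L
  unfold Gr.deg
  rw [finsum_eq_sum_of_fintype, finsum_eq_sum_of_fintype, finsum_eq_sum_of_fintype,
    Fintype.sum_sum_type]
  simp only [Nat.card_eq_fintype_card, Fintype.card_eq_zero, Finset.univ_unique, Fin.default_eq_zero, Fin.isValue, pt1, Finset.sum_const, Finset.card_singleton, smul_eq_mul, one_mul, zero_add, Finset.univ_eq_empty, elim_inl, Finset.sum_empty, elim_inr, Nat.add_left_cancel_iff]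

theorem wt_pt1 [Finite L] (γ : ℕ) (κ : Multiset ℕ) (c : L → ℕ) (a : L → ℕ) (d : ℕ)
    (hst : 2 < 2 * γ + Nat.card L) (hd : κ.sum + ∑ᶠ x, c x = d)
    (hpar : Even (γ + 1 + d + ∑ᶠ x, a x)) :
    wt (pt1 γ κ c) γ a d = kapF κ 1 * ∏ᶠ x, B (a x) 1 (c x) := by
  have := Fintype.ofFinite L
  rw [wt_eq_wsum, if_pos ⟨(stab_pt1 γ γ κ c).mpr ⟨rfl, hst⟩, by rw [deg_pt1, hd]⟩]
  have h1 : ∀ s : ℚ, s ^ 2 = 1 → wsum (pt1 γ κ c) a (fun _ => s) =
      s ^ (γ + 1 + d + ∑ᶠ x, a x) * (kapF κ 1 * ∏ᶠ x, B (a x) 1 (c x)) := by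
    intro s hs
    unfold wsum
    rw [finprod_eq_prod_of_fintype, finprod_eq_prod_of_fintype, finprod_eq_prod_of_fintype,
      finprod_eq_prod_of_fintype]
    have e1 : ∀ x, ((pt1 γ κ c).hf (inr x)).2 = c x := fun x => rfl
    have e2 : ∀ v, (pt1 γ κ c).dec v = (γ, κ) := fun v => rfl
    simp only [e1, e2]
    rw [Fintype.prod_subsingleton _ 0, Fintype.prod_empty, kapF_sign κ s]
    have e3 : ∏ x, B (a x) s (c x) = s ^ (∑ᶠ x, a x + ∑ᶠ x, c x) * ∏ x, B (a x) 1 (c x) := by
      rw [finsum_eq_sum_of_fintype, finsum_eq_sum_of_fintype, ← Finset.sum_add_distrib,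
        ← Finset.prod_pow_eq_pow_sum, ← Finset.prod_mul_distrib]
      apply Finset.prod_congr rfl
      intro x _
      rw [B_sign]
    rw [e3, ← hd]
    ring
  have h2 : ∀ ζ : Fin 1 → Bool, wsum (pt1 γ κ c) a (fun v => sg (ζ v)) =
      kapF κ 1 * ∏ᶠ x, B (a x) 1 (c x) := by
    intro ζ
    have : (fun v => sg (ζ v)) = fun _ => sg (ζ 0) := by
      funext v
      rw [Subsingleton.elim v 0]
    rw [this, h1 _ (sg_sq _)]
    obtain ⟨n, hn⟩ := hpar
    rw [hn, ← two_mul, pow_mul, sg_sq, one_pow, one_mul]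
  simp_rw [h2]
  rw [finsum_eq_sum_of_fintype]
  simp only [one_div, Nat.card_eq_fintype_card, Fintype.card_eq_zero, zero_add, pow_one, Finset.sum_const, Finset.card_univ, Fintype.card_pi, Finset.univ_unique, Fin.default_eq_zero, Fin.isValue, Fintype.card_bool, Finset.prod_const, Finset.card_singleton, nsmul_eq_mul, Nat.cast_ofNat, ne_eq, OfNat.ofNat_ne_zero, not_false_eq_true, mul_inv_cancel_left₀]

theorem wt_pt1_ne [Finite L] {γ γ' : ℕ} {κ : Multiset ℕ} {c : L → ℕ} {a : L → ℕ} {d : ℕ}
    (h : wt (pt1 γ κ c) γ' a d ≠ 0) : γ = γ' ∧ κ.sum + ∑ᶠ x, c x = d := by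
  obtain ⟨h1, h2, _⟩ := wt_ne_zero h
  exact ⟨((stab_pt1 _ _ _ _).mp h1).1, by rw [← deg_pt1 γ κ c, h2]⟩

lemma B_one_eq_bc {a : ℕ} (ha : a ≤ 1) (c : ℕ) : B a 1 c = Bc a c := by
  interval_cases a
  · rw [B_zero_eq, Bc_zero]; simp
  · rw [B_one_eq, Bc_one]; simp

lemma Bc_shift_mul (b a j : ℕ) (ha : a ≤ 1) :
    Bc (3 * b + a) j = if j < b then 0 else B a 1 (j - b) := by
  rw [B_one_eq_bc ha]
  induction b generalizing j with
  | zero => simp
  | succ b ih =>
    rw [show 3 * (b + 1) + a = (3 * b + a) + 3 by ring, Bc_shift]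
    rcases j with _ | j
    · simp only [↓reduceIte, lt_add_iff_pos_left, Order.lt_add_one_iff, zero_le]
    · rw [if_neg (by omega), ih]
      simp only [Nat.add_sub_cancel, Nat.add_lt_add_iff_right, Nat.add_sub_add_right]

end Vale.Agent.P273
end
end
end

section

section

/-! The total degree of a grafted graph. -/

noncomputable section
namespace Vale.Agent.P273
open Sum
open scoped Classical

variable {V E L N R T X : Type}

/-- the part of the degree of a graft which comes from the environment -/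
def Env.rest (Q : Env R T L N) : ℕ :=
  Nat.card T + ∑ᶠ r, (Q.dec r).2.sum + ∑ᶠ y, (Q.use y).elim (fun _ => 0) Prod.snd

lemma sum_multiset_sum {ι : Type*} (s : Finset ι) (f : ι → Multiset ℕ) :
    (∑ x ∈ s, f x).sum = ∑ x ∈ s, (f x).sum := by
  induction s using Finset.induction_on with
  | empty => simp
  | insert a s ha ih => rw [Finset.sum_insert ha, Finset.sum_insert ha, Multiset.sum_add, ih]

lemma Env.unused_sum [Finite L] (Q : Env R T L N) (G : Gr V E L) (v : V) :
    (Q.unused G v).sum = ∑ᶠ x, if inl x ∉ Set.range Q.use ∧ (G.hf (inr x)).1 = v then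
      (G.hf (inr x)).2 + Q.b x else 0 := by
  have := Fintype.ofFinite L
  unfold Env.unused
  simp_rw [finsum_eq_if]
  rw [finsum_eq_sum_of_fintype, finsum_eq_sum_of_fintype, sum_multiset_sum]
  apply Finset.sum_congr rfl
  intro x _
  split_ifs <;> simp

theorem Env.deg_graft [Finite V] [Finite E] [Finite L] [Finite N] [Finite R] [Finite T]
    (Q : Env R T L N) (hQ : ∀ y z x, Q.use y = inl x → Q.use z = inl x → y = z) (G : Gr V E L) :
    (Q.graft G).deg = G.deg + ∑ᶠ x, Q.b x + Q.rest := by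
  have := Fintype.ofFinite V
  have := Fintype.ofFinite E
  have := Fintype.ofFinite L
  have := Fintype.ofFinite N
  have := Fintype.ofFinite R
  have := Fintype.ofFinite T
  unfold Gr.deg Env.rest
  -- edges
  have h1 : Nat.card (E ⊕ T) = Nat.card E + Nat.card T := Nat.card_sum
  -- vertices
  have h2 : ∑ᶠ w, ((Q.graft G).dec w).2.sum = ∑ᶠ v, (G.dec v).2.sum + ∑ᶠ r, (Q.dec r).2.sum +
      ∑ᶠ x, if inl x ∉ Set.range Q.use then (G.hf (inr x)).2 + Q.b x else 0 := by
    rw [finsum_eq_sum_of_fintype, finsum_eq_sum_of_fintype, finsum_eq_sum_of_fintype,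
      finsum_eq_sum_of_fintype, Fintype.sum_sum_type]
    have e1 : ∀ v, ((Q.graft G).dec (inl v)).2.sum = (G.dec v).2.sum + ∑ x,
        if inl x ∉ Set.range Q.use ∧ (G.hf (inr x)).1 = v then
          (G.hf (inr x)).2 + Q.b x else 0 := by
      intro v
      rw [Env.graft_dec_inl, Multiset.sum_add, Q.unused_sum, finsum_eq_sum_of_fintype]
      refine congrArg _ (Finset.sum_congr rfl (fun x _ => ?_))
      by_cases hx : inl x ∉ Set.range Q.use ∧ (G.hf (inr x)).1 = v
      · rw [if_pos hx, if_pos hx]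
      · rw [if_neg hx, if_neg hx]
    simp_rw [e1]
    rw [Finset.sum_add_distrib, Finset.sum_comm]
    have e2 : ∀ x, (∑ v, if inl x ∉ Set.range Q.use ∧ (G.hf (inr x)).1 = v then
          (G.hf (inr x)).2 + Q.b x else 0) =
        if inl x ∉ Set.range Q.use then (G.hf (inr x)).2 + Q.b x else 0 := by
      intro x
      by_cases hx : inl x ∈ Set.range Q.use
      · simp only [hx, not_true_eq_false, false_and, ↓reduceIte, Finset.sum_const_zero]
      · simp only [hx, not_false_eq_true, true_and, Finset.sum_ite_eq, Finset.mem_univ, ↓reduceIte, Nat.add_left_cancel_iff]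
    simp_rw [e2]
    have e3 : ∀ r, ((Q.graft G).dec (inr r)).2.sum = (Q.dec r).2.sum := fun r => rfl
    simp_rw [e3]
    ring
  -- half-edges
  have h3 : ∑ᶠ y, ((Q.graft G).hf y).2 = ∑ᶠ y, (G.hf (inl y)).2 + ∑ᶠ y, (Q.usehf G y).2 := by
    rw [finsum_eq_sum_of_fintype, finsum_eq_sum_of_fintype, finsum_eq_sum_of_fintype,
      Fintype.sum_sum_type, Fintype.sum_sum_type (fun y => (Q.usehf G y).2),
      Fintype.sum_prod_type, Fintype.sum_sum_type, Fintype.sum_prod_type, Fintype.sum_prod_type]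
    simp only [Env.graft_hf_inl, Env.graft_hf_inr, Env.graft_hf_leg]
    ring
  have h4 : ∑ᶠ y, (Q.usehf G y).2 = (∑ᶠ x, if inl x ∈ Set.range Q.use then
      (G.hf (inr x)).2 + Q.b x else 0) + ∑ᶠ y, (Q.use y).elim (fun _ => 0) Prod.snd := by
    rw [finsum_eq_sum_of_fintype, finsum_eq_sum_of_fintype, finsum_eq_sum_of_fintype]
    have e1 : ∀ y, (Q.usehf G y).2 = (∑ x, if Q.use y = inl x then
        (G.hf (inr x)).2 + Q.b x else 0) + (Q.use y).elim (fun _ => 0) Prod.snd := by
      intro y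
      rcases h : Q.use y with x | p
      · rw [Env.usehf_inl h]
        simp only [inl.injEq, Finset.sum_ite_eq, Finset.mem_univ, ↓reduceIte, elim_inl, add_zero, Nat.add_left_cancel_iff]
      · rw [Env.usehf_inr h]
        simp only [reduceCtorEq, ↓reduceIte, Finset.sum_const_zero, elim_inr, zero_add]
    simp_rw [e1]
    rw [Finset.sum_add_distrib, Finset.sum_comm]
    congr 1
    apply Finset.sum_congr rfl
    intro x _
    split_ifs with h
    · obtain ⟨y, hy⟩ := h
      rw [Finset.sum_eq_single y]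
      · rw [if_pos hy]
      · intro z _ hz
        rw [if_neg]
        intro h'
        exact hz (hQ _ _ _ h' hy)
      · intro h'
        exact absurd (Finset.mem_univ y) h'
    · apply Finset.sum_eq_zero
      intro y _
      rw [if_neg]
      intro h'
      exact h ⟨y, h'⟩
  have h5 : ∑ᶠ y, (G.hf y).2 = ∑ᶠ y, (G.hf (inl y)).2 + ∑ᶠ x, (G.hf (inr x)).2 := by
    rw [finsum_eq_sum_of_fintype, finsum_eq_sum_of_fintype, finsum_eq_sum_of_fintype,
      Fintype.sum_sum_type]
  have h6 : (∑ᶠ x, if inl x ∉ Set.range Q.use then (G.hf (inr x)).2 + Q.b x else 0) +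
      (∑ᶠ x, if inl x ∈ Set.range Q.use then (G.hf (inr x)).2 + Q.b x else 0) =
      ∑ᶠ x, (G.hf (inr x)).2 + ∑ᶠ x, Q.b x := by
    rw [finsum_eq_sum_of_fintype, finsum_eq_sum_of_fintype, finsum_eq_sum_of_fintype,
      finsum_eq_sum_of_fintype, ← Finset.sum_add_distrib, ← Finset.sum_add_distrib]
    apply Finset.sum_congr rfl
    intro x _
    by_cases h : inl x ∈ Set.range Q.use
    · simp [h]
    · simp [h]
  rw [h1, h2, h3, h4, h5]
  omega

end Vale.Agent.P273
end
end
end

section

section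

/-! Changing the decoration at one vertex; the environment of a vertex. -/

noncomputable section
namespace Vale.Agent.P273
open Sum
open scoped Classical

open Alg

variable {V E L X : Type}

/-- Half-edges at `v`. -/
abbrev Gr.Fl (G : Gr V E L) (v : V) : Type := {y // (G.hf y).1 = v}

/-- Change the decoration at `v`. -/
def Gr.star (G : Gr V E L) (v : V) (c : G.Fl v → ℕ) (K : Multiset ℕ) : Gr V E L :=
  ⟨Function.update G.dec v ((G.dec v).1, K),
   fun y => if h : (G.hf y).1 = v then (v, c ⟨y, h⟩) else G.hf y⟩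

lemma Gr.star_hf_fst (G : Gr V E L) (v : V) (c : G.Fl v → ℕ) (K : Multiset ℕ)
    (y : (E × Bool) ⊕ L) : ((G.star v c K).hf y).1 = (G.hf y).1 := by
  unfold Gr.star
  dsimp only
  split_ifs with h
  · exact h.symm
  · rfl

lemma Gr.star_hf_of (G : Gr V E L) {v : V} (c : G.Fl v → ℕ) (K : Multiset ℕ)
    {y : (E × Bool) ⊕ L} (h : (G.hf y).1 = v) : (G.star v c K).hf y = (v, c ⟨y, h⟩) := by
  unfold Gr.star
  dsimp only
  rw [dif_pos h]

lemma Gr.star_hf_ne (G : Gr V E L) {v : V} (c : G.Fl v → ℕ) (K : Multiset ℕ)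
    {y : (E × Bool) ⊕ L} (h : (G.hf y).1 ≠ v) : (G.star v c K).hf y = G.hf y := by
  unfold Gr.star
  dsimp only
  rw [dif_neg h]

lemma Gr.star_dec_self (G : Gr V E L) (v : V) (c : G.Fl v → ℕ) (K : Multiset ℕ) :
    (G.star v c K).dec v = ((G.dec v).1, K) := by
  simp [Gr.star]

lemma Gr.star_dec_ne (G : Gr V E L) {v u : V} (h : u ≠ v) (c : G.Fl v → ℕ) (K : Multiset ℕ) :
    (G.star v c K).dec u = G.dec u := by
  simp [Gr.star, Function.update_of_ne h]

lemma Gr.star_dec_fst (G : Gr V E L) (v u : V) (c : G.Fl v → ℕ) (K : Multiset ℕ) :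
    ((G.star v c K).dec u).1 = (G.dec u).1 := by
  by_cases h : u = v
  · subst h; rw [Gr.star_dec_self]
  · rw [Gr.star_dec_ne G h]

lemma Gr.nv_star (G : Gr V E L) (v u : V) (c : G.Fl v → ℕ) (K : Multiset ℕ) :
    (G.star v c K).nv u = G.nv u := by
  unfold Gr.nv
  apply Nat.card_congr
  exact Equiv.subtypeEquivRight (fun y => by rw [Gr.star_hf_fst])

lemma Gr.star_self (G : Gr V E L) (v : V) :
    G.star v (fun f => (G.hf f.1).2) (G.dec v).2 = G := by
  apply Gr.ext'
  · intro u
    by_cases h : u = v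
    · subst h; rw [Gr.star_dec_self]
    · rw [Gr.star_dec_ne G h]
  · intro y
    by_cases h : (G.hf y).1 = v
    · rw [Gr.star_hf_of _ _ _ h]
      exact Prod.ext h.symm rfl
    · rw [Gr.star_hf_ne _ _ _ h]

/-- the environment of the vertex `v` -/
def Gr.envAt (G : Gr V E L) (v : V) (b : G.Fl v ⊕ X → ℕ) : Env {u // u ≠ v} E (G.Fl v ⊕ X) L :=
  ⟨fun u => G.dec u.1,
   fun y => if h : (G.hf y).1 = v then inl (inl ⟨y, h⟩) else inr (⟨(G.hf y).1, h⟩, (G.hf y).2), b⟩

lemma Gr.envAt_use_of (G : Gr V E L) {v : V} (b : G.Fl v ⊕ X → ℕ) {y : (E × Bool) ⊕ L}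
    (h : (G.hf y).1 = v) : (G.envAt v b).use y = inl (inl ⟨y, h⟩) := by
  unfold Gr.envAt
  dsimp only
  rw [dif_pos h]

lemma Gr.envAt_use_ne (G : Gr V E L) {v : V} (b : G.Fl v ⊕ X → ℕ) {y : (E × Bool) ⊕ L}
    (h : (G.hf y).1 ≠ v) : (G.envAt v b).use y = inr (⟨(G.hf y).1, h⟩, (G.hf y).2) := by
  unfold Gr.envAt
  dsimp only
  rw [dif_neg h]

lemma Gr.envAt_inj (G : Gr V E L) (v : V) (b : G.Fl v ⊕ X → ℕ) :
    ∀ y z x, (G.envAt v b).use y = inl x → (G.envAt v b).use z = inl x → y = z := by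
  intro y z x hy hz
  by_cases h1 : (G.hf y).1 = v
  · by_cases h2 : (G.hf z).1 = v
    · rw [Gr.envAt_use_of _ _ h1] at hy
      rw [Gr.envAt_use_of _ _ h2] at hz
      have := hy.trans hz.symm
      simp only [inl.injEq, Subtype.mk.injEq] at this
      exact this
    · rw [Gr.envAt_use_ne _ _ h2] at hz
      simp at hz
  · rw [Gr.envAt_use_ne _ _ h1] at hy
    simp at hy

lemma Gr.envAt_used (G : Gr V E L) (v : V) (b : G.Fl v ⊕ X → ℕ) (f : G.Fl v) :
    inl (inl f) ∈ Set.range (G.envAt v b).use :=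
  ⟨f.1, Gr.envAt_use_of G b f.2⟩

lemma Gr.envAt_not_used (G : Gr V E L) (v : V) (b : G.Fl v ⊕ X → ℕ) (x : X) :
    inl (inr x) ∉ Set.range (G.envAt v b).use := by
  rintro ⟨y, hy⟩
  by_cases h : (G.hf y).1 = v
  · rw [Gr.envAt_use_of _ _ h] at hy
    simp at hy
  · rw [Gr.envAt_use_ne _ _ h] at hy
    simp at hy

/-- the vertices of the graft of a one-vertex graph -/
def vEquiv (v : V) : Fin 1 ⊕ {u // u ≠ v} ≃ V where
  toFun := Sum.elim (fun _ => v) (fun u => u.1)
  invFun := fun w => if h : w = v then inl 0 else inr ⟨w, h⟩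
  left_inv := by
    rintro (i | ⟨u, hu⟩)
    · simp [Subsingleton.elim i 0]
    · simp [hu]
  right_inv := by
    intro w
    by_cases h : w = v
    · subst h; simp
    · simp [h]

lemma Gr.envAt_unused (G : Gr V E L) (v : V) [Finite X] [Finite (G.Fl v)]
    (b : G.Fl v ⊕ X → ℕ) (γ : ℕ) (κ : Multiset ℕ) (c : G.Fl v ⊕ X → ℕ) (i : Fin 1) :
    (G.envAt v b).unused (pt1 γ κ c) i = ∑ᶠ x, {c (inr x) + b (inr x)} := by
  have := Fintype.ofFinite X
  have := Fintype.ofFinite (G.Fl v)
  unfold Env.unused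
  simp_rw [finsum_eq_if]
  rw [finsum_eq_sum_of_fintype, finsum_eq_sum_of_fintype, Fintype.sum_sum_type]
  have h1 : ∀ f : G.Fl v, (if inl (inl f) ∉ Set.range (G.envAt v b).use ∧
      ((pt1 γ κ c).hf (inr (inl f))).1 = i then
      ({((pt1 γ κ c).hf (inr (inl f))).2 + (G.envAt v b).b (inl f)} : Multiset ℕ) else 0) = 0 := by
    intro f
    rw [if_neg]
    intro h
    exact h.1 (G.envAt_used v b f)
  simp_rw [h1]
  rw [Finset.sum_const_zero, zero_add]
  apply Finset.sum_congr rfl
  intro x _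
  rw [if_pos]
  · rfl
  · exact ⟨G.envAt_not_used v b x, Subsingleton.elim _ _⟩

theorem Gr.envAt_graft_iso (G : Gr V E L) (v : V) [Finite X] [Finite (G.Fl v)]
    (b : G.Fl v ⊕ X → ℕ) (κ : Multiset ℕ) (c : G.Fl v ⊕ X → ℕ) :
    ((G.envAt v b).graft (pt1 (G.dec v).1 κ c)).Iso
      (G.star v (fun f => c (inl f) + b (inl f)) (κ + ∑ᶠ x, {c (inr x) + b (inr x)})) := by
  have huse : ∀ y : (E × Bool) ⊕ L, (G.star v (fun f => c (inl f) + b (inl f))
      (κ + ∑ᶠ x, {c (inr x) + b (inr x)})).hf y =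
      ((vEquiv v) ((G.envAt v b).usehf (pt1 (G.dec v).1 κ c) y).1,
        ((G.envAt v b).usehf (pt1 (G.dec v).1 κ c) y).2) := by
    intro y
    by_cases h : (G.hf y).1 = v
    · rw [Env.usehf_inl (Gr.envAt_use_of _ _ h), Gr.star_hf_of _ _ _ h]
      rfl
    · rw [Env.usehf_inr (Gr.envAt_use_ne _ _ h), Gr.star_hf_ne _ _ _ h]
      rfl
  apply Gr.Iso.mk' (vEquiv v) (Equiv.emptySum (Fin 0) E)
  · rintro (i | ⟨u, hu⟩)
    · change (G.star v _ _).dec v = _
      rw [Gr.star_dec_self, Env.graft_dec_inl, Gr.envAt_unused]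
      rfl
    · change (G.star v _ _).dec u = _
      rw [Gr.star_dec_ne G hu]
      rfl
  · rintro (e | e) s
    · exact e.elim0
    · exact huse (inl (e, s))
  · intro x
    exact huse (inr x)

/-- the degree of the decorations at `v` -/
def Gr.degAt (G : Gr V E L) (v : V) : ℕ := (G.dec v).2.sum + ∑ᶠ f : G.Fl v, (G.hf f.1).2

theorem Gr.envAt_deg {V' E' : Type} [Finite V] [Finite E] [Finite L] [Finite X] [Finite V']
    [Finite E'] (G : Gr V E L) (v : V) (b : G.Fl v ⊕ X → ℕ) (G' : Gr V' E' (G.Fl v ⊕ X))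
    (h : G'.deg + ∑ᶠ x, b x = G.degAt v) : ((G.envAt v b).graft G').deg = G.deg := by
  rw [Env.deg_graft _ (G.envAt_inj v b)]
  have h1 : (G.envAt v b).b = b := rfl
  rw [h1, h]
  have := Fintype.ofFinite V
  have := Fintype.ofFinite E
  have := Fintype.ofFinite L
  unfold Gr.deg Env.rest Gr.degAt
  rw [Gr.finsum_ne v (fun v => (G.dec v).2.sum)]
  have h2 : ∑ᶠ y, (G.hf y).2 = ∑ᶠ f : G.Fl v, (G.hf f.1).2 +
      ∑ᶠ y, ((G.envAt v b).use y).elim (fun _ => 0) Prod.snd := by
    rw [finsum_subtype_eq_finsum_cond (f := fun y => (G.hf y).2) (fun y => (G.hf y).1 = v)]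
    simp_rw [finsum_eq_if]
    rw [finsum_eq_sum_of_fintype, finsum_eq_sum_of_fintype, finsum_eq_sum_of_fintype,
      ← Finset.sum_add_distrib]
    apply Finset.sum_congr rfl
    intro y _
    by_cases hy : (G.hf y).1 = v
    · rw [Gr.envAt_use_of _ _ hy, if_pos hy]
      rfl
    · rw [Gr.envAt_use_ne _ _ hy, if_neg hy]
      simp
  rw [h2]
  have h3 : ∑ᶠ r, ((G.envAt v b).dec r).2.sum = ∑ᶠ u : {u // u ≠ v}, (G.dec u.1).2.sum := rfl
  rw [h3]
  omega

end Vale.Agent.P273
end
end
end

section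

section

/-! The functional at one vertex satisfies the interior relations. -/

noncomputable section
namespace Vale.Agent.P273
open Sum
open scoped Classical

open Alg

variable {V E L X : Type}

/-- the functional at the vertex `v` in degree `D` -/
def PhiV (lam : F L →ₗ[ℚ] ℚ) (G : Gr V E L) (v : V) [Fintype (G.Fl v)] (D : ℕ) :
    (G.Fl v → ℕ) → MvPolynomial ℕ ℚ →ₗ[ℚ] ℚ := fun c =>
  (MvPolynomial.basisMonomials ℕ ℚ).constr ℚ (fun e =>
    if ∑ f, c f + Finsupp.weight id e = D then
      lam (dl (G.star v c (Finsupp.toMultiset e)) 1) else 0)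

lemma PhiV_monomial (lam : F L →ₗ[ℚ] ℚ) (G : Gr V E L) (v : V) [Fintype (G.Fl v)] (D : ℕ)
    (c : G.Fl v → ℕ) (e : ℕ →₀ ℕ) :
    PhiV lam G v D c (MvPolynomial.monomial e 1) =
      if ∑ f, c f + Finsupp.weight id e = D then
        lam (dl (G.star v c (Finsupp.toMultiset e)) 1) else 0 := by
  have h : (MvPolynomial.monomial e (1 : ℚ)) = MvPolynomial.basisMonomials ℕ ℚ e := by
    rw [MvPolynomial.coe_basisMonomials]
  rw [h, PhiV, Module.Basis.constr_basis]

lemma fl_Isub {g : ℕ} {lam : F L →ₗ[ℚ] ℚ} (hlam : ∀ x, P g x → lam x = 0) {x : F L}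
    (hx : x ∈ Isub g L) : lam x = 0 := hlam x (Isub_le_Psub g L hx)

lemma fl_iso {g : ℕ} {lam : F L →ₗ[ℚ] ℚ} (hlam : ∀ x, P g x → lam x = 0) {V' E' : Type}
    {G : Gr V E L} {G' : Gr V' E' L} (h : G.Iso G') (c : ℚ) : lam (dl G c) = lam (dl G' c) := by
  have := fl_Isub hlam (h.mem c)
  rw [map_sub] at this
  linarith only [this]

lemma fl_not_valid {g : ℕ} {lam : F L →ₗ[ℚ] ℚ} (hlam : ∀ x, P g x → lam x = 0)
    {G : Gr V E L} (h : ¬ G.Valid g) (c : ℚ) : lam (dl G c) = 0 :=
  fl_Isub hlam (Isub_of_not_valid h c)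

lemma fl_smul (lam : F L →ₗ[ℚ] ℚ) (G : Gr V E L) (c : ℚ) : lam (dl G c) = c * lam (dl G 1) := by
  rw [dl_eq_smul, map_smul, smul_eq_mul]

lemma fl_dilaton {g : ℕ} {lam : F L →ₗ[ℚ] ℚ} (hlam : ∀ x, P g x → lam x = 0)
    (G : Gr V E L) (v : V) (c : G.Fl v → ℕ) (K : Multiset ℕ) :
    lam (dl (G.star v c (0 ::ₘ K)) 1) =
      (2 * ((G.dec v).1 : ℚ) - 2 + G.nv v + K.card) * lam (dl (G.star v c K) 1) := by
  have h1 := Triv.dilaton (g := g) (G.star v c K) v
  have h2 := fl_Isub hlam (Submodule.subset_span h1)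
  have h3 : (⟨Function.update (G.star v c K).dec v
      (((G.star v c K).dec v).1, 0 ::ₘ ((G.star v c K).dec v).2), (G.star v c K).hf⟩ : Gr V E L) =
      G.star v c (0 ::ₘ K) := by
    apply Gr.ext'
    · intro u
      by_cases hu : u = v
      · subst hu
        rw [Gr.star_dec_self, Gr.star_dec_self]
        simp
      · rw [Gr.star_dec_ne G hu, ← Gr.star_dec_ne G hu c K]
        simp [Function.update_of_ne hu]
    · intro y; rfl
  rw [h3, map_add, fl_smul lam _ (2 - _ - _ - _), Gr.star_dec_self, Gr.nv_star] at h2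
  linear_combination h2

lemma toMultiset_single_add (e : ℕ →₀ ℕ) :
    Finsupp.toMultiset (Finsupp.single 0 1 + e) = 0 ::ₘ Finsupp.toMultiset e := by
  rw [map_add, Finsupp.toMultiset_single, one_smul, Multiset.singleton_add]

theorem PhiV_Fun {g : ℕ} {lam : F L →ₗ[ℚ] ℚ} (hlam : ∀ x, P g x → lam x = 0)
    (G : Gr V E L) (v : V) [Fintype (G.Fl v)] (D : ℕ) :
    Fun (G.Fl v) (2 * ((G.dec v).1 : ℚ) - 2 + G.nv v) D (PhiV lam G v D) := by
  constructor
  · intro c e h
    rw [PhiV_monomial, if_neg h]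
  · intro c e
    rw [PhiV_monomial, PhiV_monomial, toMultiset_single_add]
    have h1 : Finsupp.weight id (Finsupp.single 0 1 + e) = Finsupp.weight id e := by
      rw [map_add, Finsupp.weight_single]
      simp
    have h2 : Finsupp.weight (fun _ => 1) e = (Finsupp.toMultiset e).card := by
      rw [Finsupp.card_toMultiset, Finsupp.weight_apply]
      apply Finsupp.sum_congr
      intro x _
      simp
    rw [h1, h2]
    split_ifs
    · rw [fl_dilaton hlam]
    · simp only [Finsupp.card_toMultiset, Nat.cast_finsupp_sum, id_eq, mul_zero]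

lemma weight_toFinsupp (μ : Multiset ℕ) : Finsupp.weight id (Multiset.toFinsupp μ) = μ.sum := by
  induction μ using Multiset.induction_on with
  | empty => simp
  | cons a μ ih =>
    rw [show (a ::ₘ μ) = {a} + μ from (Multiset.singleton_add a μ).symm, map_add,
      Multiset.toFinsupp_singleton, map_add, ih, Finsupp.weight_single, Multiset.sum_add]
    simp

lemma toMultiset_sum_single {m : ℕ} (f : Fin m → ℕ) (μ : Multiset ℕ) :
    Finsupp.toMultiset (∑ j, Finsupp.single (f j) 1 + Multiset.toFinsupp μ) =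
      μ + ∑ j, {f j} := by
  rw [map_add, map_sum, Multiset.toFinsupp_toMultiset, add_comm]
  congr 1
  apply Finset.sum_congr rfl
  intro j _
  rw [Finsupp.toMultiset_single, one_smul]

/-- the expansion of `Psi` -/
lemma Psi_PhiV (lam : F L →ₗ[ℚ] ℚ) (G : Gr V E L) (v : V) [Fintype (G.Fl v)] (D m : ℕ)
    (w : G.Fl v ⊕ Fin m → ℕ → ℚ) :
    Psi D (ext m (PhiV lam G v D)) w 1 = ∑ x ∈ (box (G.Fl v ⊕ Fin m) D) ×ˢ (kset D),
      (∏ y, w y (x.1 y)) * (kapF x.2 1 * if ∑ y, x.1 y + x.2.sum = D then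
        lam (dl (G.star v (fun f => x.1 (inl f)) (x.2 + ∑ j, {x.1 (inr j)})) 1) else 0) := by
  unfold Psi
  rw [Finset.sum_product]
  apply Finset.sum_congr rfl
  intro c _
  dsimp only
  rw [← Finset.mul_sum]
  congr 1
  rw [ext_apply, mul_one, ex_eq, Finset.mul_sum, map_sum]
  apply Finset.sum_congr rfl
  intro μ _
  rw [mul_smul_comm, map_smul, prod_X_eq, MvPolynomial.monomial_mul, one_mul, PhiV_monomial,
    smul_eq_mul]
  congr 1
  have h1 : Finsupp.weight id (∑ j, Finsupp.single (c (inr j)) 1 + Multiset.toFinsupp μ) =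
      ∑ j, c (inr j) + μ.sum := by
    rw [map_add, map_sum, weight_toFinsupp]
    simp only [Finsupp.weight_single, id_eq, smul_eq_mul, one_mul, Nat.add_left_cancel_iff]
  rw [h1, toMultiset_sum_single, Fintype.sum_sum_type, add_assoc]
  rfl

end Vale.Agent.P273
end
end
end

section

section

/-! The functional at one vertex satisfies the interior relations (conclusion). -/

noncomputable section
namespace Vale.Agent.P273
open Sum
open scoped Classical

open Alg

variable {V E L X : Type}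

lemma exists_fin_map (σ : Multiset ℕ) : ∃ m, ∃ Bf : Fin m → ℕ,
    (Finset.univ : Finset (Fin m)).val.map Bf = σ := by
  refine ⟨σ.toList.length, fun i => σ.toList.get i, ?_⟩
  rw [Fin.univ_val_map, List.ofFn_get, Multiset.coe_toList]

/-- the finite set of weights for one vertex and no edges -/
abbrev S10 {L' : Type} [Finite L'] (γ d : ℕ) (a : L' → ℕ) : Finset (Gr (Fin 1) (Fin 0) L') :=
  (finite_wt_km γ d a 1 0).toFinset

/-- only the terms without edges remain -/
lemma pix_reduce [Finite V] [Finite E] [Finite L] [Finite X] {g : ℕ} {lam : F L →ₗ[ℚ] ℚ}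
    (hlam : ∀ x, P g x → lam x = 0) (G : Gr V E L) (v : V)
    (IH : ∀ (V' E' : Type) (G' : Gr V' E' L), Finite V' → Finite E' → G'.deg = G.deg →
      Nat.card E < Nat.card E' → lam (dl G' 1) = 0)
    (a b : G.Fl v ⊕ X → ℕ) (d : ℕ) (ha : ∀ x, a x ≤ 1)
    (hd : d + ∑ᶠ x, b x = G.degAt v) (hrange : (G.dec v).1 + ∑ᶠ x, a x < 3 * d) :
    ∑ G' ∈ S10 (G.dec v).1 d a, wt G' (G.dec v).1 a d *
      lam (dl ((G.envAt v b).graft G') 1) = 0 := by
  set γ := (G.dec v).1 with hγ
  have h1 : lam ((G.envAt v b).pix γ a d) = 0 := by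
    apply hlam
    apply P.pix (G.envAt v b) γ d a inferInstance inferInstance inferInstance
      (G.envAt_inj v b) ha hrange
  rw [Env.pix_eq_sum, map_sum, supp, Finset.sum_sigma] at h1
  rw [Finset.sum_eq_single 1] at h1
  · rw [Finset.sum_sigma, Finset.sum_eq_single 0] at h1
    · rw [← h1]
      apply Finset.sum_congr rfl
      intro G' _
      rw [fl_smul lam _ (wt _ _ _ _ / _)]
      simp
    · intro m _ hm
      apply Finset.sum_eq_zero
      intro G' hG'
      rw [Set.Finite.mem_toFinset] at hG'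
      have hne : wt G' γ a d ≠ 0 := hG'
      obtain ⟨h2, h3, _⟩ := wt_ne_zero hne
      rw [fl_smul, IH _ _ _ inferInstance inferInstance, mul_zero]
      · apply G.envAt_deg v b
        rw [h3, hd]
      · rw [Nat.card_sum]
        have : Nat.card (Fin m) = m := by simp only [Nat.card_eq_fintype_card, Fintype.card_fin]
        change Nat.card E < Nat.card (Fin m) + Nat.card E
        omega
    · intro h
      exact absurd (Finset.mem_range.mpr (Nat.succ_pos d)) h
  · intro k _ hk
    rw [Finset.sum_sigma]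
    apply Finset.sum_eq_zero
    intro m _
    apply Finset.sum_eq_zero
    intro G' hG'
    rw [Set.Finite.mem_toFinset] at hG'
    have hne : wt G' γ a d ≠ 0 := hG'
    obtain ⟨h2, h3, _⟩ := wt_ne_zero hne
    have h4 := h2.conn_card
    have h5 : Nonempty (Fin k) := h2.1
    have h6 : 0 < k := Fin.pos_iff_nonempty.mpr h5
    rw [fl_smul, IH _ _ _ inferInstance inferInstance, mul_zero]
    · apply G.envAt_deg v b
      rw [h3, hd]
    · rw [Nat.card_sum]
      have e1 : Nat.card (Fin m) = m := by simp only [Nat.card_eq_fintype_card, Fintype.card_fin]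
      have e2 : Nat.card (Fin k) = k := by simp
      change Nat.card (Fin k) ≤ Nat.card (Fin m) + 1 at h4
      change Nat.card E < Nat.card (Fin m) + Nat.card E
      omega
  · intro h
    exact absurd (Finset.mem_range.mpr (by omega)) h

theorem PhiV_RelM [Finite V] [Finite E] [Finite L] {g : ℕ} {lam : F L →ₗ[ℚ] ℚ}
    (hlam : ∀ x, P g x → lam x = 0) (G : Gr V E L) (v : V) [Fintype (G.Fl v)]
    (hst : 2 < 2 * (G.dec v).1 + G.nv v)
    (IH : ∀ (V' E' : Type) (G' : Gr V' E' L), Finite V' → Finite E' → G'.deg = G.deg →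
      Nat.card E < Nat.card E' → lam (dl G' 1) = 0) :
    RelM (G.dec v).1 (G.degAt v) (PhiV lam G v (G.degAt v)) := by
  intro A σ hA hσ hle hpar
  obtain ⟨m, Bf, rfl⟩ := exists_fin_map σ
  have hprod : (((Finset.univ : Finset (Fin m)).val.map Bf).map
      (fun b => Xs (G.degAt v) (Bc b))).prod = (∏ j, Xs (G.degAt v) (Bc (Bf j))) * 1 := by
    rw [Multiset.map_map, mul_one]
    rfl
  rw [hprod]
  have hPsi := Psi_ext (G.degAt v) m (PhiV lam G v (G.degAt v))
    (fun y => Bc (Sum.elim A Bf y)) 1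
  simp only [Sum.elim_inl, Sum.elim_inr] at hPsi
  rw [← hPsi, Psi_PhiV]
  set D := G.degAt v with hD
  set γ := (G.dec v).1 with hγ
  set A' : G.Fl v ⊕ Fin m → ℕ := Sum.elim A Bf with hA'
  set a : G.Fl v ⊕ Fin m → ℕ := fun y => A' y % 3 with ha
  set b : G.Fl v ⊕ Fin m → ℕ := fun y => A' y / 3 with hb
  have hmod : ∀ y, A' y % 3 ≠ 2 := by
    rintro (f | j)
    · exact hA f
    · refine (hσ (Bf j) ?_).2
      rw [Multiset.mem_map]
      exact ⟨j, Finset.mem_univ j, rfl⟩
  have ha1 : ∀ y, a y ≤ 1 := by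
    intro y
    have := hmod y
    have h2 : A' y % 3 < 3 := Nat.mod_lt _ (by norm_num)
    rw [ha]
    dsimp only
    omega
  have hab : ∀ y, A' y = 3 * b y + a y := by
    intro y
    rw [ha, hb]
    dsimp only
    omega
  have hsumA : ∑ y, A' y = ∑ p, A p + ((Finset.univ : Finset (Fin m)).val.map Bf).sum := by
    rw [hA', Fintype.sum_sum_type]
    rfl
  have hsum3 : ∑ y, A' y = 3 * ∑ y, b y + ∑ y, a y := by
    rw [Finset.mul_sum, ← Finset.sum_add_distrib]
    exact Finset.sum_congr rfl (fun y _ => hab y)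
  have hbD : ∑ y, b y ≤ D := by omega
  have hred := pix_reduce (X := Fin m) hlam G v IH a b (D - ∑ y, b y) ha1
    (by rw [finsum_eq_sum_of_fintype]; omega) (by rw [finsum_eq_sum_of_fintype]; omega)
  refine Eq.trans ?_ hred
  have hcard : Nat.card (G.Fl v ⊕ Fin m) = G.nv v + m := by
    rw [Nat.card_sum]
    simp only [Nat.card_eq_fintype_card, Fintype.card_fin, Gr.nv, Nat.add_left_cancel_iff]
  have hst' : 2 < 2 * γ + Nat.card (G.Fl v ⊕ Fin m) := by omega
  have hparity : Even (γ + 1 + (D - ∑ y, b y) + ∑ᶠ y, a y) := by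
    rw [finsum_eq_sum_of_fintype, Nat.even_iff]
    omega
  -- the weight of a one-vertex graph
  have hwt : ∀ (κ : Multiset ℕ) (c : G.Fl v ⊕ Fin m → ℕ), κ.sum + ∑ y, c y = D - ∑ y, b y →
      wt (pt1 γ κ c) γ a (D - ∑ y, b y) = kapF κ 1 * ∏ y, Bc (A' y) (c y + b y) := by
    intro κ c hc
    rw [wt_pt1 γ κ c a _ hst' (by rw [finsum_eq_sum_of_fintype]; exact hc) hparity,
      finprod_eq_prod_of_fintype]
    congr 1
    apply Finset.prod_congr rfl
    intro y _
    rw [hab y, Bc_shift_mul _ _ _ (ha1 y), if_neg (by omega), Nat.add_sub_cancel]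
  have hiso : ∀ (κ : Multiset ℕ) (c : G.Fl v ⊕ Fin m → ℕ),
      lam (dl ((G.envAt v b).graft (pt1 γ κ c)) 1) =
      lam (dl (G.star v (fun f => c (inl f) + b (inl f)) (κ + ∑ j, {c (inr j) + b (inr j)})) 1) := by
    intro κ c
    rw [fl_iso hlam (G.envAt_graft_iso v b κ c), finsum_eq_sum_of_fintype]
  symm
  apply Finset.sum_bij_ne_zero (fun G' _ _ => ((fun y => (G'.hf (inr y)).2 + b y),
    (G'.dec 0).2))
  · -- membership
    intro G' hG' _
    rw [Set.Finite.mem_toFinset] at hG'
    have hne : wt G' γ a (D - ∑ y, b y) ≠ 0 := hG'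
    obtain ⟨_, hdeg, h0⟩ := wt_ne_zero hne
    rw [eq_pt1 G', deg_pt1, finsum_eq_sum_of_fintype] at hdeg
    rw [Finset.mem_product, mem_box, mem_kset]
    refine ⟨?_, ?_, ?_⟩
    · intro y
      have h1 : (G'.hf (inr y)).2 ≤ ∑ y, (G'.hf (inr y)).2 :=
        Finset.single_le_sum (f := fun y => (G'.hf (inr y)).2) (fun _ _ => Nat.zero_le _)
          (Finset.mem_univ y)
      have h2 : b y ≤ ∑ y, b y :=
        Finset.single_le_sum (f := b) (fun _ _ => Nat.zero_le _) (Finset.mem_univ y)
      change (G'.hf (inr y)).2 + b y < D + 1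
      omega
    · have h3 : (G'.dec 0).2.card ≤ (G'.dec 0).2.sum := by
        have : ∀ μ : Multiset ℕ, 0 ∉ μ → μ.card ≤ μ.sum := by
          intro μ
          induction μ using Multiset.induction_on with
          | empty => simp
          | cons x μ ih =>
            intro h
            rw [Multiset.mem_cons, not_or] at h
            have := ih h.2
            rw [Multiset.card_cons, Multiset.sum_cons]
            omega
        exact this _ (h0 0)
      change (G'.dec 0).2.card < D + 1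
      (clear * - hbD hdeg h3; omega)
    · intro c hc
      have h4 : c ≤ (G'.dec 0).2.sum := Multiset.single_le_sum (fun _ _ => Nat.zero_le _) c hc
      (clear * - hbD hdeg h4; omega)
  · -- injectivity
    intro G1' h1 h1' G2' h2 h2' heq
    rw [Set.Finite.mem_toFinset] at h1 h2
    have hne1 : wt G1' γ a (D - ∑ y, b y) ≠ 0 := h1
    have hne2 : wt G2' γ a (D - ∑ y, b y) ≠ 0 := h2
    rw [eq_pt1 G1'] at hne1 ⊢
    rw [eq_pt1 G2'] at hne2 ⊢
    have e1 := (wt_pt1_ne hne1).1
    have e2 := (wt_pt1_ne hne2).1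
    rw [Prod.mk.injEq] at heq
    obtain ⟨e3, e4⟩ := heq
    have e5 : (fun y => (G1'.hf (inr y)).2) = fun y => (G2'.hf (inr y)).2 := by
      funext y
      have := congrFun e3 y
      change (G1'.hf (inr y)).2 + b y = (G2'.hf (inr y)).2 + b y at this
      omega
    rw [e1, e2, e4, e5]
  · -- surjectivity
    rintro ⟨c, μ⟩ _ hne
    dsimp only at hne
    have hp := left_ne_zero_of_mul hne
    have hq := right_ne_zero_of_mul hne
    have hk := left_ne_zero_of_mul hq
    have hif := right_ne_zero_of_mul hq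
    have hsum : ∑ y, c y + μ.sum = D := by
      by_contra h
      rw [if_neg h] at hif
      exact hif rfl
    have hcb : ∀ y, b y ≤ c y := by
      intro y
      by_contra h
      apply hp
      apply Finset.prod_eq_zero (Finset.mem_univ y)
      rw [hab y, Bc_shift_mul _ _ _ (ha1 y), if_pos (by omega)]
    have hc' : μ.sum + ∑ y, (c y - b y) = D - ∑ y, b y := by
      have : ∑ y, (c y - b y) + ∑ y, b y = ∑ y, c y := by
        rw [← Finset.sum_add_distrib]
        apply Finset.sum_congr rfl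
        intro y _
        have := hcb y
        (clear * - this; omega)
      omega
    have hw := hwt μ (fun y => c y - b y) hc'
    have hcc : ∀ y, c y - b y + b y = c y := fun y => Nat.sub_add_cancel (hcb y)
    simp only [hcc] at hw
    have hwne : wt (pt1 γ μ (fun y => c y - b y)) γ a (D - ∑ y, b y) ≠ 0 := by
      rw [hw]
      exact mul_ne_zero hk hp
    refine ⟨pt1 γ μ (fun y => c y - b y), ?_, ?_, ?_⟩
    · rw [Set.Finite.mem_toFinset]
      exact hwne
    · apply mul_ne_zero hwne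
      rw [hiso]
      simp only [hcc]
      rw [if_pos hsum] at hif
      exact hif
    · have h7 : ∀ y, ((pt1 γ μ (fun y => c y - b y)).hf (inr y)).2 = c y - b y := fun y => rfl
      have h8 : ((pt1 γ μ (fun y => c y - b y)).dec 0).2 = μ := rfl
      simp only [h7, h8, hcc]
  · -- values
    intro G' hG' _
    rw [Set.Finite.mem_toFinset] at hG'
    have hne : wt G' γ a (D - ∑ y, b y) ≠ 0 := hG'
    have h9 := eq_pt1 G'
    rw [h9] at hne
    obtain ⟨e1, e2⟩ := wt_pt1_ne hne
    rw [finsum_eq_sum_of_fintype] at e2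
    rw [h9, e1]
    have h7 : ∀ (c : G.Fl v ⊕ Fin m → ℕ) (κ : Multiset ℕ) (y),
        ((pt1 γ κ c).hf (inr y)).2 = c y := fun c κ y => rfl
    have h8 : ∀ (c : G.Fl v ⊕ Fin m → ℕ) (κ : Multiset ℕ),
        ((pt1 γ κ c).dec 0).2 = κ := fun c κ => rfl
    simp only [h7, h8]
    rw [hwt _ _ e2, hiso, if_pos]
    · ring
    · rw [Finset.sum_add_distrib]
      omega

end Vale.Agent.P273
end
end
end

section

section

/-! In the top degree everything is a combination of cubic graphs. -/

noncomputable section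
namespace Vale.Agent.P273
open Sum
open scoped Classical

open Alg

variable {V E L X : Type}

/-- Interior classes of large degree at a vertex are killed. -/
theorem vertex_vanish [Finite V] [Finite E] [Finite L] {g : ℕ} {lam : F L →ₗ[ℚ] ℚ}
    (hlam : ∀ x, P g x → lam x = 0) (G : Gr V E L) (v : V)
    (hst : 2 < 2 * (G.dec v).1 + G.nv v)
    (IH : ∀ (V' E' : Type) (G' : Gr V' E' L), Finite V' → Finite E' → G'.deg = G.deg →
      Nat.card E < Nat.card E' → lam (dl G' 1) = 0)
    (hD : ((G.dec v).1 + 1 ≤ G.degAt v ∧ 5 * (G.dec v).1 ≤ 3 * G.degAt v + 1) ∨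
      ((G.dec v).1 = 1 ∧ G.nv v = 1 ∧ G.degAt v = 1)) : lam (dl G 1) = 0 := by
  have := Fintype.ofFinite (G.Fl v)
  have hFun := PhiV_Fun hlam G v (G.degAt v)
  have hRel := PhiV_RelM hlam G v hst IH
  have hG : lam (dl G 1) = PhiV lam G v (G.degAt v) (fun f => (G.hf f.1).2)
      (MvPolynomial.monomial (Multiset.toFinsupp (G.dec v).2) 1) := by
    rw [PhiV_monomial, if_pos, Multiset.toFinsupp_toMultiset, G.star_self]
    rw [weight_toFinsupp, Gr.degAt, finsum_eq_sum_of_fintype, add_comm]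
  rw [hG]
  have hχ : (0 : ℚ) < 2 * ((G.dec v).1 : ℚ) - 2 + G.nv v := by
    have : (2 : ℚ) < 2 * (G.dec v).1 + G.nv v := by exact_mod_cast hst
    linarith only [this]
  rcases hD with ⟨h1, h2⟩ | ⟨h1, h2, h3⟩
  · exact vanish hχ hFun hRel h1 h2 _ _
  · have hcard : Nat.card (G.Fl v) = 1 := h2
    obtain ⟨p0⟩ : Nonempty (G.Fl v) := (Nat.card_eq_one_iff_unique.mp hcard).2
    have hsub := (Nat.card_eq_one_iff_unique.mp hcard).1
    have e1 : (2 * ((G.dec v).1 : ℚ) - 2 + G.nv v) = 1 := by
      rw [h1, h2]; norm_num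
    rw [e1] at hFun
    have key : ∀ D, D = 1 → ∀ γ, γ = 1 → ∀ Φ : (G.Fl v → ℕ) → MvPolynomial ℕ ℚ →ₗ[ℚ] ℚ,
        Fun (G.Fl v) 1 D Φ → RelM γ D Φ → ∀ c q, Φ c q = 0 := by
      rintro D rfl γ rfl Φ hF hR c q
      exact vanish_one_one hF hR p0 (fun p => Subsingleton.elim _ _) c q
    exact key _ h3 _ h1 _ hFun hRel _ _

/-- Cubic graphs: all vertices have genus 0 and valence 3, no decorations. -/
def Gr.Cubic (G : Gr V E L) : Prop :=
  (∀ v, G.dec v = (0, 0) ∧ G.nv v = 3) ∧ ∀ y, (G.hf y).2 = 0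

lemma degAt_eq (G : Gr V E L) (v : V) : G.degAt v =
    (G.dec v).2.sum + ∑ᶠ (y) (_ : (G.hf y).1 = v), (G.hf y).2 := by
  unfold Gr.degAt
  rw [finsum_subtype_eq_finsum_cond (f := fun y => (G.hf y).2) (fun y => (G.hf y).1 = v)]

lemma sum_degAt [Fintype V] [Finite E] [Finite L] (G : Gr V E L) :
    ∑ v, G.degAt v + Nat.card E = G.deg := by
  have := Fintype.ofFinite E
  have := Fintype.ofFinite L
  simp_rw [degAt_eq, psi_eq_finsum]
  unfold Gr.deg
  rw [finsum_eq_sum_of_fintype, finsum_eq_sum_of_fintype, Finset.sum_add_distrib]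
  have : ∑ v, ∑ᶠ y, (if (G.hf y).1 = v then (G.hf y).2 else 0) = ∑ y, (G.hf y).2 := by
    simp_rw [finsum_eq_sum_of_fintype]
    rw [Finset.sum_comm]
    apply Finset.sum_congr rfl
    intro y _
    simp only [Finset.sum_ite_eq, Finset.mem_univ, ↓reduceIte]
  rw [this]
  ring

lemma sum_nv [Fintype V] [Finite E] [Finite L] (G : Gr V E L) :
    ∑ v, G.nv v = 2 * Nat.card E + Nat.card L := by
  have := Fintype.ofFinite E
  have := Fintype.ofFinite L
  have : ∀ v, G.nv v = ∑ y : (E × Bool) ⊕ L, if (G.hf y).1 = v then 1 else 0 := by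
    intro v
    rw [nv_eq_finsum, finsum_eq_sum_of_fintype]
  simp_rw [this]
  rw [Finset.sum_comm]
  simp only [Finset.sum_ite_eq, Finset.mem_univ, if_true, Finset.sum_const, Finset.card_univ,
    smul_eq_mul, mul_one, Fintype.card_sum, Fintype.card_prod, Fintype.card_bool,
    Nat.card_eq_fintype_card]
  ring

/-- in top degree every vertex has top degree -/
lemma degAt_top [Finite L] {g : ℕ} {G : Gr V E L} (hG : G.Valid g)
    (hdeg : G.deg + 3 = 3 * g + Nat.card L) (v : V) :
    G.degAt v + 3 = 3 * (G.dec v).1 + G.nv v := by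
  have hV : Finite V := hG.1
  have hE : Finite E := hG.2.1
  have := Fintype.ofFinite V
  have hle : ∀ v ∈ Finset.univ, G.degAt v + 3 ≤ 3 * (G.dec v).1 + G.nv v := by
    intro v _
    rw [degAt_eq]
    exact hG.2.2.2 v
  have hgen := hG.2.2.1.2.2.1
  rw [finsum_eq_sum_of_fintype, Nat.card_eq_fintype_card (α := V)] at hgen
  have h1 := sum_degAt G
  have h2 := sum_nv G
  have h3 : ∑ v, (G.degAt v + 3) = ∑ v, (3 * (G.dec v).1 + G.nv v) := by
    rw [Finset.sum_add_distrib, Finset.sum_add_distrib, ← Finset.mul_sum, h2, Finset.sum_const,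
      Finset.card_univ, smul_eq_mul]
    omega
  exact (Finset.sum_eq_sum_iff_of_le hle).mp h3 v (Finset.mem_univ v)

lemma star_deg (G : Gr V E L) (v : V) (K : Multiset ℕ) (hK : K.sum = (G.dec v).2.sum) :
    (G.star v (fun f => (G.hf f.1).2) K).deg = G.deg := by
  unfold Gr.deg
  congr 1
  · congr 1
    apply finsum_congr
    intro u
    by_cases hu : u = v
    · subst hu; rw [Gr.star_dec_self, hK]
    · rw [Gr.star_dec_ne G hu]
  · apply finsum_congr
    intro y
    by_cases h : (G.hf y).1 = v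
    · rw [Gr.star_hf_of _ _ _ h]
    · rw [Gr.star_hf_ne _ _ _ h]

/-- graphs all of whose vertices have genus 0 and valence 3 -/
lemma cubic_step [Finite V] [Finite E] [Finite L] {g : ℕ} {lam : F L →ₗ[ℚ] ℚ}
    (hlam : ∀ x, P g x → lam x = 0)
    (hc : ∀ (V E : Type) (G : Gr V E L), G.Valid g → G.Cubic → lam (dl G 1) = 0) (n : ℕ) :
    ∀ G : Gr V E L, G.deg + 3 = 3 * g + Nat.card L → (∀ v, (G.dec v).1 = 0 ∧ G.nv v = 3) →
      ∑ᶠ v, (G.dec v).2.card = n → lam (dl G 1) = 0 := by
  have := Fintype.ofFinite V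
  have := Fintype.ofFinite E
  have := Fintype.ofFinite L
  induction n with
  | zero =>
    intro G hdeg hG hn
    by_cases hV : G.Valid g
    · apply hc V E G hV
      have hD : ∀ v, G.degAt v = 0 := by
        intro v
        have h1 := degAt_top hV hdeg v
        rw [(hG v).1, (hG v).2] at h1
        omega
      refine ⟨?_, ?_⟩
      · intro v
        refine ⟨?_, (hG v).2⟩
        rw [finsum_eq_sum_of_fintype] at hn
        have h2 := (Finset.sum_eq_zero_iff.mp hn) v (Finset.mem_univ v)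
        rw [Multiset.card_eq_zero] at h2
        exact Prod.ext (hG v).1 h2
      · intro y
        have h3 := hD (G.hf y).1
        unfold Gr.degAt at h3
        have h4 := (Nat.add_eq_zero_iff.mp h3).2
        rw [finsum_eq_sum_of_fintype] at h4
        exact (Finset.sum_eq_zero_iff.mp h4) ⟨y, rfl⟩ (Finset.mem_univ _)
    · exact fl_not_valid hlam hV 1
  | succ n ih =>
    intro G hdeg hG hn
    by_cases hV : G.Valid g
    · obtain ⟨v, hv⟩ : ∃ v, (G.dec v).2.card ≠ 0 := by
        by_contra hcon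
        push Not at hcon
        simp [hcon] at hn
      have hD : G.degAt v = 0 := by
        have h1 := degAt_top hV hdeg v
        rw [(hG v).1, (hG v).2] at h1
        omega
      have hsum : (G.dec v).2.sum = 0 := by
        unfold Gr.degAt at hD
        omega
      obtain ⟨a, ha⟩ : ∃ a, a ∈ (G.dec v).2 := by
        apply Multiset.exists_mem_of_ne_zero
        intro h
        exact hv (by rw [h]; rfl)
      have ha0 : a = 0 := by
        have := Multiset.single_le_sum (fun _ _ => Nat.zero_le _) a ha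
        omega
      subst ha0
      have hcons : 0 ::ₘ (G.dec v).2.erase 0 = (G.dec v).2 := Multiset.cons_erase ha
      have h1 := fl_dilaton hlam G v (fun f => (G.hf f.1).2) ((G.dec v).2.erase 0)
      rw [hcons, G.star_self] at h1
      rw [h1]
      have h2 : lam (dl (G.star v (fun f => (G.hf f.1).2) ((G.dec v).2.erase 0)) 1) = 0 := by
        apply ih
        · rw [star_deg]
          · exact hdeg
          · conv_rhs => rw [← hcons]
            rw [Multiset.sum_cons, zero_add]
        · intro u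
          rw [Gr.star_dec_fst, Gr.nv_star]
          exact hG u
        · rw [finsum_eq_sum_of_fintype] at hn ⊢
          rw [← Finset.add_sum_erase _ _ (Finset.mem_univ v)] at hn ⊢
          have h3 : ∀ u ∈ Finset.univ.erase v,
              ((G.star v (fun f => (G.hf f.1).2) ((G.dec v).2.erase 0)).dec u).2.card =
              (G.dec u).2.card := by
            intro u hu
            rw [Gr.star_dec_ne G (Finset.ne_of_mem_erase hu)]
          rw [Finset.sum_congr rfl h3, Gr.star_dec_self]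
          have h4 := Multiset.card_erase_add_one ha
          change ((G.dec v).2.erase 0).card + _ = n
          omega
      rw [h2, mul_zero]
    · exact fl_not_valid hlam hV 1

/-- In top degree every decorated graph is a combination of cubic graphs. -/
theorem top_main [Finite L] {g : ℕ} {lam : F L →ₗ[ℚ] ℚ}
    (hlam : ∀ x, P g x → lam x = 0)
    (hc : ∀ (V E : Type) (G : Gr V E L), G.Valid g → G.Cubic → lam (dl G 1) = 0)
    (G : Gr V E L) (hdeg : G.deg + 3 = 3 * g + Nat.card L) : lam (dl G 1) = 0 := by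
  have main : ∀ n : ℕ, ∀ (V E : Type) (G : Gr V E L), Finite V → Finite E →
      G.deg + 3 = 3 * g + Nat.card L → G.deg < Nat.card E + n → lam (dl G 1) = 0 := by
    intro n
    induction n with
    | zero =>
      intro V E G _ _ _ h
      exfalso
      unfold Gr.deg at h
      omega
    | succ n ih =>
      intro V E G _ _ hdeg h
      by_cases hV : G.Valid g
      · by_cases hall : ∀ v, (G.dec v).1 = 0 ∧ G.nv v = 3
        · exact cubic_step hlam hc _ G hdeg hall rfl
        · push Not at hall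
          obtain ⟨v, hv⟩ := hall
          have hst := hV.2.2.1.2.2.2 v
          apply vertex_vanish hlam G v hst
          · intro V' E' G' h1 h2 h3 h4
            exact ih V' E' G' h1 h2 (by omega) (by omega)
          · have h1 := degAt_top hV hdeg v
            by_cases h2 : 4 ≤ 2 * (G.dec v).1 + G.nv v
            · left
              omega
            · right
              have h3 : (G.dec v).1 ≠ 0 := by
                intro h0
                exact hv h0 (by omega)
              omega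
      · exact fl_not_valid hlam hV 1
  by_cases hV : G.Valid g
  · exact main (G.deg + 1) V E G hV.1 hV.2.1 hdeg (by omega)
  · exact fl_not_valid hlam hV 1

end Vale.Agent.P273
end
end
end

section

section

/-! Splitting a vertex in two. -/

noncomputable section
namespace Vale.Agent.P273
open Sum
open scoped Classical

open Alg

variable {V E L X : Type}

/-- the half-edges of a split graph -/
def Gr.splitu (G : Gr V E L) (v : V) (ε : G.Fl v → Bool) (y : (E × Bool) ⊕ L) : Option V × ℕ :=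
  (if h : (G.hf y).1 = v then (if ε ⟨y, h⟩ then none else some v) else some (G.hf y).1, (G.hf y).2)

/-- Split the vertex `v`: the half-edges `f` with `ε f` go to a new vertex of genus 0. -/
def Gr.split (G : Gr V E L) (v : V) (ε : G.Fl v → Bool) : Gr (Option V) (Option E) L :=
  ⟨fun w => w.elim (0, 0) G.dec,
   Sum.elim (fun y => y.1.elim (if y.2 then (none, 0) else (some v, 0))
     (fun e => G.splitu v ε (inl (e, y.2)))) (fun x => G.splitu v ε (inr x))⟩

lemma Gr.splitu_of (G : Gr V E L) {v : V} (ε : G.Fl v → Bool) {y : (E × Bool) ⊕ L}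
    (h : (G.hf y).1 = v) : G.splitu v ε y = (if ε ⟨y, h⟩ then none else some v, (G.hf y).2) := by
  unfold Gr.splitu
  rw [dif_pos h]

lemma Gr.splitu_ne (G : Gr V E L) {v : V} (ε : G.Fl v → Bool) {y : (E × Bool) ⊕ L}
    (h : (G.hf y).1 ≠ v) : G.splitu v ε y = (some (G.hf y).1, (G.hf y).2) := by
  unfold Gr.splitu
  rw [dif_neg h]

/-- the two-vertex graph with one edge -/
def pt2 (ε : L → Bool) (o : Bool) : Gr (Fin 2) (Fin 1) L :=
  ⟨fun _ => (0, 0), Sum.elim (fun y => (if y.2 = o then 1 else 0, 0))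
    (fun x => (if ε x then 1 else 0, 0))⟩

/-- the vertices of the graft -/
def vEquiv2 (v : V) : Fin 2 ⊕ {u // u ≠ v} ≃ Option V where
  toFun := Sum.elim (fun i => if i = 1 then none else some v) (fun u => some u.1)
  invFun := fun w => w.elim (inl 1) (fun w => if h : w = v then inl 0 else inr ⟨w, h⟩)
  left_inv := by
    rintro (i | ⟨u, hu⟩)
    · fin_cases i <;> simp
    · simp [hu]
  right_inv := by
    rintro (_ | w)
    · simp
    · by_cases h : w = v
      · subst h; simp
      · simp [h]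

/-- the edges of the graft -/
def eMap2 (E : Type) (o : Bool) (y : (Fin 1 ⊕ E) × Bool) : Option E × Bool :=
  y.1.elim (fun _ => (none, y.2 == o)) (fun e => (some e, y.2))

lemma eMap2_bij (E : Type) (o : Bool) : (eMap2 E o).Bijective := by
  constructor
  · rintro ⟨i | e, s⟩ ⟨i' | e', s'⟩ h
    · have : i = i' := Subsingleton.elim _ _
      subst this
      cases s <;> cases s' <;> cases o <;> simp_all [eMap2]
    · simp [eMap2] at h
    · simp [eMap2] at h
    · simp [eMap2] at h
      obtain ⟨rfl, rfl⟩ := h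
      rfl
  · rintro ⟨_ | e, s⟩
    · refine ⟨(inl 0, s == o), ?_⟩
      cases s <;> cases o <;> rfl
    · exact ⟨(inr e, s), rfl⟩

theorem Gr.envAt_graft_iso2 (G : Gr V E L) (v : V) (hv : G.dec v = (0, 0))
    (hψ : ∀ y, (G.hf y).1 = v → (G.hf y).2 = 0) (ε : G.Fl v → Bool) (o : Bool) :
    ((G.envAt v (X := Empty) (fun _ => 0)).graft (pt2 (Sum.elim ε (fun x => x.elim)) o)).Iso
      (G.split v ε) := by
  have huse : ∀ y : (E × Bool) ⊕ L, G.splitu v ε y =
      ((vEquiv2 v) ((G.envAt v (X := Empty) (fun _ => 0)).usehf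
        (pt2 (Sum.elim ε (fun x => x.elim)) o) y).1,
        ((G.envAt v (X := Empty) (fun _ => 0)).usehf
          (pt2 (Sum.elim ε (fun x => x.elim)) o) y).2) := by
    intro y
    by_cases h : (G.hf y).1 = v
    · rw [Env.usehf_inl (Gr.envAt_use_of _ _ h), Gr.splitu_of _ _ h, hψ y h]
      have e1 : (pt2 (Sum.elim ε (fun x : Empty => x.elim)) o).hf (inr (inl ⟨y, h⟩)) =
        (if ε ⟨y, h⟩ then 1 else 0, 0) := rfl
      rw [e1]
      cases hε : ε ⟨y, h⟩ <;> rfl
    · rw [Env.usehf_inr (Gr.envAt_use_ne _ _ h), Gr.splitu_ne _ _ h]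
      rfl
  refine ⟨vEquiv2 v, eMap2 E o, (vEquiv2 v).bijective, eMap2_bij E o, ?_, ?_, ?_⟩
  · rintro (i | e) <;> rfl
  · rintro (i | ⟨u, hu⟩)
    · have h1 : ((G.envAt v (X := Empty) (fun _ => 0)).graft
          (pt2 (Sum.elim ε (fun x => x.elim)) o)).dec (inl i) = (0, 0) := by
        rw [Env.graft_dec_inl]
        have : (G.envAt v (X := Empty) (fun _ => 0)).unused
            (pt2 (Sum.elim ε (fun x => x.elim)) o) i = 0 := by
          unfold Env.unused
          apply finsum_eq_zero_of_forall_eq_zero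
          rintro (f | x)
          · rw [finsum_eq_if, if_neg]
            exact fun h => h.1 (G.envAt_used v _ f)
          · exact x.elim
        rw [this]
        rfl
      rw [h1]
      fin_cases i
      · exact hv
      · rfl
    · rfl
  · rintro (⟨i | e, s⟩ | x)
    · have : i = 0 := Subsingleton.elim _ _
      subst this
      cases s <;> cases o <;> rfl
    · exact huse (inl (e, s))
    · exact huse (inr x)

end Vale.Agent.P273
end
end
end

section

section

/-! Linear algebra behind the WDVV relation. -/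

namespace Vale.Agent.P273
open Finset

/-- balanced functions -/
def Bal {M : Type} [Fintype M] (ε : M → Bool) : Prop := (univ.filter (fun x => ε x = true)).card = 2

instance {M : Type} [Fintype M] (ε : M → Bool) : Decidable (Bal ε) := by
  unfold Bal; infer_instance

lemma bal_cases : ∀ ε : Fin 4 → Bool, Bal ε →
    ε = ![true, true, false, false] ∨ ε = ![false, false, true, true] ∨
    ε = ![true, false, true, false] ∨ ε = ![false, true, false, true] ∨
    ε = ![true, false, false, true] ∨ ε = ![false, true, true, false] := by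
  decide

lemma filt (i j : Fin 4) (s : Finset (Fin 4 → Bool))
    (h : univ.filter (fun ε : Fin 4 → Bool => Bal ε ∧ ε i ≠ ε j) = s) (T : (Fin 4 → Bool) → ℚ) :
    ∑ ε ∈ univ.filter (fun ε : Fin 4 → Bool => Bal ε ∧ ε i ≠ ε j), T ε = ∑ ε ∈ s, T ε := by
  rw [h]

lemma fin4 (ψ : Fin 4 → ℚ) (T : (Fin 4 → Bool) → ℚ) (hT : ∀ ε, T (fun x => !ε x) = T ε)
    (h : ∀ i j, i ≠ j → 2 * (ψ i + ψ j) =
      ∑ ε ∈ univ.filter (fun ε : Fin 4 → Bool => Bal ε ∧ ε i ≠ ε j), T ε)
    (ε ε' : Fin 4 → Bool) (hε : Bal ε) (hε' : Bal ε') : T ε = T ε' := by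
  have t1 : T ![false, false, true, true] = T ![true, true, false, false] := by
    rw [← hT]; congr 1; decide
  have t2 : T ![false, true, false, true] = T ![true, false, true, false] := by
    rw [← hT]; congr 1; decide
  have t3 : T ![false, true, true, false] = T ![true, false, false, true] := by
    rw [← hT]; congr 1; decide
  have h01 := h 0 1 (by decide)
  have h23 := h 2 3 (by decide)
  have h02 := h 0 2 (by decide)
  have h13 := h 1 3 (by decide)
  have h03 := h 0 3 (by decide)
  have h12 := h 1 2 (by decide)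
  rw [filt 0 1 {![true, false, true, false], ![false, true, false, true],
    ![true, false, false, true], ![false, true, true, false]} (by decide)] at h01
  rw [filt 2 3 {![true, false, true, false], ![false, true, false, true],
    ![true, false, false, true], ![false, true, true, false]} (by decide)] at h23
  rw [filt 0 2 {![true, true, false, false], ![false, false, true, true],
    ![true, false, false, true], ![false, true, true, false]} (by decide)] at h02
  rw [filt 1 3 {![true, true, false, false], ![false, false, true, true],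
    ![true, false, false, true], ![false, true, true, false]} (by decide)] at h13
  rw [filt 0 3 {![true, true, false, false], ![false, false, true, true],
    ![true, false, true, false], ![false, true, false, true]} (by decide)] at h03
  rw [filt 1 2 {![true, true, false, false], ![false, false, true, true],
    ![true, false, true, false], ![false, true, false, true]} (by decide)] at h12
  have sum4 : ∀ a b c d : Fin 4 → Bool, a ≠ b → a ≠ c → a ≠ d → b ≠ c → b ≠ d → c ≠ d →
      ∑ ε ∈ ({a, b, c, d} : Finset (Fin 4 → Bool)), T ε = T a + T b + T c + T d := by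
    intro a b c d h1 h2 h3 h4 h5 h6
    rw [sum_insert (by simp [h1, h2, h3]), sum_insert (by simp [h4, h5]),
      sum_insert (by simp [h6]), sum_singleton]
    ring
  rw [sum4 _ _ _ _ (by decide) (by decide) (by decide) (by decide) (by decide) (by decide)]
    at h01 h23 h02 h13 h03 h12
  have e1 : T ![true, true, false, false] = T ![true, false, true, false] := by linarith only [t1, t2, h01, h23, h02, h13]
  have e2 : T ![true, true, false, false] = T ![true, false, false, true] := by linarith only [t1, t3, h01, h23, h03, h12]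
  have key : ∀ ε, Bal ε → T ε = T ![true, true, false, false] := by
    intro ε hε
    rcases bal_cases ε hε with rfl | rfl | rfl | rfl | rfl | rfl <;> linarith only [t1, t2, h01, h23, h02, h13, t3, h03, h12]
  rw [key ε hε, key ε' hε']

end Vale.Agent.P273
end
end

section

section

/-! The weights in the relations on the four-pointed line. -/

noncomputable section
namespace Vale.Agent.P273
open Sum
open scoped Classical

open Alg

variable {V E L M : Type}

lemma four_general [Fintype M] (hM : Fintype.card M = 4) (ψ : M → ℚ) (T : (M → Bool) → ℚ)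
    (hT : ∀ ε, T (fun x => !ε x) = T ε)
    (h : ∀ i j, i ≠ j → 2 * (ψ i + ψ j) =
      ∑ ε : M → Bool, if Bal ε ∧ ε i ≠ ε j then T ε else 0)
    (ε ε' : M → Bool) (hε : Bal ε) (hε' : Bal ε') : T ε = T ε' := by
  have e : M ≃ Fin 4 := Fintype.equivFinOfCardEq hM
  have hbal : ∀ η : Fin 4 → Bool, Bal (fun x => η (e x)) ↔ Bal η := by
    intro η
    unfold Bal
    have : (Finset.univ.filter (fun x => η x = true)) =
        (Finset.univ.filter (fun x => η (e x) = true)).map e.toEmbedding := by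
      ext y
      simp only [Finset.mem_filter, Finset.mem_univ, true_and, Finset.mem_map,
        Equiv.coe_toEmbedding]
      constructor
      · intro hy
        exact ⟨e.symm y, by simpa using hy, by simp⟩
      · rintro ⟨x, hx, rfl⟩
        exact hx
    rw [this, Finset.card_map]
  have hinv : ∀ ε : M → Bool, (fun x => (fun i => ε (e.symm i)) (e x)) = ε := by
    intro ε
    funext x
    simp
  have key := fin4 (fun i => ψ (e.symm i)) (fun η => T (fun x => η (e x)))
    (fun η => hT (fun x => η (e x))) (by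
      intro i j hij
      rw [h (e.symm i) (e.symm j) (fun h => hij (e.symm.injective h))]
      rw [Finset.sum_filter]
      rw [← Equiv.sum_comp (Equiv.arrowCongr e (Equiv.refl Bool))]
      apply Finset.sum_congr rfl
      intro ε _
      have h1 : (Equiv.arrowCongr e (Equiv.refl Bool)) ε = fun i => ε (e.symm i) := rfl
      rw [h1]
      have h2 : Bal (fun i => ε (e.symm i)) ↔ Bal ε := by
        rw [← hbal, hinv]
      have h3 : (fun x => (fun i => ε (e.symm i)) (e x)) = ε := hinv ε
      simp only [h3, h2])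
    (fun i => ε (e.symm i)) (fun i => ε' (e.symm i)) (by rw [← hbal, hinv]; exact hε)
    (by rw [← hbal, hinv]; exact hε')
  simp only [hinv] at key
  exact key

lemma edgeF_zero (ζ ξ : ℚ) (hζ : ζ ^ 2 = 1) : edgeF (ζ, 0) (ξ, 0) = 60 * (ζ * ξ) - 84 := by
  rw [edgeF_eq]
  simp only [zero_add, Finset.sum_range_one, pow_zero, one_mul, Nat.sub_zero, add_zero]
  unfold TT
  rw [B_one_zero, B_zero_one, B_one_one, B_zero_zero, hζ]
  ring

lemma nv_pt2 [Fintype M] (ε : M → Bool) (o : Bool) (b : Bool) :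
    (pt2 ε o).nv (if b then 1 else 0) = 1 + (Finset.univ.filter (fun x => ε x = b)).card := by
  rw [nv_eq_finsum, finsum_eq_sum_of_fintype, Fintype.sum_sum_type, Fintype.sum_prod_type,
    Finset.card_filter]
  congr 1
  · rw [Fintype.sum_subsingleton _ 0, Fintype.sum_bool]
    simp only [pt2, Sum.elim_inl]
    cases b <;> cases o <;> simp
  · apply Finset.sum_congr rfl
    intro x _
    simp only [pt2, Sum.elim_inr]
    by_cases h : ε x = true
    · cases b <;> simp [h]
    · have h' : ε x = false := by simpa using h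
      cases b <;> simp [h']

lemma card_true [Fintype M] {ε : M → Bool} (hε : Bal ε) :
    (Finset.univ.filter (fun x => ε x = true)).card = 2 := by
  have h : Finset.card _ = 2 := hε
  refine Eq.trans (congrArg Finset.card ?_) h
  ext x
  simp only [Finset.mem_filter, Finset.mem_univ, true_and]

lemma card_bal [Fintype M] (hM : Fintype.card M = 4) {ε : M → Bool} (hε : Bal ε) (b : Bool) :
    (Finset.univ.filter (fun x => ε x = b)).card = 2 := by
  cases b
  · have h1 := Finset.card_filter_add_card_filter_not (s := (Finset.univ : Finset M))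
      (fun x => ε x = true)
    rw [Finset.card_univ, hM] at h1
    have h2 := card_true hε
    have h3 : (Finset.univ.filter (fun x => ¬ ε x = true)) =
      (Finset.univ.filter (fun x => ε x = false)) := by
      ext x; simp only [Bool.not_eq_true, Finset.mem_filter, Finset.mem_univ, true_and]
    rw [h2, h3] at h1
    omega
  · exact card_true hε

lemma stab_pt2 [Fintype M] (hM : Fintype.card M = 4) {ε : M → Bool} (hε : Bal ε) (o : Bool) :
    (pt2 ε o).Stab 0 := by
  refine ⟨⟨0⟩, ?_, ?_, ?_⟩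
  · intro s hs
    have h1 := hs 0
    have h2 : (0 : Fin 2) ∈ s ↔ (1 : Fin 2) ∈ s := by
      cases o
      · simpa only [Fin.isValue, pt2, elim_inl, Bool.true_eq_false, ↓reduceIte] using h1
      · simpa only [Fin.isValue, pt2, elim_inl, Bool.false_eq_true, ↓reduceIte] using h1.symm
    by_cases h0 : (0 : Fin 2) ∈ s
    · right
      ext i
      fin_cases i
      · simpa using h0
      · simpa using h2.mp h0
    · left
      ext i
      fin_cases i
      · simpa using h0
      · simpa using fun h => h0 (h2.mpr h)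
  · rw [finsum_eq_sum_of_fintype]
    simp [pt2]
  · intro v
    have h1 := nv_pt2 ε o (decide (v = 1))
    rw [card_bal hM hε] at h1
    have h2 : (if decide (v = 1) = true then (1 : Fin 2) else 0) = v := by
      fin_cases v <;> simp
    rw [h2] at h1
    rw [h1]
    omega

lemma deg_pt2 [Fintype M] (ε : M → Bool) (o : Bool) : (pt2 ε o).deg = 1 := by
  unfold Gr.deg
  rw [finsum_eq_sum_of_fintype, finsum_eq_sum_of_fintype, Fintype.sum_sum_type]
  simp only [Nat.card_eq_fintype_card, Fintype.card_unique, pt2, Fin.isValue, Multiset.sum_zero, Finset.sum_const_zero, add_zero, elim_inl, elim_inr]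

theorem wt_pt2 [Fintype M] (hM : Fintype.card M = 4) {ε : M → Bool} (hε : Bal ε) (o : Bool)
    (a : M → ℕ) (ha : Even (∑ x, a x)) :
    wt (pt2 ε o) 0 a 1 = if Even (∑ x, if ε x then a x else 0) then 60 else -84 := by
  rw [wt_eq_wsum, if_pos ⟨stab_pt2 hM hε o, deg_pt2 ε o⟩, finsum_eq_sum_of_fintype]
  have h1 : ∀ s0 s1 : ℚ, s0 ^ 2 = 1 → s1 ^ 2 = 1 →
      wsum (pt2 ε o) a (fun v => if v = 0 then s0 else s1) =
      s0 * s1 * (60 * (s0 * s1) - 84) * (s1 ^ (∑ x, if ε x then a x else 0) *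
        s0 ^ (∑ x, if ε x then 0 else a x)) := by
    intro s0 s1 hs0 hs1
    unfold wsum
    rw [finprod_eq_prod_of_fintype, finprod_eq_prod_of_fintype, finprod_eq_prod_of_fintype,
      Fin.prod_univ_two, Fintype.prod_subsingleton _ (0 : Fin 1)]
    congr 1
    · congr 1
      · simp only [Fin.isValue, ↓reduceIte, pt2, zero_add, pow_one, kapF, Multiset.map_zero, Multiset.prod_zero, Multiset.toFinset_zero, Multiset.notMem_zero, not_false_eq_true, Multiset.count_eq_zero_of_notMem, Nat.factorial_zero, Nat.cast_one, Finset.prod_const_one, ne_eq, one_ne_zero, div_self, mul_one]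
      · cases o
        · simp only [pt2, Sum.elim_inl]
          simp
          rw [edgeF_zero _ _ hs0]
        · simp only [pt2, Sum.elim_inl]
          simp
          rw [edgeF_zero _ _ hs1]
          ring
    · rw [← Finset.prod_pow_eq_pow_sum, ← Finset.prod_pow_eq_pow_sum, ← Finset.prod_mul_distrib]
      apply Finset.prod_congr rfl
      intro x _
      simp only [pt2, Sum.elim_inr, B_at_zero]
      by_cases h : ε x = true
      · simp [h]
      · have h' : ε x = false := by simpa using h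
        simp [h']
  have h2 : ∀ ζ : Fin 2 → Bool, (fun v => sg (ζ v)) =
      fun v : Fin 2 => if v = 0 then sg (ζ 0) else sg (ζ 1) := by
    intro ζ
    funext v
    fin_cases v <;> simp
  have h3 : ∀ ζ : Fin 2 → Bool, wsum (pt2 ε o) a (fun v => sg (ζ v)) =
      sg (ζ 0) * sg (ζ 1) * (60 * (sg (ζ 0) * sg (ζ 1)) - 84) *
        (sg (ζ 1) ^ (∑ x, if ε x then a x else 0) *
        sg (ζ 0) ^ (∑ x, if ε x then 0 else a x)) := by
    intro ζ
    rw [h2, h1 _ _ (sg_sq _) (sg_sq _)]
  simp_rw [h3]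
  rw [← Equiv.sum_comp (finTwoArrowEquiv Bool).symm, Fintype.sum_prod_type, Fintype.sum_bool,
    Fintype.sum_bool, Fintype.sum_bool]
  have hA : ∑ x, a x = (∑ x, if ε x then a x else 0) + (∑ x, if ε x then 0 else a x) := by
    rw [← Finset.sum_add_distrib]
    apply Finset.sum_congr rfl
    intro x _
    split_ifs <;> simp
  rw [hA, Nat.even_add] at ha
  have e1 : sg true = 1 := rfl
  have e2 : sg false = -1 := rfl
  simp only [finTwoArrowEquiv_symm_apply, Matrix.cons_val_zero, Matrix.cons_val_one, e1, e2,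
    one_pow]
  have e3 : Nat.card (Fin 1) = 1 := by simp
  rw [e3]
  by_cases hev : Even (∑ x, if ε x then a x else 0)
  · rw [if_pos hev, hev.neg_one_pow, (ha.mp hev).neg_one_pow]
    norm_num
  · have hod : ¬ Even (∑ x, if ε x then 0 else a x) := fun h => hev (ha.mpr h)
    rw [if_neg hev, (Nat.not_even_iff_odd.mp hev).neg_one_pow,
      (Nat.not_even_iff_odd.mp hod).neg_one_pow]
    norm_num

end Vale.Agent.P273
end
end
end

section

section

/-! The form of the relations on the four-pointed line. -/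

noncomputable section
namespace Vale.Agent.P273
open Sum
open scoped Classical

open Alg

variable {V E L M : Type}

/-- the labelled graphs that occur -/
def formE : Option M ⊕ ((M → Bool) × Bool) → Σ k m : ℕ, Gr (Fin k) (Fin m) M
  | inl none => ⟨1, 0, pt1 0 {1} (fun _ => 0)⟩
  | inl (some x) => ⟨1, 0, pt1 0 0 (fun y => if y = x then 1 else 0)⟩
  | inr p => ⟨2, 1, pt2 p.1 p.2⟩

lemma pt1_inj {γ γ' : ℕ} {κ κ' : Multiset ℕ} {c c' : L → ℕ} (h : pt1 γ κ c = pt1 γ' κ' c') :
    γ = γ' ∧ κ = κ' ∧ c = c' := by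
  have h1 : (pt1 γ κ c).dec 0 = (pt1 γ' κ' c').dec 0 := by rw [h]
  have h2 : ∀ x, (pt1 γ κ c).hf (inr x) = (pt1 γ' κ' c').hf (inr x) := by intro x; rw [h]
  have h3 : (γ, κ) = (γ', κ') := h1
  refine ⟨congrArg Prod.fst h3, congrArg Prod.snd h3, ?_⟩
  funext x
  have h4 : ((0 : Fin 1), c x) = (0, c' x) := h2 x
  exact congrArg Prod.snd h4

lemma pt2_inj {ε ε' : L → Bool} {o o' : Bool} (h : pt2 ε o = pt2 ε' o') : ε = ε' ∧ o = o' := by
  have h1 : (pt2 ε o).hf (inl (0, true)) = (pt2 ε' o').hf (inl (0, true)) := by rw [h]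
  have h2 : ∀ x, (pt2 ε o).hf (inr x) = (pt2 ε' o').hf (inr x) := by intro x; rw [h]
  constructor
  · funext x
    have h3 : ((if ε x then 1 else 0 : Fin 2), 0) = (((if ε' x then 1 else 0 : Fin 2), 0) :
      Fin 2 × ℕ) := h2 x
    cases h4 : ε x <;> cases h5 : ε' x <;> simp [h4, h5] at h3 ⊢
  · have h3 : ((if true = o then 1 else 0 : Fin 2), 0) = (((if true = o' then 1 else 0 : Fin 2), 0) :
      Fin 2 × ℕ) := h1
    cases o <;> cases o' <;> simp at h3 ⊢

lemma formE_inj : (formE (M := M)).Injective := by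
  rintro ((_ | x) | ⟨ε, o⟩) ((_ | x') | ⟨ε', o'⟩) h
  · rfl
  · exfalso
    simp only [formE, Sigma.mk.injEq, heq_eq_eq, true_and] at h
    have := (pt1_inj h).2.1
    simp at this
  · simp [formE] at h
  · exfalso
    simp only [formE, Sigma.mk.injEq, heq_eq_eq, true_and] at h
    have := (pt1_inj h).2.1
    simp at this
  · simp only [formE, Sigma.mk.injEq, heq_eq_eq, true_and] at h
    have h2 := congrFun (pt1_inj h).2.2 x
    simp only [if_true] at h2
    by_cases hx : x = x'
    · rw [hx]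
    · rw [if_neg hx] at h2
      exact absurd h2 one_ne_zero
  · simp [formE] at h
  · simp [formE] at h
  · simp [formE] at h
  · simp only [formE, Sigma.mk.injEq, heq_eq_eq, true_and] at h
    obtain ⟨h1, h2⟩ := pt2_inj h
    rw [h1, h2]

lemma form_one [Fintype M] {a : M → ℕ} (G : Gr (Fin 1) (Fin 0) M) (h : wt G 0 a 1 ≠ 0) :
    (⟨1, 0, G⟩ : Σ k m : ℕ, Gr (Fin k) (Fin m) M) ∈ Set.range formE := by
  obtain ⟨h1, h2, h3⟩ := wt_ne_zero h
  rw [eq_pt1 G] at h h2
  obtain ⟨h4, h5⟩ := wt_pt1_ne h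
  rw [finsum_eq_sum_of_fintype] at h5
  rcases Nat.eq_zero_or_pos (G.dec 0).2.sum with h6 | h6
  · rw [h6, zero_add] at h5
    have h7 : ∃ x, (G.hf (inr x)).2 ≠ 0 := by
      by_contra hcon
      push Not at hcon
      rw [Finset.sum_eq_zero (fun x _ => hcon x)] at h5
      exact absurd h5 (by norm_num)
    obtain ⟨x, hx⟩ := h7
    have h8 := Finset.add_sum_erase Finset.univ (fun x => (G.hf (inr x)).2) (Finset.mem_univ x)
    refine ⟨inl (some x), ?_⟩
    rw [eq_pt1 G]
    have h9 : (G.dec 0).2 = 0 := by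
      apply Multiset.eq_zero_of_forall_notMem
      intro c hc
      have := Multiset.single_le_sum (fun _ _ => Nat.zero_le _) c hc
      have h10 : c = 0 := by omega
      subst h10
      exact h3 0 hc
    have h10 : (fun x => (G.hf (inr x)).2) = fun y => if y = x then 1 else 0 := by
      funext y
      by_cases hy : y = x
      · rw [if_pos hy, hy]; omega
      · rw [if_neg hy]
        have h11 : ∑ x ∈ Finset.univ.erase x, (G.hf (inr x)).2 = 0 := by omega
        exact (Finset.sum_eq_zero_iff.mp h11) y (Finset.mem_erase.mpr ⟨hy, Finset.mem_univ y⟩)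
    rw [h4, h9, h10]
    rfl
  · have h7 : (G.dec 0).2.sum = 1 := by omega
    have h8 : ∑ x, (G.hf (inr x)).2 = 0 := by omega
    refine ⟨inl none, ?_⟩
    rw [eq_pt1 G]
    have h10 : (fun x => (G.hf (inr x)).2) = fun y => 0 := by
      funext y
      exact (Finset.sum_eq_zero_iff.mp h8) y (Finset.mem_univ y)
    have h9 : (G.dec 0).2 = {1} := by
      obtain ⟨c, hc⟩ : ∃ c, c ∈ (G.dec 0).2 := by
        apply Multiset.exists_mem_of_ne_zero
        intro h
        rw [h] at h7
        simp at h7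
      obtain ⟨t, ht⟩ := Multiset.exists_cons_of_mem hc
      have hc0 : c ≠ 0 := by
        intro h
        subst h
        exact h3 0 hc
      have h12 : t = 0 := by
        apply Multiset.eq_zero_of_forall_notMem
        intro c' hc'
        have h13 := Multiset.single_le_sum (fun _ _ => Nat.zero_le _) c' hc'
        rw [ht, Multiset.sum_cons] at h7
        have h14 : c' = 0 := by omega
        subst h14
        apply h3 0
        rw [ht]
        exact Multiset.mem_cons_of_mem hc'
      rw [ht, Multiset.sum_cons, h12, Multiset.sum_zero] at h7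
      rw [ht, h12, show c = 1 by omega]
      rfl
    rw [h4, h9, h10]
    rfl

lemma form_two [Fintype M] {a : M → ℕ} (G : Gr (Fin 2) (Fin 1) M) (h : wt G 0 a 1 ≠ 0) :
    (⟨2, 1, G⟩ : Σ k m : ℕ, Gr (Fin k) (Fin m) M) ∈ Set.range formE := by
  obtain ⟨h1, h2, h3⟩ := wt_ne_zero h
  obtain ⟨_, hc, hg, _⟩ := h1
  unfold Gr.deg at h2
  rw [finsum_eq_sum_of_fintype] at hg h2
  rw [finsum_eq_sum_of_fintype] at h2
  have e1 : Nat.card (Fin 1) = 1 := by simp
  have e2 : Nat.card (Fin 2) = 2 := by simp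
  rw [e1] at hg h2
  rw [e2] at hg
  have hg' : ∑ v, (G.dec v).1 = 0 := by omega
  have hk' : ∑ v, (G.dec v).2.sum = 0 := by omega
  have hp' : ∑ y, (G.hf y).2 = 0 := by omega
  have hdec : ∀ v, G.dec v = (0, 0) := by
    intro v
    apply Prod.ext
    · exact (Finset.sum_eq_zero_iff.mp hg') v (Finset.mem_univ v)
    · have h4 := (Finset.sum_eq_zero_iff.mp hk') v (Finset.mem_univ v)
      apply Multiset.eq_zero_of_forall_notMem
      intro c hc
      have := Multiset.single_le_sum (fun _ _ => Nat.zero_le _) c hc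
      have h10 : c = 0 := by omega
      subst h10
      exact h3 v hc
  have hpsi : ∀ y, (G.hf y).2 = 0 := fun y => (Finset.sum_eq_zero_iff.mp hp') y (Finset.mem_univ y)
  have h5 := hc {1}
  have h6 : ¬ (({1} : Set (Fin 2)) = ∅ ∨ ({1} : Set (Fin 2)) = Set.univ) := by
    rintro (h | h)
    · exact Set.singleton_ne_empty _ h
    · have : (0 : Fin 2) ∈ ({1} : Set (Fin 2)) := by rw [h]; trivial
      simp at this
  have h7 : ¬ ((G.hf (inl (0, true))).1 = 1 ↔ (G.hf (inl (0, false))).1 = 1) := by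
    intro h
    apply h6
    apply h5
    intro e
    rw [Subsingleton.elim e 0]
    simpa using h
  refine ⟨inr (fun x => decide ((G.hf (inr x)).1 = 1), decide ((G.hf (inl (0, true))).1 = 1)), ?_⟩
  simp only [formE, Sigma.mk.injEq, heq_eq_eq, true_and]
  apply Gr.ext'
  · intro v
    rw [hdec]
    rfl
  · have h01 : ∀ i : Fin 2, i ≠ 1 → i = 0 := by decide
    rintro (⟨e, s⟩ | x)
    · rw [Subsingleton.elim e 0]
      apply Prod.ext
      · by_cases h8 : (G.hf (inl (0, true))).1 = 1
        · have h9 : ¬ (G.hf (inl (0, false))).1 = 1 := fun h => h7 ⟨fun _ => h, fun _ => h8⟩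
          cases s
          · simp [pt2, h8, h01 _ h9]
          · simp [pt2, h8]
        · have h9 : (G.hf (inl (0, false))).1 = 1 := by
            by_contra h
            exact h7 ⟨fun h' => absurd h' h8, fun h' => absurd h' h⟩
          cases s
          · simp [pt2, h8, h9]
          · simp [pt2, h01 _ h8]
      · rw [hpsi]
        rfl
    · apply Prod.ext
      · by_cases h8 : (G.hf (inr x)).1 = 1
        · simp [pt2, h8]
        · simp only [pt2, Fin.isValue, decide_eq_true_eq, elim_inr, h01 _ h8, zero_ne_one, ↓reduceIte]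
      · rw [hpsi]
        rfl

lemma form_all [Fintype M] {a : M → ℕ} (p : Σ k m : ℕ, Gr (Fin k) (Fin m) M)
    (h : wt p.2.2 0 a 1 ≠ 0) : p ∈ Set.range formE := by
  obtain ⟨k, m, G⟩ := p
  dsimp only at h
  obtain ⟨h1, h2, h3⟩ := wt_ne_zero h
  have h4 := h1.conn_card
  have h5 := h1.2.2.1
  have hb := (wt_bound h).2
  rw [Nat.card_eq_fintype_card, Nat.card_eq_fintype_card, Fintype.card_fin, Fintype.card_fin]
    at h4 h5
  obtain ⟨rfl | rfl, h7⟩ : (m = 0 ∨ m = 1) ∧ k = m + 1 := by omega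
  · subst h7
    exact form_one G h
  · subst h7
    exact form_two G h

end Vale.Agent.P273
end
end
end

section

section

/-! The WDVV relation in top degree. -/

noncomputable section
namespace Vale.Agent.P273
open Sum
open scoped Classical

open Alg

variable {V E L M : Type}

lemma wt_form_none [Fintype M] (hM : Fintype.card M = 4) (a : M → ℕ) (ha : Even (∑ x, a x)) :
    wt (pt1 0 {1} (fun _ : M => 0)) 0 a 1 = 60 := by
  rw [wt_pt1 0 {1} (fun _ => 0) a 1 (by rw [Nat.card_eq_fintype_card, hM]; norm_num)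
    (by simp) (by rw [finsum_eq_sum_of_fintype]; simpa only [zero_add, Nat.reduceAdd, Nat.even_add, even_two, true_iff] using ha)]
  rw [finprod_eq_prod_of_fintype, Finset.prod_eq_one (fun x _ => by rw [B_at_zero, one_pow])]
  simp only [kapF, Multiset.map_singleton, pow_one, B_zero_one, mul_one, sub_neg_eq_add, zero_add, Multiset.prod_singleton, Multiset.toFinset_singleton, Multiset.nodup_singleton, Finset.prod_singleton, Multiset.mem_singleton, Multiset.count_eq_one_of_mem, Nat.factorial_one, Nat.cast_one, div_one]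

lemma wt_form_some [Fintype M] (hM : Fintype.card M = 4) (a : M → ℕ) (ha : Even (∑ x, a x))
    (h1 : ∀ x, a x ≤ 1) (x : M) :
    wt (pt1 0 0 (fun y : M => if y = x then 1 else 0)) 0 a 1 = if a x = 0 then -60 else 84 := by
  rw [wt_pt1 0 0 _ a 1 (by rw [Nat.card_eq_fintype_card, hM]; norm_num)
    (by rw [finsum_eq_sum_of_fintype]; simp only [Multiset.sum_zero, Finset.sum_ite_eq', Finset.mem_univ, ↓reduceIte, zero_add])
    (by rw [finsum_eq_sum_of_fintype]; simpa only [zero_add, Nat.reduceAdd, Nat.even_add, even_two, true_iff] using ha)]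
  rw [finprod_eq_prod_of_fintype, Finset.prod_eq_single x]
  · rw [if_pos rfl]
    have := h1 x
    interval_cases h : a x
    · simp only [kapF, Multiset.map_zero, Multiset.prod_zero, Multiset.toFinset_zero, Multiset.notMem_zero, not_false_eq_true, Multiset.count_eq_zero_of_notMem, Nat.factorial_zero, Nat.cast_one, Finset.prod_const_one, ne_eq, one_ne_zero, div_self, B_zero_one, mul_one, mul_neg, one_mul, ↓reduceIte]
    · simp only [kapF, Multiset.map_zero, Multiset.prod_zero, Multiset.toFinset_zero, Multiset.notMem_zero, not_false_eq_true, Multiset.count_eq_zero_of_notMem, Nat.factorial_zero, Nat.cast_one, Finset.prod_const_one, ne_eq, one_ne_zero, div_self, B_one_one, one_pow, mul_one, one_mul, ↓reduceIte]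
  · intro y _ hy
    rw [if_neg hy, B_at_zero, one_pow]
  · intro h
    exact absurd (Finset.mem_univ x) h

lemma wt_form_pair [Fintype M] (hM : Fintype.card M = 4) (a : M → ℕ) (ha : Even (∑ x, a x))
    (ε : M → Bool) (o : Bool) :
    wt (pt2 ε o) 0 a 1 = if Bal ε then (if Even (∑ x, if ε x then a x else 0) then 60 else -84)
      else 0 := by
  by_cases hε : Bal ε
  · rw [if_pos hε, wt_pt2 hM hε o a ha]
  · rw [if_neg hε]
    by_contra hne
    apply hε
    obtain ⟨⟨_, _, _, h4⟩, _⟩ := wt_ne_zero hne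
    have h5 := h4 0
    have h6 := h4 1
    have e1 := nv_pt2 ε o true
    have e0 := nv_pt2 ε o false
    simp only [if_true] at e1
    rw [if_neg (by simp)] at e0
    rw [e0] at h5
    rw [e1] at h6
    have h7 := Finset.card_filter_add_card_filter_not (s := (Finset.univ : Finset M))
      (fun x => ε x = true)
    rw [Finset.card_univ, hM] at h7
    have h8 : (Finset.univ.filter (fun x => ¬ ε x = true)) =
      (Finset.univ.filter (fun x => ε x = false)) := by
      ext x; simp only [Bool.not_eq_true, Finset.mem_filter, Finset.mem_univ, true_and]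
    rw [h8] at h7
    have h9 : ((pt2 ε o).dec 0).1 = 0 := rfl
    have h10 : ((pt2 ε o).dec 1).1 = 0 := rfl
    have h11 : (Finset.univ.filter (fun x => ε x = true)).card = 2 := by omega
    unfold Bal
    refine Eq.trans (congrArg Finset.card ?_) h11
    ext x
    simp only [Finset.mem_filter, Finset.mem_univ, true_and]

lemma sum_formE [Fintype M] {a : M → ℕ} (φ : (Σ k m : ℕ, Gr (Fin k) (Fin m) M) → ℚ) :
    ∑ p ∈ supp 0 a 1, wt p.2.2 0 a 1 * φ p =
      ∑ z, wt (formE z).2.2 0 a 1 * φ (formE z) := by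
  rw [← finsum_eq_sum_of_support_subset (s := supp 0 a 1) (fun p => wt p.2.2 0 a 1 * φ p),
    ← finsum_eq_sum_of_fintype]
  · rw [← finsum_mem_range (f := fun p => wt p.2.2 0 a 1 * φ p) formE_inj]
    apply finsum_congr
    intro p
    rw [finsum_eq_if]
    split_ifs with h
    · rfl
    · by_cases h0 : wt p.2.2 0 a 1 = 0
      · rw [h0, zero_mul]
      · exact absurd (form_all p h0) h
  · intro p hp
    by_contra hcon
    apply hp
    dsimp only
    rw [not_mem_supp hcon, zero_mul]

/-- the relation of degree one on the four-pointed line -/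
theorem wd_eval [Fintype M] (hM : Fintype.card M = 4) {R T N : Type} [Finite R] [Finite T]
    {g : ℕ} {lam : F N →ₗ[ℚ] ℚ} (hlam : ∀ x, P g x → lam x = 0)
    (Q : Env R T M N) (hQ : ∀ y z x, Q.use y = inl x → Q.use z = inl x → y = z)
    (a : M → ℕ) (ha : Even (∑ x, a x)) (h1 : ∀ x, a x ≤ 1) (h2 : ∑ x, a x < 3) :
    60 * lam (dl (Q.graft (pt1 0 {1} (fun _ => 0))) 1) +
      ∑ x, (if a x = 0 then -60 else 84) *
        lam (dl (Q.graft (pt1 0 0 (fun y => if y = x then 1 else 0))) 1) +
      ∑ ε : M → Bool, ∑ o : Bool, (if Bal ε then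
        (if Even (∑ x, if ε x then a x else 0) then 15 else -21) else 0) *
        lam (dl (Q.graft (pt2 ε o)) 1) = 0 := by
  have h3 : lam (Q.pix 0 a 1) = 0 := by
    apply hlam
    apply P.pix Q 0 1 a inferInstance inferInstance inferInstance hQ h1
    rw [finsum_eq_sum_of_fintype]
    omega
  rw [Env.pix_eq_sum, map_sum] at h3
  have h4 : ∀ p : Σ k m : ℕ, Gr (Fin k) (Fin m) M, lam (dl (Q.graft p.2.2)
      (wt p.2.2 0 a 1 / (p.1.factorial * p.2.1.factorial * 2 ^ p.2.1))) =
      wt p.2.2 0 a 1 * (lam (dl (Q.graft p.2.2) 1) /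
        (p.1.factorial * p.2.1.factorial * 2 ^ p.2.1)) := by
    intro p
    rw [fl_smul lam _ (wt _ _ _ _ / _)]
    ring
  simp_rw [h4] at h3
  rw [sum_formE (fun p => lam (dl (Q.graft p.2.2) 1) /
        (p.1.factorial * p.2.1.factorial * 2 ^ p.2.1)), Fintype.sum_sum_type, Fintype.sum_option,
        Fintype.sum_prod_type] at h3
  simp only [formE] at h3
  rw [wt_form_none hM a ha] at h3
  simp_rw [wt_form_some hM a ha h1, wt_form_pair hM a ha] at h3
  refine Eq.trans ?_ h3
  have e1 : ((Nat.factorial 1 : ℕ) : ℚ) = 1 := by norm_num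
  have e0 : ((Nat.factorial 0 : ℕ) : ℚ) = 1 := by norm_num
  have e2 : ((Nat.factorial 2 : ℕ) : ℚ) = 2 := by norm_num
  rw [e0, e1, e2]
  simp only [pow_zero, mul_one, div_one, pow_one]
  congr 1
  apply Finset.sum_congr rfl
  intro ε _
  apply Finset.sum_congr rfl
  intro o _
  split_ifs <;> ring

/-- balanced, without a fintype instance -/
def Gr.Bal2 (G : Gr V E L) (v : V) (ε : G.Fl v → Bool) : Prop :=
  Nat.card {f // ε f = true} = 2

lemma split_swap (G : Gr V E L) (v : V) (hv : G.dec v = (0, 0)) (ε : G.Fl v → Bool) :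
    (G.split v (fun f => !ε f)).Iso (G.split v ε) := by
  refine ⟨Equiv.swap none (some v), fun y => (y.1, if y.1 = none then !y.2 else y.2),
    (Equiv.swap none (some v)).bijective, ?_, ?_, ?_, ?_⟩
  · refine Function.Involutive.bijective ?_
    rintro ⟨_ | e, s⟩ <;> simp
  · intro e; rfl
  · rintro (_ | w)
    · rw [Equiv.swap_apply_left]
      exact hv
    · by_cases hw : w = v
      · subst hw
        rw [Equiv.swap_apply_right]
        exact hv.symm
      · rw [Equiv.swap_apply_of_ne_of_ne (by simp) (by simpa using hw)]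
        rfl
  · have key : ∀ y, (G.splitu v (fun f => !ε f) y).map (Equiv.swap none (some v)) id =
        G.splitu v ε y := by
      intro y
      by_cases h : (G.hf y).1 = v
      · rw [Gr.splitu_of _ _ h, Gr.splitu_of _ _ h]
        cases hε : ε ⟨y, h⟩
        · simp
        · simp
      · rw [Gr.splitu_ne _ _ h, Gr.splitu_ne _ _ h]
        apply Prod.ext
        · exact Equiv.swap_apply_of_ne_of_ne (by simp) (by simpa using h)
        · rfl
    rintro (⟨_ | e, s⟩ | x)
    · cases s
      · apply Prod.ext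
        · exact (Equiv.swap_apply_right none (some v)).symm
        · rfl
      · apply Prod.ext
        · exact (Equiv.swap_apply_left none (some v)).symm
        · rfl
    · exact (key (inl (e, s))).symm
    · exact (key (inr x)).symm

lemma wd_lin [Fintype M] (K : ℚ) (ψ : M → ℚ) (T : (M → Bool) → ℚ)
    (h : ∀ a : M → ℕ, Even (∑ x, a x) → (∀ x, a x ≤ 1) → ∑ x, a x < 3 →
      60 * K + ∑ x, (if a x = 0 then -60 else 84) * ψ x +
      ∑ ε : M → Bool, ∑ _o : Bool, (if Bal ε then
        (if Even (∑ x, if ε x then a x else 0) then 15 else -21) else 0) * T ε = 0)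
    (i j : M) (hij : i ≠ j) :
    2 * (ψ i + ψ j) = ∑ ε : M → Bool, if Bal ε ∧ ε i ≠ ε j then T ε else 0 := by
  have hset : ∀ φ : M → ℚ, ∑ x, (if x = i ∨ x = j then φ x else 0) = φ i + φ j := by
    intro φ
    rw [Fintype.sum_eq_add i j hij (fun x hx => if_neg (by tauto)), if_pos (Or.inl rfl),
      if_pos (Or.inr rfl)]
  have hset' : ∀ φ : M → ℕ, ∑ x, (if x = i ∨ x = j then φ x else 0) = φ i + φ j := by
    intro φ
    rw [Fintype.sum_eq_add i j hij (fun x hx => if_neg (by tauto)), if_pos (Or.inl rfl),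
      if_pos (Or.inr rfl)]
  have hsum : ∑ x : M, (if x = i ∨ x = j then 1 else 0) = 2 := hset' (fun _ => 1)
  have h0 := h (fun _ => 0) (by simp only [Finset.sum_const_zero, Even.zero]) (by simp) (by simp only [Finset.sum_const_zero, Nat.ofNat_pos])
  have h1 := h (fun x => if x = i ∨ x = j then 1 else 0)
    (by rw [hsum]; exact even_two) (by intro x; split_ifs <;> norm_num)
    (by rw [hsum]; norm_num)
  have h0' : 60 * K + ∑ x, (-60) * ψ x + ∑ ε : M → Bool, (if Bal ε then 30 * T ε else 0) = 0 := by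
    refine Eq.trans ?_ h0
    congr 1
    apply Finset.sum_congr rfl
    intro ε _
    rw [Fintype.sum_bool]
    have e7 : ∑ x : M, (if ε x = true then (fun _ : M => 0) x else 0) = 0 := by simp only [ite_self, Finset.sum_const_zero]
    rw [e7, if_pos (show Even 0 from ⟨0, rfl⟩)]
    split_ifs <;> ring
  have h1' : 60 * K + (∑ x, (-60) * ψ x + 144 * (ψ i + ψ j)) +
      ∑ ε : M → Bool, (if Bal ε then (if ε i = ε j then 30 * T ε else (-42) * T ε) else 0) = 0 := by
    refine Eq.trans ?_ h1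
    congr 1
    · congr 1
      rw [← hset, Finset.mul_sum, ← Finset.sum_add_distrib]
      apply Finset.sum_congr rfl
      intro x _
      by_cases hx : x = i ∨ x = j
      · rw [if_pos hx, if_neg (by rw [if_pos hx]; exact one_ne_zero)]
        ring
      · rw [if_neg hx, if_pos (by rw [if_neg hx])]
        ring
    · apply Finset.sum_congr rfl
      intro ε _
      rw [Fintype.sum_bool]
      have e4 : ∑ x : M, (if ε x = true then (fun x => if x = i ∨ x = j then 1 else 0) x else 0) =
          (if ε i = true then 1 else 0) + (if ε j = true then 1 else 0) := by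
        rw [← hset' (fun x => if ε x = true then 1 else 0)]
        apply Finset.sum_congr rfl
        intro x _
        dsimp only
        split_ifs <;> rfl
      rw [e4]
      by_cases hb : Bal ε
      · rw [if_pos hb, if_pos hb]
        by_cases hη : ε i = ε j
        · rw [if_pos hη, if_pos (by rw [hη]; exact ⟨_, rfl⟩)]
          ring
        · rw [if_neg hη, if_neg (by cases h5 : ε i <;> cases h6 : ε j <;> simp_all)]
          ring
      · rw [if_neg hb, if_neg hb]
        ring
  have h2 : ∑ ε : M → Bool, (if Bal ε then 30 * T ε else 0) =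
      ∑ ε : M → Bool, (if Bal ε then (if ε i = ε j then 30 * T ε else (-42) * T ε) else 0) +
      72 * ∑ ε : M → Bool, if Bal ε ∧ ε i ≠ ε j then T ε else 0 := by
    rw [Finset.mul_sum, ← Finset.sum_add_distrib]
    apply Finset.sum_congr rfl
    intro ε _
    by_cases hb : Bal ε
    · by_cases hη : ε i = ε j
      · rw [if_pos hb, if_pos hb, if_pos hη, if_neg (fun h => h.2 hη)]
        ring
      · rw [if_pos hb, if_pos hb, if_neg hη, if_pos ⟨hb, hη⟩]
        ring
    · rw [if_neg hb, if_neg hb, if_neg (fun h => hb h.1)]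
      ring
  linarith only [h0', h1', h2]

lemma wd_gen [Fintype M] (hM : Fintype.card M = 4) {R T N : Type} [Finite R] [Finite T]
    {g : ℕ} {lam : F N →ₗ[ℚ] ℚ} (hlam : ∀ x, P g x → lam x = 0)
    (Q : Env R T M N) (hQ : ∀ y z x, Q.use y = inl x → Q.use z = inl x → y = z)
    (τ : (M → Bool) → ℚ) (hT : ∀ ε o, lam (dl (Q.graft (pt2 ε o)) 1) = τ ε) :
    ∃ ψ : M → ℚ, ∀ i j, i ≠ j →
      2 * (ψ i + ψ j) = ∑ ε : M → Bool, if Bal ε ∧ ε i ≠ ε j then τ ε else 0 := by
  refine ⟨fun x => lam (dl (Q.graft (pt1 0 0 (fun y => if y = x then 1 else 0))) 1), ?_⟩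
  intro i j hij
  apply wd_lin (lam (dl (Q.graft (pt1 0 {1} (fun _ => 0))) 1)) _ _ _ i j hij
  intro a ha h1 h2
  have h := wd_eval hM hlam Q hQ a ha h1 h2
  simp_rw [hT] at h
  exact h

/-- the WDVV relation -/
theorem wdvv [Finite V] [Finite E] [Finite L] {g : ℕ} {lam : F L →ₗ[ℚ] ℚ}
    (hlam : ∀ x, P g x → lam x = 0) (G : Gr V E L) (v : V) (hv : G.dec v = (0, 0))
    (hn : G.nv v = 4) (hψ : ∀ y, (G.hf y).1 = v → (G.hf y).2 = 0) (ε ε' : G.Fl v → Bool)
    (hε : G.Bal2 v ε) (hε' : G.Bal2 v ε') :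
    lam (dl (G.split v ε) 1) = lam (dl (G.split v ε') 1) := by
  have := Fintype.ofFinite (G.Fl v)
  have hM : Fintype.card (G.Fl v ⊕ Empty) = 4 := by
    rw [Fintype.card_sum, Fintype.card_empty, add_zero, ← Nat.card_eq_fintype_card]
    exact hn
  have hQi := G.envAt_inj v (X := Empty) (fun _ => 0)
  have hsplit : ∀ (η : G.Fl v ⊕ Empty → Bool) (o : Bool),
      lam (dl ((G.envAt v (X := Empty) (fun _ => 0)).graft (pt2 η o)) 1) =
        lam (dl (G.split v (fun f => η (inl f))) 1) := by
    intro η o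
    have h1 : η = Sum.elim (fun f => η (inl f)) (fun x => x.elim) := by
      funext z
      rcases z with f | x
      · rfl
      · exact x.elim
    conv_lhs => rw [h1]
    exact fl_iso hlam (G.envAt_graft_iso2 v hv hψ _ o) 1
  have hbal : ∀ η : G.Fl v → Bool, G.Bal2 v η →
      Bal (Sum.elim η (fun x => x.elim) : G.Fl v ⊕ Empty → Bool) := by
    intro η h
    unfold Gr.Bal2 at h
    unfold Bal
    rw [Nat.card_eq_fintype_card, Fintype.card_subtype] at h
    rw [← h, ← Finset.card_map (f := (⟨inl, inl_injective⟩ : G.Fl v ↪ G.Fl v ⊕ Empty))]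
    apply congrArg
    ext z
    rcases z with f | x
    · simp only [Finset.mem_filter, Finset.mem_univ, elim_inl, true_and, Finset.mem_map_mk]
    · exact x.elim
  obtain ⟨ψ, hψ'⟩ := wd_gen hM hlam (G.envAt v (X := Empty) (fun _ => 0)) hQi
    (fun η => lam (dl (G.split v (fun f => η (inl f))) 1)) hsplit
  exact four_general hM ψ (fun η => lam (dl (G.split v (fun f => η (inl f))) 1)) (by
      intro η
      exact fl_iso hlam (split_swap G v hv (fun f => η (inl f))) 1) hψ'
    (Sum.elim ε (fun x => x.elim)) (Sum.elim ε' (fun x => x.elim)) (hbal ε hε)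
      (hbal ε' hε')

end Vale.Agent.P273
end
end
end

section

section

/-! Removable edges of connected multigraphs. -/

namespace Vale.Agent.P273.Conn
open Finset

variable {V E : Type}

/-- no proper nonempty set of vertices is closed under the edges -/
def Conn (s t : E → V) : Prop :=
  Nonempty V ∧ ∀ U : Set V, U.Nonempty → (∀ e, s e ∈ U ↔ t e ∈ U) → U = Set.univ

/-- a connected multigraph with at least as many edges as vertices has an edge which can be
removed -/
theorem exists_removable [Fintype V] [Fintype E] (s t : E → V) (h : Conn s t)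
    (hc : Fintype.card V ≤ Fintype.card E) :
    ∃ e₀ : E, Conn (fun e : {e : E // e ≠ e₀} => s e) (fun e : {e : E // e ≠ e₀} => t e) := by
  classical
  obtain ⟨⟨v0⟩, hU⟩ := h
  -- a nonzero cycle
  let bd : (E → ℚ) →ₗ[ℚ] ({v : V // v ≠ v0} → ℚ) :=
    LinearMap.pi (fun v => ∑ e : E, ((if s e = v.1 then (1 : ℚ) else 0) -
      (if t e = v.1 then 1 else 0)) • LinearMap.proj e)
  have hcard : Fintype.card {v : V // v ≠ v0} + 1 = Fintype.card V := by
    have := Fintype.card_subtype_compl (fun v : V => v = v0)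
    rw [Fintype.card_subtype_eq] at this
    have hpos : 0 < Fintype.card V := Fintype.card_pos_iff.mpr ⟨v0⟩
    simp only [ne_eq]
    omega
  have hker : ∃ z : E → ℚ, z ≠ 0 ∧ bd z = 0 := by
    by_contra hcon
    push Not at hcon
    have hinj : Function.Injective bd := by
      rw [injective_iff_map_eq_zero]
      intro z hz
      by_contra hne
      exact hcon z hne hz
    have := LinearMap.finrank_le_finrank_of_injective hinj
    rw [Module.finrank_fintype_fun_eq_card, Module.finrank_fintype_fun_eq_card] at this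
    omega
  obtain ⟨z, hz0, hz⟩ := hker
  have hbd : ∀ v : V, v ≠ v0 → ∑ e : E, ((if s e = v then (1 : ℚ) else 0) -
      (if t e = v then 1 else 0)) * z e = 0 := by
    intro v hv
    have := congrFun hz ⟨v, hv⟩
    simpa [bd, LinearMap.pi_apply] using this
  have htot : ∑ v : V, ∑ e : E, ((if s e = v then (1 : ℚ) else 0) -
      (if t e = v then 1 else 0)) * z e = 0 := by
    rw [sum_comm]
    apply sum_eq_zero
    intro e _
    rw [← sum_mul, sum_sub_distrib]
    simp only [sum_ite_eq, mem_univ, ↓reduceIte, sub_self, zero_mul]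
  have hbd' : ∀ v : V, ∑ e : E, ((if s e = v then (1 : ℚ) else 0) -
      (if t e = v then 1 else 0)) * z e = 0 := by
    intro v
    by_cases hv : v = v0
    · subst hv
      rw [← add_sum_erase _ _ (mem_univ v)] at htot
      rw [sum_eq_zero (s := univ.erase v)] at htot
      · simpa only [add_zero] using htot
      · intro w hw
        exact hbd w (ne_of_mem_erase hw)
    · exact hbd v hv
  obtain ⟨e₀, he₀⟩ : ∃ e, z e ≠ 0 := by
    by_contra hcon
    push Not at hcon
    exact hz0 (funext hcon)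
  refine ⟨e₀, ⟨v0⟩, ?_⟩
  intro U hUne hcl
  apply hU U hUne
  intro e
  by_cases he : e = e₀
  · subst he
    by_contra hcross
    -- sum of the boundary over U
    have h1 : ∑ v ∈ univ.filter (fun v => v ∈ U), ∑ e : E, ((if s e = v then (1 : ℚ) else 0) -
      (if t e = v then 1 else 0)) * z e = 0 := sum_eq_zero (fun v _ => hbd' v)
    rw [sum_comm] at h1
    have h2 : ∀ e : E, ∑ v ∈ univ.filter (fun v => v ∈ U), ((if s e = v then (1 : ℚ) else 0) -
        (if t e = v then 1 else 0)) * z e =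
        ((if s e ∈ U then 1 else 0) - (if t e ∈ U then 1 else 0)) * z e := by
      intro e
      rw [← sum_mul, sum_sub_distrib, sum_ite_eq, sum_ite_eq]
      simp only [mem_filter, mem_univ, true_and]
    simp_rw [h2] at h1
    rw [← add_sum_erase _ _ (mem_univ e), sum_eq_zero (s := univ.erase e)] at h1
    · rw [add_zero] at h1
      rcases mul_eq_zero.mp h1 with h3 | h3
      · by_cases hs : s e ∈ U <;> by_cases ht : t e ∈ U <;> simp_all
      · exact he₀ h3
    · intro e' he'
      have := hcl ⟨e', ne_of_mem_erase he'⟩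
      simp only at this
      by_cases hs : s e' ∈ U
      · rw [if_pos hs, if_pos (this.mp hs)]; ring
      · rw [if_neg hs, if_neg (fun h => hs (this.mpr h))]; ring
  · exact hcl ⟨e, he⟩

end Vale.Agent.P273.Conn
end
end

section

section

/-! Cubic graphs and their moves. -/

noncomputable section
namespace Vale.Agent.P273
open Sum
open scoped Classical

variable {V E L V' E' : Type}

/-- cubic connected graphs -/
structure Good (A : (E × Bool) ⊕ L → V) : Prop where
  fV : Finite V
  fE : Finite E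
  ne : Nonempty V
  cub : ∀ v, Nat.card {y // A y = v} = 3
  conn : ∀ s : Set V, (∀ e, A (inl (e, true)) ∈ s ↔ A (inl (e, false)) ∈ s) → s = ∅ ∨ s = Set.univ

/-- the move at an edge -/
def Mv (A A' : (E × Bool) ⊕ L → V) : Prop :=
  ∃ e : E, A (inl (e, true)) ≠ A (inl (e, false)) ∧
    A' (inl (e, true)) = A (inl (e, true)) ∧ A' (inl (e, false)) = A (inl (e, false)) ∧
    ∀ y, A y = A' y ∨ ((A y = A (inl (e, true)) ∨ A y = A (inl (e, false))) ∧
      (A' y = A (inl (e, true)) ∨ A' y = A (inl (e, false))))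

/-- functions invariant under isomorphism and moves -/
structure Winv (f : ∀ V E : Type, ((E × Bool) ⊕ L → V) → ℚ) : Prop where
  iso : ∀ (V E V' E' : Type) (A : (E × Bool) ⊕ L → V) (A' : (E' × Bool) ⊕ L → V') (φ : V ≃ V')
    (ρ : E × Bool ≃ E' × Bool), (∀ e, (ρ (e, true)).1 = (ρ (e, false)).1) →
    (∀ y, A' (y.map ρ id) = φ (A y)) → Good A → f V E A = f V' E' A'
  mv : ∀ (V E : Type) (A A' : (E × Bool) ⊕ L → V), Good A → Good A' → Mv A A' →
    f V E A = f V E A'

/-- equivalence under all invariant functions -/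
def Eqv (A : (E × Bool) ⊕ L → V) (A' : (E' × Bool) ⊕ L → V') : Prop :=
  ∀ f : ∀ V E : Type, ((E × Bool) ⊕ L → V) → ℚ, Winv f → f V E A = f V' E' A'

lemma Eqv.symm {A : (E × Bool) ⊕ L → V} {A' : (E' × Bool) ⊕ L → V'} (h : Eqv A A') :
    Eqv A' A := fun f hf => (h f hf).symm

lemma Eqv.trans {V'' E'' : Type} {A : (E × Bool) ⊕ L → V} {A' : (E' × Bool) ⊕ L → V'}
    {A'' : (E'' × Bool) ⊕ L → V''} (h : Eqv A A') (h' : Eqv A' A'') : Eqv A A'' :=
  fun f hf => (h f hf).trans (h' f hf)

lemma Eqv.of_iso {A : (E × Bool) ⊕ L → V} {A' : (E' × Bool) ⊕ L → V'} (φ : V ≃ V')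
    (ρ : E × Bool ≃ E' × Bool) (h1 : ∀ e, (ρ (e, true)).1 = (ρ (e, false)).1)
    (h2 : ∀ y, A' (y.map ρ id) = φ (A y)) (hA : Good A) : Eqv A A' :=
  fun _ hf => hf.iso _ _ _ _ A A' φ ρ h1 h2 hA

lemma Eqv.of_mv {A A' : (E × Bool) ⊕ L → V} (hA : Good A) (hA' : Good A') (h : Mv A A') :
    Eqv A A' := fun _ hf => hf.mv _ _ A A' hA hA' h

/-- goodness is invariant under isomorphism -/
lemma Good.of_iso {A : (E × Bool) ⊕ L → V} {A' : (E' × Bool) ⊕ L → V'} (φ : V ≃ V')
    (ρ : E × Bool ≃ E' × Bool) (h1 : ∀ e, (ρ (e, true)).1 = (ρ (e, false)).1)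
    (h2 : ∀ y, A' (y.map ρ id) = φ (A y)) (hA : Good A) : Good A' := by
  have := hA.fV
  have := hA.fE
  have hE : Finite E' := by
    have : Finite (E' × Bool) := Finite.of_equiv _ ρ
    exact Finite.of_surjective (fun y : E' × Bool => y.1) (fun e => ⟨(e, true), rfl⟩)
  refine ⟨Finite.of_equiv _ φ, hE, ⟨φ hA.ne.some⟩, ?_, ?_⟩
  · intro v'
    rw [← hA.cub (φ.symm v')]
    symm
    apply Nat.card_congr
    refine (Equiv.sumCongr ρ (Equiv.refl L)).subtypeEquiv ?_
    intro y
    have h3 : (Equiv.sumCongr ρ (Equiv.refl L)) y = y.map ρ id := by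
      rcases y with y | x <;> rfl
    rw [h3, h2]
    exact ⟨fun h => by rw [h, φ.apply_symm_apply], fun h => by rw [← h, φ.symm_apply_apply]⟩
  · intro s hs
    rcases hA.conn (φ ⁻¹' s) (by
      intro e
      have e1 := h2 (inl (e, true))
      have e2 := h2 (inl (e, false))
      change A' (inl (ρ (e, true))) = _ at e1
      change A' (inl (ρ (e, false))) = _ at e2
      rw [Set.mem_preimage, Set.mem_preimage, ← e1, ← e2]
      have h3 : ∀ b b' : Bool, ∀ e', (A' (inl (e', b)) ∈ s ↔ A' (inl (e', b')) ∈ s) := by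
        intro b b' e'
        cases b <;> cases b' <;> simp [hs e']
      have h4 : ρ (e, true) = ((ρ (e, false)).1, (ρ (e, true)).2) := by
        rw [← h1 e]
      rw [h4]
      exact h3 _ _ _) with h | h
    · left
      ext v
      have : φ.symm v ∈ φ ⁻¹' s ↔ v ∈ s := by rw [Set.mem_preimage, φ.apply_symm_apply]
      rw [← this, h]
      simp
    · right
      ext v
      have : φ.symm v ∈ φ ⁻¹' s ↔ v ∈ s := by rw [Set.mem_preimage, φ.apply_symm_apply]
      rw [← this, h]
      simp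

/-- extend a map of half-edges by a fixed new edge -/
def rhoO (ρ : E × Bool ≃ E' × Bool) : Option E × Bool ≃ Option E' × Bool where
  toFun := fun y => y.1.elim (none, y.2) (fun e => (some (ρ (e, y.2)).1, (ρ (e, y.2)).2))
  invFun := fun y => y.1.elim (none, y.2) (fun e => (some (ρ.symm (e, y.2)).1, (ρ.symm (e, y.2)).2))
  left_inv := by
    rintro ⟨_ | e, b⟩
    · rfl
    · simp
  right_inv := by
    rintro ⟨_ | e, b⟩
    · rfl
    · simp

lemma rhoO_fst (ρ : E × Bool ≃ E' × Bool) (h1 : ∀ e, (ρ (e, true)).1 = (ρ (e, false)).1)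
    (e : Option E) : (rhoO ρ (e, true)).1 = (rhoO ρ (e, false)).1 := by
  rcases e with _ | e
  · rfl
  · exact congrArg some (h1 e)

/-! ### loops -/

/-- join two legs to an edge -/
def lp (A : (E × Bool) ⊕ Option (Option L) → V) : (Option E × Bool) ⊕ L → V :=
  Sum.elim (fun y => y.1.elim (A (inr (if y.2 then none else some none)))
    (fun e => A (inl (e, y.2)))) (fun x => A (inr (some (some x))))

/-- the half-edges -/
def lpE (E L : Type) : (Option E × Bool) ⊕ L ≃ (E × Bool) ⊕ Option (Option L) where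
  toFun := Sum.elim (fun y => y.1.elim (inr (if y.2 then none else some none))
    (fun e => inl (e, y.2))) (fun x => inr (some (some x)))
  invFun := Sum.elim (fun y => inl (some y.1, y.2)) (fun x => x.elim (inl (none, true))
    (fun x => x.elim (inl (none, false)) inr))
  left_inv := by
    rintro (⟨_ | e, (_ | _)⟩ | x) <;> rfl
  right_inv := by
    rintro (⟨e, s⟩ | (_ | (_ | x))) <;> rfl

lemma lp_eq (A : (E × Bool) ⊕ Option (Option L) → V) (y : (Option E × Bool) ⊕ L) :
    lp A y = A (lpE E L y) := by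
  rcases y with (⟨_ | e, (_ | _)⟩ | x) <;> rfl

lemma Good.lp {A : (E × Bool) ⊕ Option (Option L) → V} (hA : Good A) : Good (lp A) := by
  have := hA.fV
  have := hA.fE
  refine ⟨hA.fV, inferInstance, hA.ne, ?_, ?_⟩
  · intro v
    rw [← hA.cub v]
    apply Nat.card_congr
    exact (lpE E L).subtypeEquiv (fun y => by rw [lp_eq])
  · intro s hs
    exact hA.conn s (fun e => hs (some e))

lemma Winv.lp {f : ∀ V E : Type, ((E × Bool) ⊕ L → V) → ℚ} (hf : Winv f) :
    Winv (fun (V E : Type) (A : (E × Bool) ⊕ Option (Option L) → V) => f V (Option E) (lp A)) := by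
  constructor
  · intro V E V' E' A A' φ ρ h1 h2 hA
    apply hf.iso _ _ _ _ _ _ φ (rhoO ρ) (rhoO_fst ρ h1) _ hA.lp
    rintro (⟨_ | e, b⟩ | x)
    · cases b
      · exact h2 (inr (some none))
      · exact h2 (inr none)
    · exact h2 (inl (e, b))
    · exact h2 (inr (some (some x)))
  · intro V E A A' hA hA' h
    apply hf.mv _ _ _ _ hA.lp hA'.lp
    obtain ⟨e, h1, h2, h3, h4⟩ := h
    exact ⟨some e, h1, h2, h3, fun y => by rw [lp_eq, lp_eq]; exact h4 _⟩

lemma Eqv.lp {A : (E × Bool) ⊕ Option (Option L) → V} {A' : (E' × Bool) ⊕ Option (Option L) → V'}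
    (h : Eqv A A') : Eqv (lp A) (lp A') := fun _ hf => h _ hf.lp

/-- a graph of positive genus is obtained by joining two legs -/
theorem exists_lp {A : (E × Bool) ⊕ L → V} (hA : Good A) (hc : Nat.card V ≤ Nat.card E) :
    ∃ (e₀ : E) (A0 : ({e // e ≠ e₀} × Bool) ⊕ Option (Option L) → V), Good A0 ∧ Eqv A (lp A0) := by
  have := hA.fV
  have := hA.fE
  have := Fintype.ofFinite V
  have := Fintype.ofFinite E
  rw [Nat.card_eq_fintype_card, Nat.card_eq_fintype_card] at hc
  obtain ⟨e₀, he⟩ := Conn.exists_removable (fun e => A (inl (e, true)))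
    (fun e => A (inl (e, false))) ⟨hA.ne, fun U hU h => (hA.conn U h).resolve_left
      (Set.nonempty_iff_ne_empty.mp hU)⟩ hc
  let ρ : E × Bool ≃ Option {e // e ≠ e₀} × Bool :=
    Equiv.prodCongr (Equiv.optionSubtypeNe e₀).symm (Equiv.refl Bool)
  let A0 : ({e // e ≠ e₀} × Bool) ⊕ Option (Option L) → V := Sum.elim
    (fun y => A (inl (y.1.1, y.2))) (fun x => x.elim (A (inl (e₀, true)))
      (fun x => x.elim (A (inl (e₀, false))) (fun x => A (inr x))))
  have hlp : ∀ y, lp A0 (y.map ρ id) = A y := by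
    rintro (⟨e, b⟩ | x)
    · by_cases he' : e = e₀
      · subst he'
        have h1 : ρ (e, b) = (none, b) := by simp [ρ]
        change lp A0 (inl (ρ (e, b))) = _
        rw [h1]
        cases b <;> rfl
      · have h1 : ρ (e, b) = (some ⟨e, he'⟩, b) := by simp [ρ, he']
        change lp A0 (inl (ρ (e, b))) = _
        rw [h1]
        rfl
    · rfl
  have hgood : Good (lp A0) := Good.of_iso (Equiv.refl V) ρ (fun e => rfl) hlp hA
  refine ⟨e₀, A0, ⟨hA.fV, inferInstance, hA.ne, ?_, ?_⟩,
    Eqv.of_iso (Equiv.refl V) ρ (fun e => rfl) hlp hA⟩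
  · intro v
    rw [← hgood.cub v]
    symm
    apply Nat.card_congr
    exact (lpE {e // e ≠ e₀} L).subtypeEquiv (fun y => by rw [lp_eq])
  · intro s hs
    by_cases h : s = ∅
    · exact Or.inl h
    · exact Or.inr (he.2 s (Set.nonempty_iff_ne_empty.mpr h) hs)

end Vale.Agent.P273
end
end
end

section

section

/-! Two legs at one vertex. -/

noncomputable section
namespace Vale.Agent.P273
open Sum
open scoped Classical

variable {V E L V' E' : Type}

/-- attach a new vertex with the legs `i`, `j` at the leg `none` -/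
def ch (i j : L) (A : (E × Bool) ⊕ Option {x // x ≠ i ∧ x ≠ j} → V) :
    (Option E × Bool) ⊕ L → Option V :=
  Sum.elim (fun y => y.1.elim (if y.2 then none else some (A (inr none)))
    (fun e => some (A (inl (e, y.2)))))
    (fun x => if h : x ≠ i ∧ x ≠ j then some (A (inr (some ⟨x, h⟩))) else none)

/-- the half-edges away from the new vertex -/
def chM (E : Type) (i j : L) :
    (E × Bool) ⊕ Option {x // x ≠ i ∧ x ≠ j} → (Option E × Bool) ⊕ L :=
  Sum.elim (fun y => inl (some y.1, y.2)) (fun x => x.elim (inl (none, false)) (fun x => inr x.1))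

lemma ch_chM (i j : L) (A : (E × Bool) ⊕ Option {x // x ≠ i ∧ x ≠ j} → V)
    (y : (E × Bool) ⊕ Option {x // x ≠ i ∧ x ≠ j}) : ch i j A (chM E i j y) = some (A y) := by
  rcases y with (⟨e, b⟩ | (_ | ⟨x, h⟩))
  · rfl
  · rfl
  · simp only [ch, ne_eq, chM, elim_inr, Option.elim_some, h, not_false_eq_true, and_self, ↓reduceDIte]

lemma chM_inj (i j : L) : (chM E i j).Injective := by
  rintro (⟨e, b⟩ | (_ | ⟨x, h⟩)) (⟨e', b'⟩ | (_ | ⟨x', h'⟩)) hh <;> simp [chM] at hh ⊢
  · exact hh
  · exact hh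

lemma mem_chM (i j : L) (A : (E × Bool) ⊕ Option {x // x ≠ i ∧ x ≠ j} → V)
    {y : (Option E × Bool) ⊕ L} {v : V} (h : ch i j A y = some v) : ∃ z, chM E i j z = y := by
  rcases y with (⟨_ | e, (_ | _)⟩ | x)
  · exact ⟨inr none, rfl⟩
  · simp [ch] at h
  · exact ⟨inl (e, false), rfl⟩
  · exact ⟨inl (e, true), rfl⟩
  · by_cases hx : x ≠ i ∧ x ≠ j
    · exact ⟨inr (some ⟨x, hx⟩), rfl⟩
    · simp [ch, hx] at h

/-- half-edges at an old vertex -/
def chEquiv (i j : L) (A : (E × Bool) ⊕ Option {x // x ≠ i ∧ x ≠ j} → V) (v : V) :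
    {y // A y = v} ≃ {y // ch i j A y = some v} :=
  Equiv.ofBijective (fun y => ⟨chM E i j y.1, by rw [ch_chM, y.2]⟩) (by
    constructor
    · intro y y' h
      exact Subtype.ext (chM_inj i j (congrArg Subtype.val h))
    · rintro ⟨y, hy⟩
      obtain ⟨z, rfl⟩ := mem_chM i j A hy
      refine ⟨⟨z, ?_⟩, rfl⟩
      rw [ch_chM] at hy
      exact Option.some.inj hy)

lemma ch_none {i j : L} (hij : i ≠ j) (A : (E × Bool) ⊕ Option {x // x ≠ i ∧ x ≠ j} → V) :
    Nat.card {y // ch i j A y = none} = 3 := by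
  change Set.ncard {y | ch i j A y = none} = 3
  rw [Set.ncard_eq_three]
  refine ⟨inl (none, true), inr i, inr j, by simp, by simp, by simpa using hij, ?_⟩
  ext y
  simp only [Set.mem_ofPred_eq, Set.mem_insert_iff, Set.mem_singleton_iff]
  rcases y with (⟨_ | e, (_ | _)⟩ | x)
  · simp [ch]
  · simp [ch]
  · simp only [ch, ne_eq, elim_inl, Bool.false_eq_true, ↓reduceIte, Option.elim_some, reduceCtorEq, inl.injEq, Prod.mk.injEq, and_self, or_self]
  · simp [ch]
  · by_cases hx : x ≠ i ∧ x ≠ j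
    · simp [ch, hx]
    · have : x = i ∨ x = j := by (clear * - hx; tauto)
      simpa only [ch, ne_eq, elim_inr, hx, ↓reduceDIte, reduceCtorEq, inr.injEq, false_or, true_iff] using this

theorem good_ch {i j : L} (hij : i ≠ j) (A : (E × Bool) ⊕ Option {x // x ≠ i ∧ x ≠ j} → V) :
    Good (ch i j A) ↔ Good A := by
  constructor
  · intro h
    have h1 := h.fV
    have h2 := h.fE
    refine ⟨Finite.of_injective some (Option.some_injective V),
      Finite.of_injective some (Option.some_injective E), ⟨A (inr none)⟩, ?_, ?_⟩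
    · intro v
      rw [← h.cub (some v)]
      exact Nat.card_congr (chEquiv i j A v)
    · intro s hs
      have key : ∀ v, some v ∈ ({w | w = none ∧ A (inr none) ∈ s} ∪ some '' s : Set (Option V)) ↔
          v ∈ s := by
        intro v
        simp only [ne_eq, Set.mem_union, Set.mem_ofPred_eq, reduceCtorEq, false_and, Set.mem_image, Option.some.injEq, exists_eq_right, false_or]
      rcases h.conn ({w | w = none ∧ A (inr none) ∈ s} ∪ some '' s) (by
        rintro (_ | e)
        · change none ∈ _ ↔ some (A (inr none)) ∈ _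
          rw [key]
          simp only [ne_eq, Set.mem_union, Set.mem_ofPred_eq, true_and, Set.mem_image, reduceCtorEq, and_false, exists_false, or_false]
        · change some _ ∈ _ ↔ some _ ∈ _
          rw [key, key]
          exact hs e) with h3 | h3
      · left
        ext v
        rw [← key, h3]
        simp
      · right
        ext v
        rw [← key, h3]
        simp
  · intro h
    have h1 := h.fV
    have h2 := h.fE
    refine ⟨inferInstance, inferInstance, ⟨none⟩, ?_, ?_⟩
    · rintro (_ | v)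
      · exact ch_none hij A
      · rw [← h.cub v]
        exact (Nat.card_congr (chEquiv i j A v)).symm
    · intro s hs
      have h4 : none ∈ s ↔ some (A (inr none)) ∈ s := hs none
      rcases h.conn (some ⁻¹' s) (fun e => hs (some e)) with h3 | h3
      · left
        ext v
        rcases v with _ | v
        · rw [h4, ← Set.mem_preimage, h3]
          simp
        · rw [← Set.mem_preimage, h3]
          simp
      · right
        ext v
        rcases v with _ | v
        · rw [h4, ← Set.mem_preimage, h3]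
          simp
        · rw [← Set.mem_preimage, h3]
          simp

lemma Winv.chf {i j : L} (hij : i ≠ j) {f : ∀ V E : Type, ((E × Bool) ⊕ L → V) → ℚ}
    (hf : Winv f) : Winv (fun (V E : Type) (A : (E × Bool) ⊕ Option {x // x ≠ i ∧ x ≠ j} → V) =>
      f (Option V) (Option E) (ch i j A)) := by
  constructor
  · intro V E V' E' A A' φ ρ h1 h2 hA
    apply hf.iso _ _ _ _ _ _ (Equiv.optionCongr φ) (rhoO ρ) (rhoO_fst ρ h1) _
      ((good_ch hij A).mpr hA)
    rintro (⟨_ | e, b⟩ | x)
    · cases b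
      · exact congrArg some (h2 (inr none))
      · rfl
    · exact congrArg some (h2 (inl (e, b)))
    · by_cases hx : x ≠ i ∧ x ≠ j
      · have h3 := congrArg some (h2 (inr (some ⟨x, hx⟩)))
        simp only [Sum.map_inr, id] at h3
        simp [ch, hx, h3]
      · simp only [ch, ne_eq, map_inr, id_eq, elim_inr, hx, ↓reduceDIte, Equiv.optionCongr_apply, Option.map_none]
  · intro V E A A' hA hA' h
    apply hf.mv _ _ _ _ ((good_ch hij A).mpr hA) ((good_ch hij A').mpr hA')
    obtain ⟨e, h1, h2, h3, h4⟩ := h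
    refine ⟨some e, fun h => h1 (Option.some.inj h), congrArg some h2, congrArg some h3, ?_⟩
    have key : ∀ z, ch i j A (chM E i j z) = ch i j A' (chM E i j z) ∨
        ((ch i j A (chM E i j z) = ch i j A (inl (some e, true)) ∨
          ch i j A (chM E i j z) = ch i j A (inl (some e, false))) ∧
        (ch i j A' (chM E i j z) = ch i j A (inl (some e, true)) ∨
          ch i j A' (chM E i j z) = ch i j A (inl (some e, false)))) := by
      intro z
      rw [ch_chM, ch_chM]
      change some _ = some _ ∨ ((some _ = some _ ∨ some _ = some _) ∧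
        (some _ = some _ ∨ some _ = some _))
      simpa only [Option.some.injEq] using h4 z
    rintro (⟨_ | e', b⟩ | x)
    · cases b
      · exact key (inr none)
      · left; rfl
    · exact key (inl (e', b))
    · by_cases hx : x ≠ i ∧ x ≠ j
      · exact key (inr (some ⟨x, hx⟩))
      · left
        simp only [ch, ne_eq, elim_inr, hx, ↓reduceDIte]

lemma Eqv.chf {i j : L} (hij : i ≠ j) {A : (E × Bool) ⊕ Option {x // x ≠ i ∧ x ≠ j} → V}
    {A' : (E' × Bool) ⊕ Option {x // x ≠ i ∧ x ≠ j} → V'}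
    (h : Eqv A A') : Eqv (ch i j A) (ch i j A') := fun _ hf => h _ (hf.chf hij)

/-- half-edges when the vertex and an edge are removed -/
def rhoN (e₀ : E) (b : Bool) : E × Bool ≃ Option {e // e ≠ e₀} × Bool where
  toFun := fun y => if h : y.1 = e₀ then (none, y.2 == b) else (some ⟨y.1, h⟩, y.2)
  invFun := fun y => y.1.elim (e₀, y.2 == b) (fun e => (e.1, y.2))
  left_inv := by
    rintro ⟨e, c⟩
    by_cases h : e = e₀
    · subst h
      cases b <;> cases c <;> simp
    · simp [h]
  right_inv := by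
    rintro ⟨_ | ⟨e, he⟩, c⟩
    · cases b <;> cases c <;> simp
    · simp [he]

lemma third_flag {A : (E × Bool) ⊕ L → V} (hA : Good A) {i j : L} (hij : i ≠ j)
    (h : A (inr i) = A (inr j)) : ∃ z, z ≠ inr i ∧ z ≠ inr j ∧ A z = A (inr i) ∧
      ∀ y, A y = A (inr i) → y = inr i ∨ y = inr j ∨ y = z := by
  have h3 : Set.ncard {y | A y = A (inr i)} = 3 := hA.cub (A (inr i))
  have h4 := Set.ncard_sdiff_singleton_of_mem (s := {y | A y = A (inr i)}) (a := inr i) rfl
  have h5 := Set.ncard_sdiff_singleton_of_mem (s := {y | A y = A (inr i)} \ {inr i}) (a := inr j)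
    ⟨h.symm, by simpa using hij.symm⟩
  rw [h4, h3, Set.ncard_eq_one] at h5
  obtain ⟨z, hz⟩ := h5
  have h6 : z ∈ (({y | A y = A (inr i)} \ {inr i}) \ {inr j} : Set _) := by rw [hz]; rfl
  refine ⟨z, h6.1.2, h6.2, h6.1.1, ?_⟩
  intro y hy
  by_contra hcon
  push Not at hcon
  have h7 : y ∈ (({y | A y = A (inr i)} \ {inr i}) \ {inr j} : Set _) :=
    ⟨⟨hy, hcon.1⟩, hcon.2.1⟩
  rw [hz] at h7
  exact hcon.2.2 h7

/-- a graph with the legs `i`, `j` at one vertex -/
theorem exists_ch {A : (E × Bool) ⊕ L → V} (hA : Good A) [Finite L] (hL : 4 ≤ Nat.card L)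
    {i j : L} (hij : i ≠ j) (h : A (inr i) = A (inr j)) :
    ∃ (w : V) (e₀ : E)
      (A0 : ({e // e ≠ e₀} × Bool) ⊕ Option {x // x ≠ i ∧ x ≠ j} → {v // v ≠ w}),
      Good A0 ∧ Eqv A (ch i j A0) := by
  obtain ⟨z, hz1, hz2, hz3, hz4⟩ := third_flag hA hij h
  rcases z with ⟨e₀, b⟩ | x
  · -- an edge
    have hne1 : ∀ y : {e // e ≠ e₀} × Bool, A (inl (y.1.1, y.2)) ≠ A (inr i) := by
      rintro ⟨⟨e, he⟩, c⟩ hcon
      rcases hz4 _ hcon with h1 | h1 | h1
      · simp at h1
      · simp at h1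
      · simp at h1
        exact he h1.1
    have hne2 : A (inl (e₀, !b)) ≠ A (inr i) := by
      intro hcon
      rcases hz4 _ hcon with h1 | h1 | h1
      · simp at h1
      · simp at h1
      · simp at h1
    have hne3 : ∀ x : {x // x ≠ i ∧ x ≠ j}, A (inr x.1) ≠ A (inr i) := by
      rintro ⟨x, hx⟩ hcon
      rcases hz4 _ hcon with h1 | h1 | h1
      · simp at h1
        exact hx.1 h1
      · simp at h1
        exact hx.2 h1
      · simp at h1
    let A0 : ({e // e ≠ e₀} × Bool) ⊕ Option {x // x ≠ i ∧ x ≠ j} → {v // v ≠ A (inr i)} :=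
      Sum.elim (fun y => ⟨A (inl (y.1.1, y.2)), hne1 y⟩)
        (fun x => x.elim ⟨A (inl (e₀, !b)), hne2⟩ (fun x => ⟨A (inr x.1), hne3 x⟩))
    let φ : V ≃ Option {v // v ≠ A (inr i)} := (Equiv.optionSubtypeNe (A (inr i))).symm
    have hφ : ∀ v (h : v ≠ A (inr i)), φ v = some ⟨v, h⟩ := by
      intro v h
      simp [φ, h]
    have hφ0 : φ (A (inr i)) = none := by simp [φ]
    have hρ : ∀ e, (rhoN e₀ b (e, true)).1 = (rhoN e₀ b (e, false)).1 := by
      intro e
      by_cases he : e = e₀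
      · simp only [ne_eq, rhoN, he, Equiv.coe_fn_mk, ↓reduceDIte, Bool.true_beq, Bool.false_beq]
      · simp only [ne_eq, rhoN, Equiv.coe_fn_mk, he, ↓reduceDIte]
    have hlp : ∀ y, ch i j A0 (y.map (rhoN e₀ b) id) = φ (A y) := by
      rintro (⟨e, c⟩ | x)
      · by_cases he : e = e₀
        · subst he
          have h1 : rhoN e b (e, c) = (none, c == b) := by simp only [ne_eq, rhoN, Equiv.coe_fn_mk, ↓reduceDIte]
          change ch i j A0 (inl (rhoN e b (e, c))) = _
          rw [h1]
          by_cases hc : c = b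
          · subst hc
            rw [hz3, hφ0]
            simp [ch]
          · have hc' : c = !b := by
              cases b <;> cases c <;> simp_all
            subst hc'
            rw [hφ _ hne2]
            cases b <;> simp [ch, A0]
        · have h1 : rhoN e₀ b (e, c) = (some ⟨e, he⟩, c) := by simp only [ne_eq, rhoN, Equiv.coe_fn_mk, he, ↓reduceDIte]
          change ch i j A0 (inl (rhoN e₀ b (e, c))) = _
          rw [h1, hφ _ (hne1 (⟨e, he⟩, c))]
          rfl
      · change ch i j A0 (inr x) = _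
        by_cases hx : x ≠ i ∧ x ≠ j
        · rw [hφ _ (hne3 ⟨x, hx⟩)]
          simp only [ne_eq, ch, elim_inr, Option.elim_none, elim_inl, Option.elim_some, hx, not_false_eq_true, and_self, ↓reduceDIte, A0]
        · have h2 : A (inr x) = A (inr i) := by
            by_cases hxi : x = i
            · rw [hxi]
            · have hxj : x = j := by
                by_contra hxj
                exact hx ⟨hxi, hxj⟩
              rw [hxj, h]
          rw [h2, hφ0]
          simp [ch, hx]
    refine ⟨A (inr i), e₀, A0, ?_, Eqv.of_iso φ (rhoN e₀ b) hρ hlp hA⟩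
    rw [← good_ch hij]
    exact Good.of_iso φ (rhoN e₀ b) hρ hlp hA
  · -- a leg
    exfalso
    have hcl := hA.conn {A (inr i)} (by
      intro e
      have h1 : ∀ b, A (inl (e, b)) ∉ ({A (inr i)} : Set V) := by
        intro b hb
        rcases hz4 _ hb with h1 | h1 | h1 <;> simp at h1
      exact ⟨fun h => absurd h (h1 _), fun h => absurd h (h1 _)⟩)
    rcases hcl with h1 | h1
    · exact Set.singleton_ne_empty _ h1
    · have h2 : ∀ y : L, y ∈ ({i, j, x} : Set L) := by
        intro y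
        have h3 : A (inr y) ∈ ({A (inr i)} : Set V) := by rw [h1]; trivial
        rcases hz4 _ h3 with h4 | h4 | h4
        · simp at h4; simp [h4]
        · simp at h4; simp [h4]
        · simp at h4; simp [h4]
      have h3 : (Set.univ : Set L) ⊆ {i, j, x} := fun y _ => h2 y
      have h4 := Set.ncard_le_ncard h3 (Set.toFinite _)
      rw [Set.ncard_univ] at h4
      have h5 : ({i, j, x} : Set L).ncard ≤ 3 := by
        have h6 := Set.ncard_insert_le i {j, x}
        have h7 := Set.ncard_insert_le j {x}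
        rw [Set.ncard_singleton] at h7
        omega
      omega

end Vale.Agent.P273
end
end
end

section

section

/-! All cubic graphs of one genus are connected by moves. -/

noncomputable section
namespace Vale.Agent.P273
open Sum
open scoped Classical

variable {V E L V' E' : Type}

lemma handshake {A : (E × Bool) ⊕ L → V} (hA : Good A) [Finite L] :
    3 * Nat.card V = 2 * Nat.card E + Nat.card L := by
  have := hA.fV
  have := hA.fE
  have := Fintype.ofFinite V
  have h1 := Nat.card_congr (Equiv.sigmaFiberEquiv A)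
  rw [Nat.card_sigma] at h1
  have h2 : ∀ v, Nat.card {y // A y = v} = 3 := hA.cub
  simp_rw [h2] at h1
  rw [Finset.sum_const, Finset.card_univ, smul_eq_mul, Nat.card_sum, Nat.card_prod,
    Nat.card_eq_fintype_card (α := Bool), Fintype.card_bool, ← Nat.card_eq_fintype_card] at h1
  omega

lemma card_two {L : Type} [Finite L] {i j : L} (hij : i ≠ j) :
    Nat.card (Option {x // x ≠ i ∧ x ≠ j}) + 1 = Nat.card L := by
  have := Fintype.ofFinite L
  rw [Finite.card_option, Nat.card_eq_fintype_card, Nat.card_eq_fintype_card,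
    Fintype.card_subtype]
  have h : (Finset.univ.filter (fun x => x ≠ i ∧ x ≠ j)) = (Finset.univ.erase i).erase j := by
    ext x
    simp only [Finset.mem_filter, Finset.mem_univ, true_and, Finset.mem_erase, ne_eq, and_true]
    (clear * -; tauto)
  rw [h, Finset.card_erase_of_mem (Finset.mem_erase.mpr ⟨hij.symm, Finset.mem_univ j⟩),
    Finset.card_erase_of_mem (Finset.mem_univ i), Finset.card_univ]
  have h2 : 1 < Fintype.card L := Fintype.one_lt_card_iff.mpr ⟨i, j, hij⟩
  omega

/-- there are good trees -/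
theorem exists_tree (n : ℕ) : ∀ (L : Type) [Finite L], Nat.card L = n + 3 →
    ∃ (V E : Type) (A : (E × Bool) ⊕ L → V), Good A ∧ Nat.card E + 1 = Nat.card V := by
  induction n with
  | zero =>
    intro L _ hL
    refine ⟨Unit, Empty, fun _ => (), ⟨inferInstance, inferInstance, inferInstance, ?_, ?_⟩, ?_⟩
    · intro v
      refine Eq.trans ?_ hL
      apply Nat.card_congr
      exact ⟨fun y => Sum.elim (fun z => z.1.elim) id y.1, fun x => ⟨inr x, rfl⟩,
        by rintro ⟨⟨z, _⟩ | x, h⟩; exacts [z.elim, rfl], fun x => rfl⟩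
    · intro s _
      rcases Set.eq_empty_or_nonempty s with h | ⟨x, hx⟩
      · exact Or.inl h
      · right
        ext y
        rw [Subsingleton.elim y x]
        simp [hx]
    · simp
  | succ n ih =>
    intro L _ hL
    have := Fintype.ofFinite L
    have h1 : 1 < Fintype.card L := by
      rw [← Nat.card_eq_fintype_card]
      omega
    obtain ⟨i, j, hij⟩ := Fintype.one_lt_card_iff.mp h1
    have h2 := card_two hij
    obtain ⟨V, E, A, hA, hc⟩ := ih (Option {x // x ≠ i ∧ x ≠ j}) (by omega)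
    have := hA.fV
    have := hA.fE
    refine ⟨Option V, Option E, ch i j A, (good_ch hij A).mpr hA, ?_⟩
    rw [Finite.card_option, Finite.card_option]
    omega

lemma base_three {A : (E × Bool) ⊕ L → V} {A' : (E' × Bool) ⊕ L → V'} (hA : Good A)
    (hA' : Good A') (hV : Nat.card V = 1) (hV' : Nat.card V' = 1) (hE : Nat.card E = 0)
    (hE' : Nat.card E' = 0) : Eqv A A' := by
  have := hA.fV
  have := hA.fE
  have := hA'.fV
  have := hA'.fE
  have e1 : IsEmpty E := by
    rcases Nat.card_eq_zero.mp hE with h | h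
    · exact h
    · exact absurd h (not_infinite_iff_finite.mpr inferInstance)
  have e2 : IsEmpty E' := by
    rcases Nat.card_eq_zero.mp hE' with h | h
    · exact h
    · exact absurd h (not_infinite_iff_finite.mpr inferInstance)
  have e3 : Subsingleton V' := (Nat.card_eq_one_iff_unique.mp hV').1
  obtain ⟨φ⟩ := (Finite.card_eq.mp (hV.trans hV'.symm) : Nonempty (V ≃ V'))
  exact Eqv.of_iso φ (Equiv.equivOfIsEmpty _ _) (fun e => e1.elim e)
    (fun y => Subsingleton.elim _ _) hA

lemma base_four {A : (E × Bool) ⊕ L → V} {A' : (E' × Bool) ⊕ L → V'} (hA : Good A)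
    (hA' : Good A') (hV : Nat.card V = 2) (hV' : Nat.card V' = 2) (hE : Nat.card E = 1)
    (hE' : Nat.card E' = 1) : Eqv A A' := by
  have := hA.fV
  have := hA.fE
  have := hA'.fV
  have := hA'.fE
  have key : ∀ (V E : Type) (A : (E × Bool) ⊕ L → V), Good A → Nat.card V = 2 → Nat.card E = 1 →
      ∃ e : E, A (inl (e, true)) ≠ A (inl (e, false)) ∧
        ∀ v, v = A (inl (e, true)) ∨ v = A (inl (e, false)) := by
    intro V E A hA hV hE
    have := hA.fV
    have := Fintype.ofFinite V
    obtain ⟨h1, ⟨e⟩⟩ := Nat.card_eq_one_iff_unique.mp hE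
    rw [Nat.card_eq_fintype_card] at hV
    have h3 : A (inl (e, true)) ≠ A (inl (e, false)) := by
      intro h
      rcases hA.conn {A (inl (e, true))} (by
        intro e'
        rw [Subsingleton.elim e' e, h]) with h4 | h4
      · exact Set.singleton_ne_empty _ h4
      · have h5 : Fintype.card V ≤ 1 := by
          rw [Fintype.card_le_one_iff]
          intro a b
          have ha : a ∈ ({A (inl (e, true))} : Set V) := by rw [h4]; trivial
          have hb : b ∈ ({A (inl (e, true))} : Set V) := by rw [h4]; trivial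
          rw [Set.mem_singleton_iff] at ha hb
          rw [ha, hb]
        omega
    refine ⟨e, h3, ?_⟩
    intro v
    by_contra hcon
    push Not at hcon
    have h6 : 2 < Fintype.card V := Fintype.two_lt_card_iff.mpr
      ⟨v, A (inl (e, true)), A (inl (e, false)), hcon.1, hcon.2, h3⟩
    omega
  obtain ⟨e, h1, h2⟩ := key V E A hA hV hE
  obtain ⟨e', h1', h2'⟩ := key V' E' A' hA' hV' hE'
  let f : V → V' := fun v => if v = A (inl (e, true)) then A' (inl (e', true))
    else A' (inl (e', false))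
  have hf : f.Bijective := by
    rw [Nat.bijective_iff_injective_and_card]
    refine ⟨?_, hV.trans hV'.symm⟩
    intro v w h
    by_cases hv : v = A (inl (e, true)) <;> by_cases hw : w = A (inl (e, true))
    · rw [hv, hw]
    · simp only [f, hv, hw, if_true, if_false] at h
      exact absurd h h1'
    · simp only [f, hv, hw, if_true, if_false] at h
      exact absurd h.symm h1'
    · rw [(h2 v).resolve_left hv, (h2 w).resolve_left hw]
  let φ : V ≃ V' := Equiv.ofBijective f hf
  have hs : Subsingleton E := (Nat.card_eq_one_iff_unique.mp hE).1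
  have hs' : Subsingleton E' := (Nat.card_eq_one_iff_unique.mp hE').1
  let ρE : E ≃ E' := ⟨fun _ => e', fun _ => e, fun _ => Subsingleton.elim _ _,
    fun _ => Subsingleton.elim _ _⟩
  let ρ : E × Bool ≃ E' × Bool := Equiv.prodCongr ρE (Equiv.refl Bool)
  let B : (E' × Bool) ⊕ L → V' := fun y => φ (A (y.map ρ.symm id))
  have hB : ∀ y, B (y.map ρ id) = φ (A y) := by
    rintro (y | x)
    · change φ (A (inl (ρ.symm (ρ y)))) = _
      rw [ρ.symm_apply_apply]
    · rfl
  have hBgood : Good B := Good.of_iso φ ρ (fun _ => rfl) hB hA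
  refine (Eqv.of_iso φ ρ (fun _ => rfl) hB hA).trans (Eqv.of_mv hBgood hA' ?_)
  have hBt : B (inl (e', true)) = A' (inl (e', true)) := by
    change f (A (inl (e, true))) = _
    simp [f]
  have hBf : B (inl (e', false)) = A' (inl (e', false)) := by
    change f (A (inl (e, false))) = _
    simp only [f, if_neg h1.symm]
  refine ⟨e', by rw [hBt, hBf]; exact h1', hBt.symm, hBf.symm, ?_⟩
  intro y
  right
  rw [hBt, hBf]
  exact ⟨h2' _, h2' _⟩

/-- a good tree -/
def Tr (A : (E × Bool) ⊕ L → V) : Prop := Good A ∧ Nat.card E + 1 = Nat.card V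

lemma tr_ch {i j : L} (hij : i ≠ j) {A : (E × Bool) ⊕ Option {x // x ≠ i ∧ x ≠ j} → V} :
    Tr (ch i j A) ↔ Tr A := by
  unfold Tr
  rw [good_ch hij]
  constructor
  · rintro ⟨h, h'⟩
    have := h.fV
    have := h.fE
    rw [Finite.card_option, Finite.card_option] at h'
    exact ⟨h, by omega⟩
  · rintro ⟨h, h'⟩
    have := h.fV
    have := h.fE
    rw [Finite.card_option, Finite.card_option]
    exact ⟨h, by omega⟩

lemma Tr.card {A : (E × Bool) ⊕ L → V} (hA : Tr A) [Finite L] :
    Nat.card V + 2 = Nat.card L := by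
  have := handshake hA.1
  have := hA.2
  omega

lemma exists_ch' {A : (E × Bool) ⊕ L → V} (hA : Tr A) [Finite L] (hL : 4 ≤ Nat.card L)
    {i j : L} (hij : i ≠ j) (h : A (inr i) = A (inr j)) :
    ∃ (V' E' : Type)
      (A0 : (E' × Bool) ⊕ Option {x // x ≠ i ∧ x ≠ j} → V'),
      Tr A0 ∧ Eqv A (ch i j A0) := by
  have := hA.1.fV
  have := hA.1.fE
  have := Fintype.ofFinite V
  have := Fintype.ofFinite E
  obtain ⟨w, e₀, A0, h1, h2⟩ := exists_ch hA.1 hL hij h
  refine ⟨_, _, A0, ⟨h1, ?_⟩, h2⟩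
  have h3 := hA.2
  have h4 : Nat.card {v // v ≠ w} + 1 = Nat.card V := by
    rw [Nat.card_eq_fintype_card, Nat.card_eq_fintype_card, Fintype.card_subtype_compl,
      Fintype.card_subtype_eq]
    have : 0 < Fintype.card V := Fintype.card_pos_iff.mpr ⟨w⟩
    omega
  have h5 : Nat.card {e // e ≠ e₀} + 1 = Nat.card E := by
    rw [Nat.card_eq_fintype_card, Nat.card_eq_fintype_card, Fintype.card_subtype_compl,
      Fintype.card_subtype_eq]
    have : 0 < Fintype.card E := Fintype.card_pos_iff.mpr ⟨e₀⟩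
    omega
  omega

/-- the statement for trees with leg set `L` -/
def TreeConn (n : ℕ) : Prop := ∀ (L : Type) [Finite L], Nat.card L = n →
  ∀ (V E V' E' : Type) (A : (E × Bool) ⊕ L → V) (A' : (E' × Bool) ⊕ L → V'),
    Tr A → Tr A' → Eqv A A'

lemma cherry_move {n : ℕ} (IH : TreeConn (n + 4)) [Finite L] (hL : Nat.card L = n + 5)
    {A : (E × Bool) ⊕ L → V} (hA : Tr A) {i j l m : L} (hij : i ≠ j) (hlm : l ≠ m)
    (hl : l ≠ i ∧ l ≠ j) (hm : m ≠ i ∧ m ≠ j) (h : A (inr i) = A (inr j)) :
    ∃ (V' E' : Type) (B : (E' × Bool) ⊕ L → V'), Tr B ∧ Eqv A B ∧ B (inr l) = B (inr m) := by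
  obtain ⟨V1, E1, A1, hA1, h1⟩ := exists_ch' hA (by omega) hij h
  have hc := card_two hij
  let l' : Option {x // x ≠ i ∧ x ≠ j} := some ⟨l, hl⟩
  let m' : Option {x // x ≠ i ∧ x ≠ j} := some ⟨m, hm⟩
  have hlm' : l' ≠ m' := by
    intro h
    have := congrArg Subtype.val (Option.some.inj h)
    exact hlm this
  have hc' := card_two hlm'
  obtain ⟨V2, E2, A2, hA2, h2⟩ := exists_tree n (Option {x // x ≠ l' ∧ x ≠ m'}) (by omega)
  have h3 : Tr (ch l' m' A2) := (tr_ch hlm').mpr ⟨hA2, h2⟩
  have h4 := IH _ (by omega) _ _ _ _ A1 (ch l' m' A2) hA1 h3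
  refine ⟨_, _, ch i j (ch l' m' A2), (tr_ch hij).mpr h3, h1.trans (h4.chf hij), ?_⟩
  have e1 : ch i j (ch l' m' A2) (inr l) = some none := by
    simp only [ch, ne_eq, elim_inr, reduceCtorEq, not_false_eq_true, and_self, ↓reduceDIte, elim_inl, Option.some.injEq, Subtype.mk.injEq, hl, not_true_eq_false, false_and, l']
  have e2 : ch i j (ch l' m' A2) (inr m) = some none := by
    simp only [ch, ne_eq, elim_inr, reduceCtorEq, not_false_eq_true, and_self, ↓reduceDIte, elim_inl, Option.some.injEq, Subtype.mk.injEq, hm, not_true_eq_false, and_false, m']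
  rw [e1, e2]

lemma exists_cherry {A : (E × Bool) ⊕ L → V} (hA : Tr A) [Finite L] :
    ∃ i j : L, i ≠ j ∧ A (inr i) = A (inr j) := by
  have := hA.1.fV
  have := Fintype.ofFinite V
  have := Fintype.ofFinite L
  have h := hA.card
  rw [Nat.card_eq_fintype_card, Nat.card_eq_fintype_card] at h
  exact Fintype.exists_ne_map_eq_of_card_lt (fun x => A (inr x)) (by omega)

lemma exists_two {L : Type} [Finite L] (hL : 5 ≤ Nat.card L) (a b c : L) :
    ∃ l m : L, l ≠ m ∧ (l ≠ a ∧ l ≠ b ∧ l ≠ c) ∧ (m ≠ a ∧ m ≠ b ∧ m ≠ c) := by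
  have := Fintype.ofFinite L
  rw [Nat.card_eq_fintype_card] at hL
  have h1 : 1 < (Finset.univ \ ({a, b, c} : Finset L)).card := by
    have h2 := Finset.le_card_sdiff ({a, b, c} : Finset L) Finset.univ
    have h3 : ({a, b, c} : Finset L).card ≤ 3 := Finset.card_le_three
    rw [Finset.card_univ] at h2
    omega
  obtain ⟨l, hl, m, hm, hlm⟩ := Finset.one_lt_card.mp h1
  simp only [Finset.mem_sdiff, Finset.mem_univ, Finset.mem_insert, Finset.mem_singleton,
    true_and, not_or] at hl hm
  exact ⟨l, m, hlm, hl, hm⟩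

lemma tree_step {n : ℕ} (IH : TreeConn (n + 4)) : TreeConn (n + 5) := by
  intro L _ hL V E V' E' A A' hA hA'
  have := Fintype.ofFinite L
  have h1 : 1 < Fintype.card L := by
    rw [← Nat.card_eq_fintype_card]
    omega
  obtain ⟨i0, j0, h0⟩ := Fintype.one_lt_card_iff.mp h1
  have key : ∀ (V E : Type) (A : (E × Bool) ⊕ L → V), Tr A →
      ∃ (V' E' : Type) (B : (E' × Bool) ⊕ L → V'), Tr B ∧ Eqv A B ∧ B (inr i0) = B (inr j0) := by
    intro V E A hA
    obtain ⟨i, j, hij, h⟩ := exists_cherry hA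
    -- a move to a disjoint pair
    have disj : ∀ (V E : Type) (A : (E × Bool) ⊕ L → V), Tr A → ∀ i j, i ≠ j →
        A (inr i) = A (inr j) → i0 ≠ i → i0 ≠ j → j0 ≠ i → j0 ≠ j →
        ∃ (V' E' : Type) (B : (E' × Bool) ⊕ L → V'), Tr B ∧ Eqv A B ∧
          B (inr i0) = B (inr j0) := by
      intro V E A hA i j hij h a1 a2 a3 a4
      exact cherry_move IH hL hA hij h0 ⟨a1, a2⟩ ⟨a3, a4⟩ h
    -- a pair with at most three elements in the union
    have ovl : ∀ c : L, (∀ x, x = i ∨ x = j ∨ x = i0 ∨ x = j0 → x = i ∨ x = j ∨ x = c) →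
        ∃ (V' E' : Type) (B : (E' × Bool) ⊕ L → V'), Tr B ∧ Eqv A B ∧
          B (inr i0) = B (inr j0) := by
      intro c hc
      obtain ⟨l, m, hlm, hl, hm⟩ := exists_two (by omega) i j c
      obtain ⟨V1, E1, B1, hB1, e1, e2⟩ := cherry_move IH hL hA hij hlm ⟨hl.1, hl.2.1⟩
        ⟨hm.1, hm.2.1⟩ h
      have hi0 := hc i0 (by (clear * - hl hm; tauto))
      have hj0 := hc j0 (by (clear * - hl hm hi0; tauto))
      obtain ⟨V2, E2, B2, hB2, e3, e4⟩ := disj V1 E1 B1 hB1 l m hlm e2
        (by rintro rfl; (clear * - hm hi0 hj0 hl; tauto)) (by rintro rfl; (clear * - hl hi0 hj0 hm; tauto)) (by rintro rfl; (clear * - hm hi0 hj0 hl; tauto)) (by rintro rfl; (clear * - hl hi0 hj0 hm; tauto))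
      exact ⟨V2, E2, B2, hB2, e1.trans e3, e4⟩
    by_cases b1 : i0 = i ∨ i0 = j
    · exact ovl j0 (by
        rintro x (h | h | h | h)
        · (clear * - b1 h; tauto)
        · (clear * - b1 h; tauto)
        · rw [h]; (clear * - b1; tauto)
        · (clear * - b1 h; tauto))
    · by_cases b2 : j0 = i ∨ j0 = j
      · exact ovl i0 (by
          rintro x (h | h | h | h)
          · (clear * - b1 b2 h; tauto)
          · (clear * - b1 b2 h; tauto)
          · (clear * - b1 b2 h; tauto)
          · rw [h]; (clear * - b1 b2; tauto))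
      · push Not at b1 b2
        exact disj V E A hA i j hij h b1.1 b1.2 b2.1 b2.2
  obtain ⟨V1, E1, B, hB, e1, e2⟩ := key V E A hA
  obtain ⟨V1', E1', B', hB', e1', e2'⟩ := key V' E' A' hA'
  obtain ⟨V2, E2, C, hC, e3⟩ := exists_ch' hB (by omega) h0 e2
  obtain ⟨V2', E2', C', hC', e3'⟩ := exists_ch' hB' (by omega) h0 e2'
  have hc := card_two h0
  have e4 := IH _ (by omega) _ _ _ _ C C' hC hC'
  exact (e1.trans (e3.trans (e4.chf h0))).trans (e1'.trans e3').symm

theorem tree_conn (n : ℕ) : TreeConn n := by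
  have h4 : ∀ k, TreeConn (k + 4) := by
    intro k
    induction k with
    | zero =>
      intro L _ hL V E V' E' A A' hA hA'
      have h1 := hA.card
      have h2 := hA'.card
      have h3 := hA.2
      have h4 := hA'.2
      exact base_four hA.1 hA'.1 (by omega) (by omega) (by omega) (by omega)
    | succ k ih => exact tree_step ih
  intro L _ hL V E V' E' A A' hA hA'
  have h1 := hA.card
  have h2 := hA'.card
  have h3 := hA.2
  have h5 := hA'.2
  by_cases hn : 4 ≤ n
  · obtain ⟨k, rfl⟩ := Nat.exists_eq_add_of_le' hn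
    exact h4 k L hL V E V' E' A A' hA hA'
  · exact base_three hA.1 hA'.1 (by omega) (by omega) (by omega) (by omega)

/-- all cubic graphs of one genus are equivalent -/
theorem cubic_conn (g : ℕ) : ∀ (L : Type) [Finite L] (V E V' E' : Type)
    (A : (E × Bool) ⊕ L → V) (A' : (E' × Bool) ⊕ L → V'), Good A → Good A' →
    Nat.card E + 1 = g + Nat.card V → Nat.card E' + 1 = g + Nat.card V' → Eqv A A' := by
  induction g with
  | zero =>
    intro L _ V E V' E' A A' hA hA' h h'
    exact tree_conn _ L rfl V E V' E' A A' ⟨hA, by omega⟩ ⟨hA', by omega⟩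
  | succ g ih =>
    intro L _ V E V' E' A A' hA hA' h h'
    have key : ∀ (V E : Type) (A : (E × Bool) ⊕ L → V), Good A →
        Nat.card E + 1 = g + 1 + Nat.card V → ∃ (V0 E0 : Type)
          (A0 : (E0 × Bool) ⊕ Option (Option L) → V0), Good A0 ∧
          Nat.card E0 + 1 = g + Nat.card V0 ∧ Eqv A (lp A0) := by
      intro V E A hA h
      have := hA.fE
      have := Fintype.ofFinite E
      obtain ⟨e₀, A0, h1, h2⟩ := exists_lp hA (by omega)
      refine ⟨V, _, A0, h1, ?_, h2⟩
      have h5 : Nat.card {e // e ≠ e₀} + 1 = Nat.card E := by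
        rw [Nat.card_eq_fintype_card, Nat.card_eq_fintype_card, Fintype.card_subtype_compl,
          Fintype.card_subtype_eq]
        have : 0 < Fintype.card E := Fintype.card_pos_iff.mpr ⟨e₀⟩
        omega
      omega
    obtain ⟨V0, E0, A0, h1, h2, h3⟩ := key V E A hA h
    obtain ⟨V0', E0', A0', h1', h2', h3'⟩ := key V' E' A' hA' h'
    exact h3.trans ((ih _ _ _ _ _ A0 A0' h1 h1' h2 h2').lp.trans h3'.symm)

end Vale.Agent.P273
end
end
end

section

section

/-! The top degree. -/

noncomputable section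
namespace Vale.Agent.P273
open Sum
open scoped Classical

variable {V E L V' E' : Type}

/-- the cubic graph of an attaching map -/
def cg (A : (E × Bool) ⊕ L → V) : Gr V E L := ⟨fun _ => (0, 0), fun y => (A y, 0)⟩

/-- the half-edges different from those of one edge -/
def upM (e₀ : E) : ({e // e ≠ e₀} × Bool) ⊕ L → (E × Bool) ⊕ L :=
  Sum.elim (fun y => inl (y.1.1, y.2)) inr

/-- collapse two vertices -/
def colV (u w : V) (h : u ≠ w) (v : V) : {v // v ≠ w} :=
  if hv : v = w then ⟨u, h⟩ else ⟨v, hv⟩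

lemma colV_ne {u w : V} (h : u ≠ w) {v : V} (hv : v ≠ w) : colV u w h v = ⟨v, hv⟩ := by
  unfold colV
  rw [dif_neg hv]

lemma colV_self {u w : V} (h : u ≠ w) : colV u w h w = ⟨u, h⟩ := by
  unfold colV
  rw [dif_pos rfl]

lemma colV_eq_iff {u w : V} (h : u ≠ w) (v : V) : colV u w h v = ⟨u, h⟩ ↔ v = u ∨ v = w := by
  by_cases hv : v = w
  · rw [hv, colV_self]
    simp
  · rw [colV_ne h hv]
    simp [hv]

/-- contract one edge -/
def ctr (A : (E × Bool) ⊕ L → V) (e₀ : E) (u w : V) (h : u ≠ w) :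
    Gr {v // v ≠ w} {e // e ≠ e₀} L :=
  ⟨fun _ => (0, 0), fun y => (colV u w h (A (upM e₀ y)), 0)⟩

/-- the splitting which gives back `A` -/
def spl (A : (E × Bool) ⊕ L → V) (e₀ : E) (u w : V) (h : u ≠ w) :
    (ctr A e₀ u w h).Fl ⟨u, h⟩ → Bool := fun f => decide (A (upM e₀ f.1) = w)

lemma split_iso (A : (E × Bool) ⊕ L → V) (e₀ : E) {u w : V} (h : u ≠ w)
    (hw : A (inl (e₀, true)) = w) (hu : A (inl (e₀, false)) = u) :
    ((ctr A e₀ u w h).split ⟨u, h⟩ (spl A e₀ u w h)).Iso (cg A) := by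
  have key : ∀ y, ((cg A).hf (upM e₀ y)) =
      (((ctr A e₀ u w h).splitu ⟨u, h⟩ (spl A e₀ u w h) y).1.elim w Subtype.val, 0) := by
    intro y
    by_cases hy : ((ctr A e₀ u w h).hf y).1 = ⟨u, h⟩
    · rw [Gr.splitu_of _ _ hy]
      have hy' := (colV_eq_iff h (A (upM e₀ y))).mp hy
      by_cases h1 : A (upM e₀ y) = w
      · simp [cg, spl, h1]
      · have h2 := hy'.resolve_right h1
        simp [cg, spl, h2, h]
    · rw [Gr.splitu_ne _ _ hy]
      have hy' : ¬ (A (upM e₀ y) = u ∨ A (upM e₀ y) = w) :=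
        fun h' => hy ((colV_eq_iff h (A (upM e₀ y))).mpr h')
      push Not at hy'
      have h3 : ((ctr A e₀ u w h).hf y).1 = ⟨A (upM e₀ y), hy'.2⟩ := colV_ne h hy'.2
      rw [h3]
      rfl
  refine ⟨fun v => v.elim w Subtype.val,
    fun y => ((Equiv.optionSubtypeNe e₀) y.1, y.2), ?_, ?_, fun e => rfl, ?_, ?_⟩
  · constructor
    · rintro (_ | ⟨v, hv⟩) (_ | ⟨v', hv'⟩) hh
      · rfl
      · exact absurd hh.symm hv'
      · exact absurd hh hv
      · simpa using hh
    · intro v
      by_cases hv : v = w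
      · exact ⟨none, hv.symm⟩
      · exact ⟨some ⟨v, hv⟩, rfl⟩
  · exact (Equiv.prodCongr (Equiv.optionSubtypeNe e₀) (Equiv.refl Bool)).bijective
  · rintro (_ | v) <;> rfl
  · rintro (⟨_ | e, b⟩ | x)
    · cases b
      · change (A (inl ((Equiv.optionSubtypeNe e₀) none, false)), 0) = (u, 0)
        rw [Equiv.optionSubtypeNe_none, hu]
      · change (A (inl ((Equiv.optionSubtypeNe e₀) none, true)), 0) = (w, 0)
        rw [Equiv.optionSubtypeNe_none, hw]
    · have := key (inl (e, b))
      change (A (inl ((Equiv.optionSubtypeNe e₀) (some e), b)), 0) = _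
      rw [Equiv.optionSubtypeNe_some]
      exact this
    · exact key (inr x)

lemma sum_upM [Fintype E] [Fintype L] (e₀ : E) (φ : (E × Bool) ⊕ L → ℕ) :
    ∑ y, φ y = φ (inl (e₀, true)) + φ (inl (e₀, false)) +
      ∑ y : ({e // e ≠ e₀} × Bool) ⊕ L, φ (upM e₀ y) := by
  rw [Fintype.sum_sum_type, Fintype.sum_sum_type, Fintype.sum_prod_type, Fintype.sum_prod_type,
    Fintype.sum_eq_add_sum_subtype_ne _ e₀, Fintype.sum_bool]
  simp only [upM, Sum.elim_inl, Sum.elim_inr]
  ring

lemma count_upM [Finite E] [Finite L] {A : (E × Bool) ⊕ L → V} (hA : Good A) (e₀ : E) {u w : V}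
    (h : u ≠ w) (hw : A (inl (e₀, true)) = w) (hu : A (inl (e₀, false)) = u) :
    (ctr A e₀ u w h).nv ⟨u, h⟩ = 4 ∧ (ctr A e₀ u w h).Bal2 ⟨u, h⟩ (spl A e₀ u w h) := by
  have := Fintype.ofFinite E
  have := Fintype.ofFinite L
  have cnt : ∀ v, ∑ y, (if A y = v then 1 else 0) = 3 := by
    intro v
    rw [← hA.cub v, Nat.card_eq_fintype_card, Fintype.card_subtype, Finset.card_filter]
  have h1 := cnt w
  have h2 := cnt u
  rw [sum_upM e₀, hw, hu, if_pos rfl, if_neg h] at h1
  rw [sum_upM e₀, hw, hu, if_neg h.symm, if_pos rfl] at h2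
  constructor
  · rw [nv_eq_finsum, finsum_eq_sum_of_fintype]
    refine Eq.trans (Finset.sum_congr rfl (fun y _ => (?_ : _ =
        (if A (upM e₀ y) = w then 1 else 0) + (if A (upM e₀ y) = u then 1 else 0)))) ?_
    · have h4 : ((ctr A e₀ u w h).hf y).1 = ⟨u, h⟩ ↔ A (upM e₀ y) = u ∨ A (upM e₀ y) = w :=
        colV_eq_iff h _
      by_cases h5 : A (upM e₀ y) = w
      · rw [if_pos (h4.mpr (Or.inr h5)), if_pos h5, if_neg (by rw [h5]; exact h.symm)]
      · by_cases h6 : A (upM e₀ y) = u
        · rw [if_pos (h4.mpr (Or.inl h6)), if_neg h5, if_pos h6]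
        · rw [if_neg (by rw [h4]; (clear * - h h4 h6 h5; tauto)), if_neg h5, if_neg h6]
    · rw [Finset.sum_add_distrib]
      omega
  · unfold Gr.Bal2
    have h3 : Nat.card {f : (ctr A e₀ u w h).Fl ⟨u, h⟩ // spl A e₀ u w h f = true} =
        Nat.card {y // A (upM e₀ y) = w} := by
      apply Nat.card_congr
      refine ⟨fun f => ⟨f.1.1, by simpa only [ne_eq, spl, decide_eq_true_eq] using f.2⟩,
        fun y => ⟨⟨y.1, (colV_eq_iff h _).mpr (Or.inr y.2)⟩, by simpa [spl] using y.2⟩, ?_, ?_⟩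
      · intro f; rfl
      · intro y; rfl
    rw [h3, Nat.card_eq_fintype_card, Fintype.card_subtype, Finset.card_filter]
    omega

theorem winv_lam [Finite L] {g : ℕ} {lam : F L →ₗ[ℚ] ℚ} (hlam : ∀ x, P g x → lam x = 0) :
    Winv (fun (V E : Type) (A : (E × Bool) ⊕ L → V) => lam (dl (cg A) 1)) := by
  constructor
  · intro V E V' E' A A' φ ρ h1 h2 _
    apply fl_iso hlam
    refine ⟨φ, ρ, φ.bijective, ρ.bijective, h1, fun v => rfl, ?_⟩
    intro y
    exact Prod.ext (h2 y) rfl
  · intro V E A A' hA hA' hmv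
    obtain ⟨e₀, h1, h2, h3, h4⟩ := hmv
    have := hA.fV
    have := hA.fE
    have i1 := split_iso A e₀ h1.symm rfl rfl
    have i2 := split_iso A' e₀ h1.symm h2 h3
    have c1 := count_upM hA e₀ h1.symm rfl rfl
    have c2 := count_upM hA' e₀ h1.symm h2 h3
    rw [← fl_iso hlam i1 1, ← fl_iso hlam i2 1]
    have h5 : ctr A' e₀ (A (inl (e₀, false))) (A (inl (e₀, true))) h1.symm =
        ctr A e₀ (A (inl (e₀, false))) (A (inl (e₀, true))) h1.symm := by
      apply Gr.ext'
      · intro v; rfl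
      · intro y
        apply Prod.ext
        · change colV _ _ _ (A' (upM e₀ y)) = colV _ _ _ (A (upM e₀ y))
          rcases h4 (upM e₀ y) with h | ⟨h, h'⟩
          · rw [h]
          · rw [(colV_eq_iff h1.symm _).mpr h.symm, (colV_eq_iff h1.symm _).mpr h'.symm]
        · rfl
    generalize spl A' e₀ (A (inl (e₀, false))) (A (inl (e₀, true))) h1.symm = η at *
    revert η
    rw [h5]
    intro η _ c2
    exact wdvv hlam _ _ rfl c1.1 (fun y _ => rfl) _ η c1.2 c2.2

lemma cubic_good {g : ℕ} {G : Gr V E L} (hG : G.Valid g) (hc : G.Cubic) :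
    Good (fun y => (G.hf y).1) ∧ Nat.card E + 1 = g + Nat.card V ∧
      G = cg (fun y => (G.hf y).1) := by
  obtain ⟨hV, hE, ⟨hne, hconn, hgen, _⟩, _⟩ := hG
  refine ⟨⟨hV, hE, hne, fun v => (hc.1 v).2, hconn⟩, ?_, ?_⟩
  · have : ∑ᶠ v, (G.dec v).1 = 0 := by
      apply finsum_eq_zero_of_forall_eq_zero
      intro v
      rw [(hc.1 v).1]
    omega
  · apply Gr.ext'
    · intro v
      exact (hc.1 v).1
    · intro y
      exact Prod.ext rfl (hc.2 y)

/-- a functional that kills Pixton's span takes one value on all cubic graphs -/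
theorem cubic_eq [Finite L] {g : ℕ} {lam : F L →ₗ[ℚ] ℚ} (hlam : ∀ x, P g x → lam x = 0)
    {G : Gr V E L} {G' : Gr V' E' L} (hG : G.Valid g) (hc : G.Cubic) (hG' : G'.Valid g)
    (hc' : G'.Cubic) : lam (dl G 1) = lam (dl G' 1) := by
  obtain ⟨h1, h2, h3⟩ := cubic_good hG hc
  obtain ⟨h1', h2', h3'⟩ := cubic_good hG' hc'
  rw [h3, h3']
  exact cubic_conn g L _ _ _ _ _ _ h1 h1' h2 h2' _ (winv_lam hlam)

/-- the degree of a valid graph -/
lemma valid_deg_le [Finite L] {g : ℕ} {G : Gr V E L} (hG : G.Valid g) :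
    G.deg + 3 ≤ 3 * g + Nat.card L := by
  have hV : Finite V := hG.1
  have hE : Finite E := hG.2.1
  have := Fintype.ofFinite V
  have hle : ∀ v ∈ Finset.univ, G.degAt v + 3 ≤ 3 * (G.dec v).1 + G.nv v := by
    intro v _
    rw [degAt_eq]
    exact hG.2.2.2 v
  have hgen := hG.2.2.1.2.2.1
  rw [finsum_eq_sum_of_fintype, Nat.card_eq_fintype_card (α := V)] at hgen
  have h1 := sum_degAt G
  have h2 := sum_nv G
  have h3 := Finset.sum_le_sum hle
  rw [Finset.sum_add_distrib, Finset.sum_add_distrib, ← Finset.mul_sum, h2, Finset.sum_const,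
      Finset.card_univ, smul_eq_mul] at h3
  omega

/-- the top degree: Pixton's span is the only possible space of relations -/
theorem top_complete [Finite L] {g : ℕ} (K : Submodule ℚ (F L)) (hP : ∀ x, P g x → x ∈ K)
    (hK : ∃ D : DG L, D.G.deg + 3 = 3 * g + Nat.card L ∧ dl D.G 1 ∉ K) (x : F L) (hx : x ∈ K)
    (hdeg : ∀ D ∈ x.support, 3 * g + Nat.card L ≤ D.G.deg + 3) : P g x := by
  obtain ⟨D, hD, hDK⟩ := hK
  -- a functional vanishing on `K` and not on `D`
  obtain ⟨mu, hmu, hmuK⟩ : ∃ mu : F L →ₗ[ℚ] ℚ, mu (dl D.G 1) ≠ 0 ∧ ∀ x ∈ K, mu x = 0 := by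
    obtain ⟨f, hf1, hf2⟩ := K.exists_le_ker_of_notMem hDK
    exact ⟨f, hf1, fun x hx => hf2 hx⟩
  have hmuP : ∀ x, P g x → mu x = 0 := fun x hx => hmuK x (hP x hx)
  -- a cubic graph on which `mu` does not vanish
  obtain ⟨V0, E0, G0, hG0, hc0, hmu0⟩ : ∃ (V E : Type) (G : Gr V E L), G.Valid g ∧ G.Cubic ∧
      mu (dl G 1) ≠ 0 := by
    by_contra hcon
    push Not at hcon
    exact hmu (top_main hmuP hcon D.G hD)
  -- every functional vanishing on Pixton's span is a multiple of `mu`
  by_contra hPx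
  have hPx' : x ∉ Psub g L := hPx
  obtain ⟨lam, hl1, hl2⟩ := (Psub g L).exists_le_ker_of_notMem hPx'
  have hlam : ∀ x, P g x → lam x = 0 := fun x hx => hl2 hx
  set c := lam (dl G0 1) / mu (dl G0 1) with hc
  have hnu : ∀ x, P g x → (lam - c • mu) x = 0 := by
    intro x hx
    rw [LinearMap.sub_apply, LinearMap.smul_apply, hlam x hx, hmuP x hx]
    simp
  have hcub : ∀ (V E : Type) (G : Gr V E L), G.Valid g → G.Cubic →
      (lam - c • mu) (dl G 1) = 0 := by
    intro V E G hG hcG
    rw [cubic_eq hnu hG hcG hG0 hc0, LinearMap.sub_apply, LinearMap.smul_apply, hc, smul_eq_mul,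
      div_mul_cancel₀ _ hmu0, sub_self]
  have hall : ∀ D : DG L, 3 * g + Nat.card L ≤ D.G.deg + 3 → (lam - c • mu) (dl D.G 1) = 0 := by
    intro D hD
    by_cases hV : D.G.Valid g
    · have := valid_deg_le hV
      exact top_main hnu hcub D.G (by omega)
    · exact fl_not_valid hnu hV 1
  have hx0 : (lam - c • mu) x = 0 := by
    rw [← Finsupp.sum_single x, Finsupp.sum, map_sum]
    apply Finset.sum_eq_zero
    intro D hD
    have h1 : Finsupp.single D (x D) = x D • dl D.G 1 := by
      unfold dl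
      rw [Finsupp.smul_single, smul_eq_mul, mul_one]
    rw [h1, map_smul, hall D (hdeg D hD), smul_zero]
  rw [LinearMap.sub_apply, LinearMap.smul_apply, hmuK x hx, smul_zero, sub_zero] at hx0
  exact hl1 hx0

end Vale.Agent.P273
end
end
end

section

section

/-! Bridging between the dual definitions and the primal ones. -/

noncomputable section

namespace Vale.Agent.P273

open Sum
open scoped Classical

variable {V E L N R T : Type}

lemma cB_eq (a : ℕ) (ζ : ℚ) (m : ℕ) : Q.B a ζ m = B a ζ m := by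
  unfold Q.B B
  have h : ζ * (1 + 6 * (m : ℚ)) / (1 - 6 * m) = ζ * ((1 + 6 * (m : ℚ)) / (1 - 6 * m)) := by
    ring
  rw [h, mul_pow, neg_pow, pow_add]
  ring

lemma cedgeF_eq (z w : ℚ × ℕ) : Q.edgeF z w = edgeF z w := by
  unfold Q.edgeF edgeF
  simp only [cB_eq]

lemma ckapF_eq (μ : Multiset ℕ) (ζ : ℚ) : Q.kapF μ ζ = kapF μ ζ := by
  unfold Q.kapF kapF
  simp only [cB_eq]

lemma cnv_eq (a : V → ℕ × Multiset ℕ) (f : (E × Bool) ⊕ L → V × ℕ) (v : V) :
    Q.nv f v = (⟨a, f⟩ : Gr V E L).nv v := rfl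

lemma cStab_iff (a : V → ℕ × Multiset ℕ) (f : (E × Bool) ⊕ L → V × ℕ) (g d : ℕ) :
    Q.Stab a f g d ↔ Finite V ∧ Finite E ∧ (⟨a, f⟩ : Gr V E L).Stab g ∧
      (⟨a, f⟩ : Gr V E L).deg = d := by
  unfold Q.Stab Gr.Stab Gr.deg
  tauto

lemma cValid_iff (a : V → ℕ × Multiset ℕ) (f : (E × Bool) ⊕ L → V × ℕ) (g d : ℕ) :
    Q.Valid a f g d ↔ (⟨a, f⟩ : Gr V E L).Valid g ∧ (⟨a, f⟩ : Gr V E L).deg = d := by
  unfold Q.Valid Gr.Valid
  rw [cStab_iff]
  tauto

lemma cwt_eq [Finite V] [Finite E] (a : V → ℕ × Multiset ℕ) (f : (E × Bool) ⊕ L → V × ℕ)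
    (g d : ℕ) (A : L → ℕ) : Q.wt a f g d A = wt (⟨a, f⟩ : Gr V E L) g A d := by
  unfold Q.wt wt
  refine finsum_congr_Prop (propext ⟨fun h => ((cStab_iff a f g d).1 h).2.2,
    fun h => (cStab_iff a f g d).2 ⟨inferInstance, inferInstance, h⟩⟩) ?_
  intro h
  apply finsum_congr
  intro ζ
  simp only [cB_eq, cedgeF_eq, ckapF_eq]
  rfl

lemma finsum_Gr {M : Type*} [AddCommMonoid M] (h : Gr V E L → M)
    (hf : (Function.support h).Finite) :
    ∑ᶠ (a : V → ℕ × Multiset ℕ) (f : (E × Bool) ⊕ L → V × ℕ), h ⟨a, f⟩ = ∑ᶠ G, h G := by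
  let e : (V → ℕ × Multiset ℕ) × ((E × Bool) ⊕ L → V × ℕ) ≃ Gr V E L :=
    ⟨fun p => ⟨p.1, p.2⟩, fun G => (G.dec, G.hf), fun _ => rfl, fun _ => rfl⟩
  refine Eq.trans ?_ (finsum_comp_equiv e)
  refine (finsum_curry (fun p => h (e p)) ?_).symm
  exact hf.preimage e.injective.injOn

lemma Pix_iff {g d : ℕ} {s : Q.Fn N} : Q.Pix g d s ↔ Q.Tr g d s ∧
    ∀ (R T L : Type) (W : Env R T L N) (A : L → ℕ) (γ e : ℕ), Finite R → Finite T →
      ∀ _ : Finite L, (∀ y z x, W.use y = inl x → W.use z = inl x → y = z) → (∀ x, A x ≤ 1) →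
      γ + ∑ᶠ x, A x < 3 * e →
      ∑ p ∈ supp γ A e, (wt p.2.2 γ A e / (p.1.factorial * p.2.1.factorial * 2 ^ p.2.1)) *
        s _ _ (W.graft p.2.2).dec (W.graft p.2.2).hf = 0 := by
  have key : ∀ (R T L : Type) (W : Env R T L N) (A : L → ℕ) (γ e : ℕ) (_ : Finite L),
      ∑ p ∈ supp γ A e, (wt p.2.2 γ A e / (p.1.factorial * p.2.1.factorial * 2 ^ p.2.1)) *
        s _ _ (W.graft p.2.2).dec (W.graft p.2.2).hf =
      ∑ᶠ (k : ℕ) (m : ℕ) (a : Fin k → ℕ × Multiset ℕ) (f : (Fin m × Bool) ⊕ L → Fin k × ℕ),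
        (wt (⟨a, f⟩ : Gr (Fin k) (Fin m) L) γ A e /
          (k.factorial * m.factorial * 2 ^ m)) *
          s _ _ (W.graft ⟨a, f⟩).dec (W.graft ⟨a, f⟩).hf := by
    intro R T L W A γ e _
    rw [← finsum_supp γ e A (fun k m G => (wt G γ A e / (k.factorial * m.factorial * 2 ^ m)) *
        s _ _ (W.graft G).dec (W.graft G).hf)]
    · apply finsum_congr
      intro k
      apply finsum_congr
      intro m
      rw [← finsum_Gr]
      apply (finite_wt_km γ e A k m).subset
      intro G hG h0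
      apply hG
      dsimp only
      rw [h0, zero_div, zero_mul]
    · intro k m G h0
      rw [h0, zero_div, zero_mul]
  unfold Q.Pix
  constructor
  · rintro ⟨h1, h2⟩
    refine ⟨h1, ?_⟩
    intro R T L W A γ e hR hT hL h3 h4 h5
    rw [key, ← h2 R T L W.dec W.use W.b A γ e hR hT hL h3 h4 h5]
    apply finsum_congr
    intro k
    apply finsum_congr
    intro m
    apply finsum_congr
    intro a
    apply finsum_congr
    intro f
    rw [← cwt_eq]
    rfl
  · rintro ⟨h1, h2⟩
    refine ⟨h1, ?_⟩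
    intro R T L r u b A γ e hR hT hL h3 h4 h5
    have h6 := h2 R T L ⟨r, u, b⟩ A γ e hR hT hL h3 h4 h5
    rw [key] at h6
    rw [← h6]
    apply finsum_congr
    intro k
    apply finsum_congr
    intro m
    apply finsum_congr
    intro a
    apply finsum_congr
    intro f
    rw [cwt_eq]
    rfl

/-- The linear extension of a functional. -/
def evl (s : Q.Fn L) : F L →ₗ[ℚ] ℚ := lift fun D => s D.V D.E D.G.dec D.G.hf

lemma evl_dl (s : Q.Fn L) (G : Gr V E L) (c : ℚ) : evl s (dl G c) = c * s V E G.dec G.hf :=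
  lift_dl _ _ _

lemma evl_Triv {g d : ℕ} {s : Q.Fn L} (hs : Q.Tr g d s) {x : F L} (hx : Triv g x) :
    evl s x = 0 := by
  obtain ⟨h1, h2, h3⟩ := hs
  cases hx with
  | iso G G' φ ρ k1 k2 k3 k4 k5 =>
    have h4 := h2 _ _ _ _ G'.dec G.hf G'.hf φ ρ k1 k2 k3 k5
    have h5 : G'.dec ∘ φ = G.dec := funext k4
    rw [h5] at h4
    rw [map_add, evl_dl, evl_dl, h4]
    ring
  | zero G hG =>
    rw [evl_dl, h1 _ _ G.dec G.hf, mul_zero]
    intro hv
    exact hG ((cValid_iff _ _ _ _).1 hv).1
  | dilaton G v =>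
    have h4 := h3 _ _ G.dec G.hf v
    rw [cnv_eq G.dec] at h4
    rw [map_add, evl_dl, evl_dl]
    dsimp only
    rw [h4]
    ring

theorem evl_P {g d : ℕ} {s : Q.Fn L} (hs : Q.Pix g d s) {x : F L} (hx : P g x) :
    evl s x = 0 := by
  induction hx with
  | triv x hx => exact evl_Triv hs.1 hx
  | pix W γ e A hR hT hL h3 h4 h5 =>
    rw [Env.pix_eq_sum, map_sum]
    rw [← (Pix_iff.1 hs).2 _ _ _ W A γ e hR hT hL h3 h4 h5]
    apply Finset.sum_congr rfl
    intro p _
    rw [evl_dl]
  | lin x y c _ _ h1 h2 => rw [map_add, map_smul, h1, h2, smul_zero, add_zero]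

/-- The part of degree `d` of a linear functional. -/
def fd (d : ℕ) (l : F L →ₗ[ℚ] ℚ) : Q.Fn L := fun _ _ a f =>
  if (⟨a, f⟩ : Gr _ _ L).deg = d then l (dl ⟨a, f⟩ 1) else 0

lemma fd_of {d : ℕ} (l : F L →ₗ[ℚ] ℚ) (G : Gr V E L) (h : G.deg = d) :
    fd d l V E G.dec G.hf = l (dl G 1) := if_pos h

lemma fd_not {d : ℕ} (l : F L →ₗ[ℚ] ℚ) (G : Gr V E L) (h : G.deg ≠ d) :
    fd d l V E G.dec G.hf = 0 := if_neg h

lemma Tr_fd {g : ℕ} (d : ℕ) (l : F L →ₗ[ℚ] ℚ) (hl : ∀ x, Triv g x → l x = 0) :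
    Q.Tr g d (fd d l) := by
  refine ⟨?_, ?_, ?_⟩
  · intro V E a f hv
    by_cases hd : (⟨a, f⟩ : Gr V E L).deg = d
    · refine (fd_of l ⟨a, f⟩ hd).trans (hl _ (Triv.zero _ ?_))
      intro h
      exact hv ((cValid_iff _ _ _ _).2 ⟨h, hd⟩)
    · exact fd_not l ⟨a, f⟩ hd
  · intro V E V' E' a f f' p q k1 k2 k3 k5
    have I : IsoData (⟨a ∘ p, f⟩ : Gr V E L) (⟨a, f'⟩ : Gr V' E' L) p q :=
      ⟨k1, k2, k3, fun _ => rfl, k5⟩
    have h1 := I.deg_eq
    have h2 := hl _ (Triv.iso (⟨a ∘ p, f⟩ : Gr V E L) (⟨a, f'⟩ : Gr V' E' L) p q k1 k2 k3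
      (fun _ => rfl) k5)
    rw [dl_neg, map_add, map_neg] at h2
    by_cases hd : (⟨a, f'⟩ : Gr V' E' L).deg = d
    · refine (fd_of l (⟨a ∘ p, f⟩ : Gr V E L) (h1 ▸ hd)).trans (Eq.trans ?_
        (fd_of l (⟨a, f'⟩ : Gr V' E' L) hd).symm)
      linarith only [h2]
    · exact (fd_not l (⟨a ∘ p, f⟩ : Gr V E L) (h1 ▸ hd)).trans
        (fd_not l (⟨a, f'⟩ : Gr V' E' L) hd).symm
  · intro V E a f v
    have h1 := deg_upd (⟨a, f⟩ : Gr V E L) v
    have h2 := hl _ (Triv.dilaton (⟨a, f⟩ : Gr V E L) v)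
    rw [map_add, dl_eq_smul (⟨a, f⟩ : Gr V E L) (_ - _), map_smul, smul_eq_mul] at h2
    rw [cnv_eq a]
    by_cases hd : (⟨a, f⟩ : Gr V E L).deg = d
    · refine (fd_of l ((⟨a, f⟩ : Gr V E L).upd v (0 ::ₘ (a v).2)) (h1.trans hd)).trans
        (Eq.trans ?_ (congrArg _ (fd_of l (⟨a, f⟩ : Gr V E L) hd).symm))
      have h3 : l (dl ((⟨a, f⟩ : Gr V E L).upd v (0 ::ₘ (a v).2)) 1) + _ = 0 := h2
      rw [← sub_eq_zero, ← h3]
      ring
    · refine (fd_not l ((⟨a, f⟩ : Gr V E L).upd v (0 ::ₘ (a v).2))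
        (fun h => hd (h1.symm.trans h))).trans
        (Eq.trans ?_ (congrArg _ (fd_not l (⟨a, f⟩ : Gr V E L) hd).symm))
      rw [mul_zero]

theorem Pix_fd [Finite L] {g : ℕ} (d : ℕ) (l : F L →ₗ[ℚ] ℚ) (hl : ∀ x, P g x → l x = 0) :
    Q.Pix g d (fd d l) := by
  rw [Pix_iff]
  refine ⟨Tr_fd d l (fun x hx => hl x (P.triv x hx)), ?_⟩
  intro R T M W A γ e hR hT hM h3 h4 h5
  have h6 := hl _ (P.pix W γ e A hR hT hM h3 h4 h5)
  rw [Env.pix_eq_sum, map_sum] at h6
  by_cases hd : e + W.cdeg = d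
  · rw [← h6]
    apply Finset.sum_congr rfl
    intro p _
    by_cases hw : wt p.2.2 γ A e = 0
    · rw [hw, zero_div, zero_mul, dl_zero, map_zero]
    · rw [fd_of l, dl_eq_smul _ (_ / _), map_smul, smul_eq_mul]
      rw [deg_graft W h3, (wt_ne_zero hw).2.1, hd]
  · apply Finset.sum_eq_zero
    intro p _
    by_cases hw : wt p.2.2 γ A e = 0
    · rw [hw, zero_div, zero_mul]
    · rw [fd_not l, mul_zero]
      rw [deg_graft W h3, (wt_ne_zero hw).2.1]
      exact hd

/-- Dual of an injective map. -/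
lemma exists_dual {g g' : ℕ} {L M : Type} (A : F L →ₗ[ℚ] F M)
    (hA : ∀ x, P g' (A x) → P g x) (l : F L →ₗ[ℚ] ℚ) (hl : ∀ x, P g x → l x = 0) :
    ∃ m : F M →ₗ[ℚ] ℚ, (∀ x, P g' x → m x = 0) ∧ ∀ x, m (A x) = l x := by
  let W := (F M) ⧸ (Pbar g' M).comap (mk g' M)
  let B : F L →ₗ[ℚ] W := ((Pbar g' M).comap (mk g' M)).mkQ ∘ₗ A
  have h1 : l ∈ B.ker.dualAnnihilator := by
    rw [Submodule.mem_dualAnnihilator]
    intro x hx
    apply hl
    apply hA
    have h2 : (Submodule.Quotient.mk (A x) : W) = 0 := hx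
    rw [Submodule.Quotient.mk_eq_zero] at h2
    exact mk_mem_Pbar.1 h2
  rw [← LinearMap.range_dualMap_eq_dualAnnihilator_ker] at h1
  obtain ⟨m, hm⟩ := h1
  refine ⟨m ∘ₗ ((Pbar g' M).comap (mk g' M)).mkQ, ?_, ?_⟩
  · intro x hx
    have h2 : ((Pbar g' M).comap (mk g' M)).mkQ x = 0 := by
      rw [Submodule.mkQ_apply, Submodule.Quotient.mk_eq_zero]
      exact mk_mem_Pbar.2 hx
    rw [LinearMap.comp_apply, h2, map_zero]
  · intro x
    rw [← hm]
    rfl

/-- Two functionals which agree on valid graphs without `κ_0` are equal. -/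
lemma Tr_ext {g d : ℕ} {s t : Q.Fn L} (hs : Q.Tr g d s) (ht : Q.Tr g d t)
    (h : ∀ V E (G : Gr V E L), G.Valid g → G.deg = d → (∀ v, 0 ∉ (G.dec v).2) →
      s V E G.dec G.hf = t V E G.dec G.hf) : s = t := by
  have key : ∀ n V E (a : V → ℕ × Multiset ℕ) (f : (E × Bool) ⊕ L → V × ℕ), Q.Valid a f g d →
      ∑ᶠ v, (a v).2.count 0 = n → s V E a f = t V E a f := by
    intro n
    induction n with
    | zero =>
      intro V E a f hv hn
      have hV : Finite V := hv.1.1
      have := Fintype.ofFinite V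
      rw [finsum_eq_sum_of_fintype, Finset.sum_eq_zero_iff] at hn
      obtain ⟨h1, h2⟩ := (cValid_iff _ _ _ _).1 hv
      exact h V E ⟨a, f⟩ h1 h2 (fun v => Multiset.count_eq_zero.1 (hn v (Finset.mem_univ v)))
    | succ n ih =>
      intro V E a f hv hn
      have hV : Finite V := hv.1.1
      have := Fintype.ofFinite V
      have hex : ∃ v, 0 ∈ (a v).2 := by
        by_contra hcon
        push Not at hcon
        rw [finsum_eq_sum_of_fintype, Finset.sum_eq_zero] at hn
        · omega
        · intro v _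
          exact Multiset.count_eq_zero.2 (hcon v)
      obtain ⟨v, hv0⟩ := hex
      set a' := Function.update a v ((a v).1, (a v).2.erase 0) with ha'
      have h1 : (a' v) = ((a v).1, (a v).2.erase 0) := Function.update_self _ _ _
      have h2 : Function.update a' v ((a' v).1, 0 ::ₘ (a' v).2) = a := by
        rw [h1, ha', Function.update_idem]
        simp only
        rw [Multiset.cons_erase hv0]
        exact Function.update_eq_self v a
      by_cases hv' : Q.Valid a' f g d
      · have h3 : ∑ᶠ v, (a' v).2.count 0 = n := by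
          rw [finsum_eq_sum_of_fintype] at hn ⊢
          rw [← Finset.add_sum_erase _ _ (Finset.mem_univ v)] at hn ⊢
          have h4 : ∑ x ∈ Finset.univ.erase v, (a' x).2.count 0 =
              ∑ x ∈ Finset.univ.erase v, (a x).2.count 0 := by
            apply Finset.sum_congr rfl
            intro x hx
            rw [ha', Function.update_of_ne (Finset.ne_of_mem_erase hx)]
          rw [h4, h1]
          simp only
          rw [Multiset.count_erase_self]
          have h5 : 0 < (a v).2.count 0 := Multiset.count_pos.2 hv0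
          omega
        have h6 := hs.2.2 V E a' f v
        have h7 := ht.2.2 V E a' f v
        rw [h2] at h6 h7
        rw [h6, h7, ih V E a' f hv' h3]
      · have h6 := hs.2.2 V E a' f v
        have h7 := ht.2.2 V E a' f v
        rw [h2, hs.1 V E a' f hv', mul_zero] at h6
        rw [h2, ht.1 V E a' f hv', mul_zero] at h7
        rw [h6, h7]
  funext V E a f
  by_cases hv : Q.Valid a f g d
  · exact key _ V E a f hv rfl
  · rw [hs.1 V E a f hv, ht.1 V E a f hv]

end Vale.Agent.P273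
end
end
end

section

section

/-! Dual form of the merging step. -/

noncomputable section

namespace Vale.Agent.P273

open Sum
open scoped Classical

variable {V E L : Type}

/-- Every functional that kills Pixton's span is, in degree `D`, in the span of the duals of the
merging operators. -/
theorem noeth_dual (g D : ℕ) : ∃ n0, ∀ n ≥ n0, ∀ lam : F (Fin (n + 1)) →ₗ[ℚ] ℚ,
    (∀ x, P g x → lam x = 0) → ∀ S : Submodule ℚ (F (Fin (n + 1)) →ₗ[ℚ] ℚ),
    (∀ (mu : F (Fin n) →ₗ[ℚ] ℚ) (hmu : ∀ x, P g x → mu x = 0) (a : Fin n) (b : Fin (n + 1)),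
      a.castSucc < b → dualF g mu hmu a b ∈ S) →
    ∃ mu ∈ S, ∀ V E (G : Gr V E (Fin (n + 1))), G.deg = D → lam (dl G 1) = mu (dl G 1) := by
  obtain ⟨n0, hn0⟩ := leads_bound g D
  refine ⟨n0, ?_⟩
  intro n hn lam hlam S hS
  let G : Set (BB g D (n + 1) → ℚ) := {f | ∃ (mu : F (Fin n) →ₗ[ℚ] ℚ)
    (hmu : ∀ x, P g x → mu x = 0) (a : Fin n) (b : Fin (n + 1)), a.castSucc < b ∧
    f = ev g D (n + 1) (dualF g mu hmu a b)}
  have hspan := span_of_lead ((VV g (Fin (n + 1))).map (ev g D (n + 1))) G (by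
    rintro _ ⟨mu, hmu, a, b, _, rfl⟩
    exact ⟨_, fun z hz => dualF_P hmu a b hz, rfl⟩) (by
    rintro _ ⟨nu, hnu, rfl⟩ ⟨y, hy⟩ hlead
    obtain ⟨mu, hmu, a, b, hab, h1⟩ := hn0 n hn y hy nu hnu hlead
    exact ⟨_, ⟨mu, hmu, a, b, hab, rfl⟩, h1⟩) _ ⟨lam, hlam, rfl⟩
  have key : ∀ f ∈ Submodule.span ℚ G, ∃ mu ∈ VV g (Fin (n + 1)),
      ev g D (n + 1) mu = f ∧ mu ∈ S := by
    intro f hf
    induction hf using Submodule.span_induction with
    | mem f hf =>
      obtain ⟨mu, hmu, a, b, hab, rfl⟩ := hf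
      exact ⟨_, fun z hz => dualF_P hmu a b hz, rfl, hS mu hmu a b hab⟩
    | zero => exact ⟨0, Submodule.zero_mem _, map_zero _, S.zero_mem⟩
    | add f f' _ _ h h' =>
      obtain ⟨mu, h1, h2, h3⟩ := h
      obtain ⟨mu', h1', h2', h3'⟩ := h'
      exact ⟨mu + mu', Submodule.add_mem _ h1 h1', by rw [map_add, h2, h2'], S.add_mem h3 h3'⟩
    | smul c f _ h =>
      obtain ⟨mu, h1, h2, h3⟩ := h
      exact ⟨c • mu, Submodule.smul_mem _ _ h1, by rw [map_smul, h2], S.smul_mem c h3⟩
  obtain ⟨mu, h1, h2, h3⟩ := key _ hspan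
  refine ⟨mu, h3, ?_⟩
  intro V E G hG
  have hnu : ∀ z, P g z → (lam - mu) z = 0 := (VV g (Fin (n + 1))).sub_mem hlam h1
  have hev : ev g D (n + 1) (lam - mu) = 0 := by
    rw [map_sub, h2, sub_self]
  have := ev_zero hnu hev G hG
  rw [LinearMap.sub_apply] at this
  linarith only [this]

/-- The exponent of the leg `none` is positive: the bubble has the same degree. -/
lemma bubble_deg [Finite V] [Finite E] [Finite L] (G : Gr V E (Option L))
    (h : (G.hf (inr none)).2 ≠ 0) : (G.bubble (inr none)).deg = G.deg := by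
  have := Fintype.ofFinite V
  have := Fintype.ofFinite E
  have := Fintype.ofFinite L
  unfold Gr.deg
  have h1 : Nat.card (Option E) = Nat.card E + 1 := Finite.card_option
  have h2 : ∑ᶠ v, ((G.bubble (inr none)).dec v).2.sum = ∑ᶠ v, (G.dec v).2.sum := by
    rw [finsum_eq_sum_of_fintype, finsum_eq_sum_of_fintype, Fintype.sum_option]
    have e1 : ((G.bubble (inr none)).dec none).2.sum = 0 := rfl
    rw [e1, zero_add]
    rfl
  have h3 : ∑ᶠ y, ((G.bubble (inr none)).hf y).2 + 1 = ∑ᶠ y, (G.hf y).2 := by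
    rw [finsum_eq_sum_of_fintype, finsum_eq_sum_of_fintype, Fintype.sum_sum_type,
      Fintype.sum_sum_type, Fintype.sum_prod_type, Fintype.sum_prod_type, Fintype.sum_option,
      Fintype.sum_option, Fintype.sum_option, Fintype.sum_option]
    have e1 : ∑ y : Bool, ((G.bubble (inr none)).hf (inl (none, y))).2 =
        (G.hf (inr none)).2 - 1 := by
      rw [Fintype.sum_bool]
      change 0 + ((G.hf (inr none)).2 - 1) = _
      omega
    have e2 : ((G.bubble (inr none)).hf (inr none)).2 = 0 := rfl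
    have e3 : ((G.bubble (inr none)).hf (inr (some none))).2 = 0 := by
      rw [bubble_hf_self]
    have e4 : ∑ x : E, ∑ y : Bool, ((G.bubble (inr none)).hf (inl (some x, y))).2 =
        ∑ x : E, ∑ y : Bool, (G.hf (inl (x, y))).2 := by
      apply Finset.sum_congr rfl
      intro x _
      apply Finset.sum_congr rfl
      intro y _
      rw [bubble_hf_edge G (by simp)]
    have e5 : ∑ x : L, ((G.bubble (inr none)).hf (inr (some (some x)))).2 =
        ∑ x : L, (G.hf (inr (some x))).2 := by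
      apply Finset.sum_congr rfl
      intro x _
      rw [bubble_hf_leg G (by simp)]
    rw [e1, e2, e3, e4, e5]
    (clear * - h; omega)
  rw [h1, h2]
  omega

/-- Inserting the bubble again gives back the graph. -/
lemma cut_bubble_iso {G : Gr V E (Option (Option L))} {y : E × Bool} (hy : MT G y)
    (h0 : 0 ∉ (G.dec (G.hf (inl y)).1).2) :
    ∃ (φ : Option {v // v ≠ (G.hf (inl y)).1} → V) (ρ : Option {e // e ≠ y.1} × Bool → E × Bool),
      IsoData (hy.cut.bump.bubble (inr none)) G φ ρ := by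
  have hw : G.dec (G.hf (inl y)).1 = (0, 0) := by
    apply Prod.ext
    · exact hy.gen
    · apply Multiset.eq_zero_of_forall_notMem
      intro k hk
      have := hy.kap k hk
      subst this
      exact h0 hk
  refine ⟨fun o => o.elim (G.hf (inl y)).1 (fun v => v.1),
    fun z => z.1.elim (y.1, if z.2 then y.2 else !y.2) (fun e => (e.1, z.2)), ⟨?_, ?_, ?_, ?_, ?_⟩⟩
  · constructor
    · rintro (_ | ⟨v, hv⟩) (_ | ⟨v', hv'⟩) h
      · rfl
      · exact absurd h.symm hv'
      · exact absurd h hv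
      · change v = v' at h
        subst h
        rfl
    · intro v
      by_cases hv : v = (G.hf (inl y)).1
      · exact ⟨none, hv.symm⟩
      · exact ⟨some ⟨v, hv⟩, rfl⟩
  · constructor
    · rintro ⟨(_ | ⟨e, he⟩), s⟩ ⟨(_ | ⟨e', he'⟩), s'⟩ h
      · have h2 : (if s then y.2 else !y.2) = if s' then y.2 else !y.2 := congrArg Prod.snd h
        cases s <;> cases s' <;> simp at h2 ⊢
      · exact absurd (congrArg Prod.fst h).symm he'
      · exact absurd (congrArg Prod.fst h) he
      · have h1 : e = e' := congrArg Prod.fst h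
        have h2 : s = s' := congrArg Prod.snd h
        subst h1
        subst h2
        rfl
    · rintro ⟨e, s⟩
      by_cases he : e = y.1
      · subst he
        by_cases hs : s = y.2
        · subst hs
          exact ⟨(none, true), rfl⟩
        · refine ⟨(none, false), ?_⟩
          have : s = !y.2 := by
            cases s <;> cases h : y.2 <;> simp_all
          rw [this]
          rfl
      · exact ⟨(some ⟨e, he⟩, s), rfl⟩
  · rintro (_ | e) <;> rfl
  · rintro (_ | v)
    · exact hw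
    · rfl
  · rintro (⟨(_ | e), s⟩ | (_ | _ | x))
    · cases s
      · apply Prod.ext
        · rfl
        · change (G.hf (inl (y.1, !y.2))).2 = (G.hf (inl (y.1, !y.2))).2 +
            (if (inr none : ({e // e ≠ y.1} × Bool) ⊕ Option L) = inr none then
              (G.hf (inl (y.1, y.2))).2 else 0) +
            (if (inr none : ({e // e ≠ y.1} × Bool) ⊕ Option L) = inr none then 1 else 0) - 1
          rw [if_pos rfl, if_pos rfl]
          have : (G.hf (inl (y.1, y.2))).2 = 0 := hy.e0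
          rw [this]
          rfl
      · apply Prod.ext
        · rfl
        · exact hy.e0
    · change G.hf (inl (e.1, s)) = _
      rw [bubble_hf_edge _ (by simp), Gr.bump_ne _ (by simp)]
      apply Prod.ext
      · rfl
      · change _ = (G.hf (inl (e.1, s))).2 + 0
        rw [add_zero]
    · exact hy.l1
    · rw [bubble_hf_self]
      exact hy.l2
    · rw [bubble_hf_leg _ (by simp), Gr.bump_ne _ (by simp)]
      apply Prod.ext
      · rfl
      · change (G.hf (inr (some (some x)))).2 = (G.hf (inr (some (some x)))).2 +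
          (if (inr (some x) : ({e // e ≠ y.1} × Bool) ⊕ Option L) = inr none then _ else 0)
        rw [if_neg (by simp), add_zero]

/-- The condition satisfied by a functional that is pulled back from the divisor. -/
def ZC (u : Q.Fn (Option (Option L))) : Prop := ∀ V E a f,
  (f (inr none) = f (inr (some none)) → (f (inr none)).2 ≠ 0) → u V E a f = 0

lemma pull_main {g D : ℕ} {u : Q.Fn (Option (Option L))} (hu : ZC u) (G : Gr V E (Option L))
    (hS : Q.Stab G.dec G.hf g D) (h0 : ∀ v, 0 ∉ (G.dec v).2) (h : (G.hf (inr none)).2 = 0) :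
    Q.pull g D u V E G.dec G.hf = u V E G.dec (Q.ad G.hf (G.hf (inr none)).1 0) := by
  unfold Q.pull
  rw [finsum_eq_if, if_pos hS]
  have h1 : ∀ v, ((G.dec v).2.map fun k => u V E (Function.update G.dec v
      ((G.dec v).1, (G.dec v).2.erase k)) (Q.ad G.hf v k)).sum = 0 := by
    intro v
    apply Multiset.sum_eq_zero
    intro x hx
    obtain ⟨k, hk, rfl⟩ := Multiset.mem_map.1 hx
    apply hu
    intro _ hk0
    apply h0 v
    rw [← show k = 0 from hk0]
    exact hk
  have h2 : ∑ᶠ (z) (_ : (G.hf z).2 ≠ 0), u (Option V) (Option E) (Option.elim' (0, 0) G.dec)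
      (Q.bub G.hf z) = 0 := by
    apply finsum_eq_zero_of_forall_eq_zero
    intro z
    rw [finsum_eq_if]
    by_cases hz : (G.hf z).2 ≠ 0
    swap
    · rw [if_neg hz]
    rw [if_pos hz]
    apply hu
    intro heq
    exfalso
    have hz' : (inr none : (E × Bool) ⊕ Option L) ≠ z := by
      rintro rfl
      exact hz h
    have h3 : Q.bub G.hf z (inr (some none)) = (some (G.hf (inr none)).1, (G.hf (inr none)).2) :=
      bubble_hf_leg G hz'
    rw [h3] at heq
    have h4 : (none : Option V) = some (G.hf (inr none)).1 := congrArg Prod.fst heq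
    exact absurd h4 (by simp)
  rw [h2, sub_zero, finsum_eq_single _ (G.hf (inr none)).1, h1, sub_zero]
  intro v hv
  rw [h1, sub_zero]
  apply hu
  intro heq
  exfalso
  exact hv (congrArg Prod.fst heq)

lemma pull_bub {g D : ℕ} {u : Q.Fn (Option (Option L))} (hu : ZC u) (G : Gr V E (Option L))
    (hS : Q.Stab G.dec G.hf g D) (h0 : ∀ v, 0 ∉ (G.dec v).2) (h : (G.hf (inr none)).2 ≠ 0) :
    Q.pull g D u V E G.dec G.hf = - u (Option V) (Option E) (G.bubble (inr none)).dec
      (G.bubble (inr none)).hf := by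
  unfold Q.pull
  rw [finsum_eq_if, if_pos hS]
  have h1 : ∀ v, ((G.dec v).2.map fun k => u V E (Function.update G.dec v
      ((G.dec v).1, (G.dec v).2.erase k)) (Q.ad G.hf v k)).sum = 0 := by
    intro v
    apply Multiset.sum_eq_zero
    intro x hx
    obtain ⟨k, hk, rfl⟩ := Multiset.mem_map.1 hx
    apply hu
    intro _ hk0
    apply h0 v
    rw [← show k = 0 from hk0]
    exact hk
  have h2 : ∀ v, u V E G.dec (Q.ad G.hf v 0) = 0 := by
    intro v
    apply hu
    intro heq
    exfalso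
    exact h (congrArg Prod.snd heq).symm
  have h3 : ∑ᶠ (z) (_ : (G.hf z).2 ≠ 0), u (Option V) (Option E) (Option.elim' (0, 0) G.dec)
      (Q.bub G.hf z) = u (Option V) (Option E) (G.bubble (inr none)).dec
      (G.bubble (inr none)).hf := by
    rw [finsum_eq_single _ (inr none)]
    · rw [finsum_eq_if, if_pos h]
      rfl
    · intro z hz'
      rw [finsum_eq_if]
      by_cases hz : (G.hf z).2 ≠ 0
      swap
      · rw [if_neg hz]
      rw [if_pos hz]
      apply hu
      intro heq
      exfalso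
      have h3 : Q.bub G.hf z (inr (some none)) = (some (G.hf (inr none)).1, (G.hf (inr none)).2) :=
        bubble_hf_leg G (Ne.symm hz')
      rw [h3] at heq
      have h4 : (none : Option V) = some (G.hf (inr none)).1 := congrArg Prod.fst heq
      exact absurd h4 (by simp)
  rw [h3, finsum_eq_zero_of_forall_eq_zero, zero_sub]
  intro v
  rw [h1, h2, sub_zero]

lemma exists_MT [Finite L] {g : ℕ} {G : Gr V E (Option (Option L))} (hG : G.Valid g)
    (hmc : G.MC) (hn : ¬ G.drp.Stab g) (hL : 2 ≤ Nat.card L) :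
    ∃ y, MT G y := by
  have hV : Finite V := hG.1
  have hE : Finite E := hG.2.1
  obtain ⟨s1, s2, s3, s4⟩ := hG.2.2.1
  have hex : ∃ w, ¬ 2 < 2 * (G.drp.dec w).1 + G.drp.nv w := by
    by_contra hcon
    push Not at hcon
    apply hn
    refine ⟨s1, s2, ?_, hcon⟩
    rw [← s3]
    congr 2
    apply finsum_congr
    intro v
    rw [G.drp_gen]
  obtain ⟨w, hw⟩ := hex
  rw [G.drp_gen] at hw
  have h1 := G.drp_nv w
  have h2 := s4 w
  have hwn : G.vn = w := by
    by_contra hne
    rw [if_neg hne] at h1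
    omega
  rw [if_pos hwn] at h1
  have hl1 : (G.hf (inr none)).1 = w := hwn
  have hl2 : (G.hf (inr (some none))).1 = w := by rw [← hmc.1]; exact hl1
  have hfin : {z | (G.hf z).1 = w}.Finite := Set.toFinite _
  have hnv : G.nv w = {z | (G.hf z).1 = w}.ncard := rfl
  have hge : 2 ≤ G.nv w := by
    rw [hnv, ← Set.ncard_pair (show (inr none : (E × Bool) ⊕ Option (Option L)) ≠
      inr (some none) by simp)]
    apply Set.ncard_le_ncard _ hfin
    rintro z (rfl | rfl)
    · exact hl1
    · exact hl2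
  have hg0 : (G.dec w).1 = 0 := by omega
  have hnv3 : G.nv w = 3 := by omega
  have hz : ∃ z, (G.hf z).1 = w ∧ z ≠ inr none ∧ z ≠ inr (some none) := by
    by_contra hcon
    push Not at hcon
    have : G.nv w ≤ 2 := by
      rw [hnv, ← Set.ncard_pair (show (inr none : (E × Bool) ⊕ Option (Option L)) ≠
        inr (some none) by simp)]
      apply Set.ncard_le_ncard _ (Set.toFinite _)
      intro z hz
      by_cases h : z = inr none
      · exact Or.inl h
      · exact Or.inr (hcon z hz h)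
    omega
  obtain ⟨z, hz1, hz2, hz3⟩ := hz
  have honly : ∀ z', (G.hf z').1 = w → z' = z ∨ z' = inr none ∨ z' = inr (some none) := by
    have h3 : ({z, inr none, inr (some none)} : Set ((E × Bool) ⊕ Option (Option L))) =
        {z | (G.hf z).1 = w} := by
      apply Set.eq_of_subset_of_ncard_le _ _ hfin
      · rintro z' (rfl | rfl | rfl)
        · exact hz1
        · exact hl1
        · exact hl2
      · rw [← hnv, hnv3, Set.ncard_eq_three.2 ⟨_, _, _, hz2, hz3, by simp, rfl⟩]
    intro z' hz'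
    have : z' ∈ ({z, inr none, inr (some none)} : Set ((E × Bool) ⊕ Option (Option L))) := by
      rw [h3]
      exact hz'
    exact this
  have hdeg := hG.2.2.2 w
  rw [hg0, hnv3] at hdeg
  rcases z with y | x
  · refine ⟨y, ?_⟩
    have := Fintype.ofFinite V
    have := Fintype.ofFinite E
    have := Fintype.ofFinite L
    have hk : (G.dec w).2.sum = 0 := by omega
    have hp : ∑ᶠ (y) (_ : (G.hf y).1 = w), (G.hf y).2 = 0 := by omega
    constructor
    · rw [hz1]
      exact hg0
    · rw [hz1]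
      intro k hk'
      have := Multiset.single_le_sum (fun _ _ => Nat.zero_le _) k hk'
      omega
    · rw [psi_eq_finsum, finsum_eq_sum_of_fintype] at hp
      have := Finset.sum_eq_zero_iff.1 hp (inl y) (Finset.mem_univ _)
      rw [if_pos hz1] at this
      exact this
    · apply Prod.ext
      · rw [hz1]; exact hl1
      · exact hmc.2
    · apply Prod.ext
      · rw [hz1]; exact hl2
      · change (G.hf (inr (some none))).2 = 0
        rw [← hmc.1]
        exact hmc.2
    · rw [hz1]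
      exact honly
  · exfalso
    rcases s2 {w} (by
      intro e
      constructor
      · intro h
        rcases honly _ h with h | h | h <;> simp at h
      · intro h
        rcases honly _ h with h | h | h <;> simp at h) with h | h
    · exact absurd h (Set.singleton_ne_empty w)
    · rcases x with _ | _ | x
      · exact hz2 rfl
      · exact hz3 rfl
      · have : 1 < Nat.card L := hL
        rw [Finite.one_lt_card_iff_nontrivial] at this
        obtain ⟨x', hx'⟩ := exists_ne x
        have h3 : (G.hf (inr (some (some x')))).1 ∈ (Set.univ : Set V) := trivial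
        rw [← h] at h3
        rcases honly _ h3 with h | h | h
        · simp at h
          exact hx' h
        · simp at h
        · simp at h

lemma mrgG_not {g : ℕ} {G : Gr V E (Option (Option L))} (h : ¬ G.MC) : mrgG g G = 0 := by
  have hno : ∀ y, ¬ MT G y := by
    intro y hy
    exact h ⟨hy.l1.trans hy.l2.symm, by rw [hy.l1]⟩
  rw [mrgG, if_neg h, finsum_eq_zero_of_forall_eq_zero (fun y => mterm_not (hno y)), sub_zero]

/-- The functional `u` is the dual of merging. -/
theorem mrg_dual [Finite L] (hL : 2 ≤ Nat.card L) {g D : ℕ} {u : Q.Fn (Option (Option L))}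
    (hu : Q.Tr g D u) (l : F (Option L) →ₗ[ℚ] ℚ) (l' : Sq g (Option L) →ₗ[ℚ] ℚ)
    (hl : ∀ x, l' (mk g (Option L) x) = l x)
    (h1 : Q.pull g D u = fd D l) (h2 : ZC u) {G : Gr V E (Option (Option L))} (hG : G.Valid g)
    (hD : G.deg = D) (h0 : ∀ v, 0 ∉ (G.dec v).2) : u V E G.dec G.hf = l' (mrgG g G) := by
  have hV : Finite V := hG.1
  have hE : Finite E := hG.2.1
  by_cases hmc : G.MC
  · have hdrp : (G.drp.addLeg (G.drp.hf (inr none)).1 (G.drp.dec (G.drp.hf (inr none)).1).2 0) =
        G := by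
      have e1 : (G.drp.hf (inr none)).1 = G.vn := by
        change (G.hf (inr (some none))).1 = (G.hf (inr none)).1
        rw [hmc.1]
      apply Gr.ext'
      · intro v
        by_cases hv : v = (G.drp.hf (inr none)).1
        · subst hv
          rw [addLeg_dec_self]
          exact drp_zero_free h0 _
        · rw [addLeg_dec_ne _ hv]
          exact drp_zero_free h0 _
      · rintro (y | _ | x)
        · rfl
        · rw [addLeg_hf_none]
          apply Prod.ext
          · exact e1
          · exact hmc.2.symm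
        · rfl
    have hdeg : G.drp.deg = D := by
      rw [← hD]
      unfold Gr.deg
      rw [finsum_flags (fun y => (G.hf y).2), hmc.2, zero_add]
      congr 1
      · congr 1
        apply finsum_congr
        intro v
        rw [drp_zero_free h0]
      · apply finsum_congr
        rintro (y | x) <;> rfl
    by_cases hS : G.drp.Stab g
    · have h3 := mrgG_main (v := (G.drp.hf (inr none)).1) hS (by
        apply Prod.ext
        · rfl
        · change (G.hf (inr (some none))).2 = 0
          rw [← hmc.1]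
          exact hmc.2) (by
        rw [drp_zero_free h0]
        exact h0 _)
      rw [hdrp] at h3
      rw [h3, hl, ← fd_of l G.drp hdeg, ← h1, pull_main h2 G.drp]
      · have h4 : G.drp.dec = G.dec := funext fun v => drp_zero_free h0 v
        have h5 : Q.ad G.drp.hf (G.drp.hf (inr none)).1 0 = G.hf := by
          have := congrArg Gr.hf hdrp
          exact this
        rw [h4, h5]
      · exact (cStab_iff _ _ _ _).2 ⟨hV, hE, hS, hdeg⟩
      · intro v
        rw [drp_zero_free h0]
        exact h0 v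
      · change (G.hf (inr (some none))).2 = 0
        rw [← hmc.1]
        exact hmc.2
    · obtain ⟨y, hy⟩ := exists_MT hG hmc hS hL
      obtain ⟨φ, ρ, I⟩ := cut_bubble_iso hy (h0 _)
      have C := hy.cutData
      have hS' : hy.cut.bump.Stab g := by
        have hnv := hy.nv_eq
        exact (Gr.bump_stab _ _).2 ((C.stab_iff' hy.gen (by omega)).2 hG.2.2.1)
      have hpos : (hy.cut.bump.hf (inr none)).2 ≠ 0 := by
        rw [Gr.bump_none]
        simp
      have hV' : Finite {v // v ≠ (G.hf (inl y)).1} := inferInstance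
      have hE' : Finite {e // e ≠ y.1} := inferInstance
      have hdeg' : hy.cut.bump.deg = D := by
        rw [← bubble_deg _ hpos, ← I.deg_eq, hD]
      rw [mrgG_MT hy (h0 _), map_neg, hl, ← fd_of l hy.cut.bump hdeg', ← h1,
        pull_bub h2 hy.cut.bump ((cStab_iff _ _ _ _).2 ⟨hV', hE', hS', hdeg'⟩) _ hpos, neg_neg]
      · have h3 := hu.2.1 _ _ _ _ G.dec (hy.cut.bump.bubble (inr none)).hf G.hf φ ρ I.h1 I.h2 I.h3
          I.h5
        have h4 : G.dec ∘ φ = (hy.cut.bump.bubble (inr none)).dec := funext I.h4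
        rw [h4] at h3
        exact h3.symm
      · intro v
        exact h0 v.1
  · rw [mrgG_not hmc, map_zero]
    apply h2
    intro h3 h4
    exact hmc ⟨h3, h4⟩

end Vale.Agent.P273
end
end
end

section

section

/-! Dual form of the elliptic step. -/

noncomputable section

namespace Vale.Agent.P273

open Sum
open scoped Classical

variable {V E L : Type}

/-- The functional on the strata algebra. -/
def evq {g d : ℕ} {s : Q.Fn L} (hs : Q.Tr g d s) : Sq g L →ₗ[ℚ] ℚ :=
  (Isub g L).liftQ (evl s) (Submodule.span_le.2 fun _ hx => evl_Triv hs hx)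

lemma evq_mk {g d : ℕ} {s : Q.Fn L} (hs : Q.Tr g d s) (x : F L) : evq hs (mk g L x) = evl s x := rfl

lemma evq_Pbar {g d : ℕ} {s : Q.Fn L} (hs : Q.Pix g d s) {y : Sq g L} (hy : y ∈ Pbar g L) :
    evq hs.1 y = 0 := by
  obtain ⟨x, rfl⟩ := Submodule.mkQ_surjective (Isub g L) y
  exact evl_P hs (mk_mem_Pbar.1 hy)

theorem dual_ell [Finite L] {g d : ℕ} (hg : 3 * d * (d + 1) < g) {s : Q.Fn L}
    (hs : Q.Pix (g + 1) d s) : ∃ t : Q.Fn (Option L), Q.Pix g d t ∧
      (∀ V E a f, (f (inr none)).2 ≠ 0 → t V E a f = 0) ∧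
      ∀ V E (G : Gr V E L), G.Valid (g + 1) → G.deg = d → (∀ v, 0 ∉ (G.dec v).2) →
        s V E G.dec G.hf = ∑ᶠ (v) (_ : (G.dec v).1 ≠ 0), t V E (G.low v).dec (G.low v).hf := by
  set θ := max (3 * d) 1 with hθ
  have hθ1 : 1 ≤ θ := le_max_right _ _
  have hθ2 : 3 * d ≤ θ := le_max_left _ _
  have hθ3 : (d + 1) * θ < g + 1 := by
    rcases Nat.eq_zero_or_pos d with rfl | hd'
    · simp only [mul_zero, zero_le, sup_of_le_right] at hθ
      rw [hθ]
      omega
    · have : θ = 3 * d := max_eq_left (by omega)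
      rw [this]
      have : (d + 1) * (3 * d) = 3 * d * (d + 1) := by ring
      omega
  let l : F (Option L) →ₗ[ℚ] ℚ := evq hs.1 ∘ₗ phi θ d (g + 1) L
  have hl : ∀ x, P g x → l x = 0 := fun x hx => evq_Pbar hs (phi_P_mem hθ2 hθ1 hx)
  refine ⟨fd d l, Pix_fd d l hl, ?_, ?_⟩
  · intro V E a f hf
    by_cases hd : (⟨a, f⟩ : Gr V E (Option L)).deg = d
    · refine (fd_of l ⟨a, f⟩ hd).trans ?_
      have h1 : phi θ d (g + 1) L (dl (⟨a, f⟩ : Gr V E (Option L)) 1) = 0 := by
        rw [phi_dl, phiG, if_neg, smul_zero]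
        rintro ⟨_, h4, _⟩
        exact hf h4
      have h2 : l (dl (⟨a, f⟩ : Gr V E (Option L)) 1) =
        evq hs.1 (phi θ d (g + 1) L (dl (⟨a, f⟩ : Gr V E (Option L)) 1)) := rfl
      rw [h2, h1, map_zero]
    · exact fd_not l ⟨a, f⟩ hd
  · intro V E G hG hd h0
    have hV : Finite V := hG.1
    have hE : Finite E := hG.2.1
    have := Fintype.ofFinite V
    have h1 := phi_sum_low hθ1 (g := g + 1) G h0 (by rw [hd]; exact hθ3) 1
    rw [hd] at h1
    have h2 : evl s (dl G 1) = s V E G.dec G.hf := by rw [evl_dl, one_mul]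
    rw [← h2, ← evq_mk hs.1, ← h1]
    have h3 : evq hs.1 (phi θ d (g + 1) L (∑ᶠ (v) (_ : (G.dec v).1 ≠ 0), dl (G.low v) 1)) =
      l (∑ᶠ (v) (_ : (G.dec v).1 ≠ 0), dl (G.low v) 1) := rfl
    rw [h3, finsum_eq_sum_of_fintype, finsum_eq_sum_of_fintype, map_sum]
    apply Finset.sum_congr rfl
    intro v _
    rw [finsum_eq_if, finsum_eq_if]
    by_cases hv : (G.dec v).1 ≠ 0
    · rw [if_pos hv, if_pos hv, fd_of l (G.low v) ((low_deg G v).trans hd)]
    · rw [if_neg hv, if_neg hv, map_zero]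

end Vale.Agent.P273
end
end
end

section

section

/-! Dual form of the tail and pull reductions. -/

noncomputable section

namespace Vale.Agent.P273

open Sum
open scoped Classical

variable {V E L : Type}

/-- The dual of gluing a tail. -/
def dtail (h : ℕ) (s : Q.Fn L) : Q.Fn (Option L) := fun V E a f =>
  s (Option V) (Option E) (Option.elim' (h, 0) a) (Q.tail f)

lemma finsum_option' {ι : Type} [Finite ι] {M : Type*} [AddCommMonoid M] (F : Option ι → M) :
    ∑ᶠ x, F x = F none + ∑ᶠ x, F (some x) := by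
  have := Fintype.ofFinite ι
  rw [finsum_eq_sum_of_fintype, finsum_eq_sum_of_fintype, Fintype.sum_option]

lemma deg_tail [Finite V] [Finite E] [Finite L] (G : Gr V E (Option L)) (h : ℕ) :
    (G.tail h).deg = G.deg + 1 := by
  have := Fintype.ofFinite V
  have := Fintype.ofFinite E
  have := Fintype.ofFinite L
  unfold Gr.deg
  have h1 : ∑ᶠ v, ((G.tail h).dec v).2.sum = ∑ᶠ v, (G.dec v).2.sum := by
    rw [finsum_option']
    change (0 : Multiset ℕ).sum + _ = _
    rw [Multiset.sum_zero, zero_add]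
    rfl
  have h2 : ∑ᶠ y, ((G.tail h).hf y).2 = ∑ᶠ y, (G.hf y).2 := by
    rw [finsum_eq_sum_of_fintype, finsum_eq_sum_of_fintype, Fintype.sum_sum_type,
      Fintype.sum_sum_type, Fintype.sum_prod_type, Fintype.sum_option, Fintype.sum_option,
      Fintype.sum_bool]
    have e1 : ((G.tail h).hf (inl (none, true))).2 = 0 := rfl
    have e2 : ((G.tail h).hf (inl (none, false))).2 = (G.hf (inr none)).2 := rfl
    have e3 : ∀ (e : E) (s : Bool), ((G.tail h).hf (inl (some e, s))).2 =
      (G.hf (inl (e, s))).2 := fun e s => rfl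
    have e4 : ∀ x : L, ((G.tail h).hf (inr x)).2 = (G.hf (inr (some x))).2 := fun x => rfl
    simp only [e1, e2, e3, e4]
    rw [Fintype.sum_prod_type]
    ring
  rw [h1, h2, Finite.card_option]
  ring

/-- Gluing a tail, as a linear map. -/
def tailF (h : ℕ) (L : Type) : F (Option L) →ₗ[ℚ] F L := lift fun D => dl (D.G.tail h) 1

lemma tailF_dl (h : ℕ) (G : Gr V E (Option L)) (c : ℚ) : tailF h L (dl G c) = dl (G.tail h) c := by
  unfold tailF
  rw [lift_dl, smul_dl, mul_one]

lemma tailF_eq (h : ℕ) (x : F (Option L)) :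
    tailF h L x = x.sum fun D => dl (D.G.tail h) := by
  conv_lhs => rw [← Finsupp.sum_single x]
  rw [Finsupp.sum, map_sum]
  apply Finset.sum_congr rfl
  intro D _
  exact tailF_dl h D.G (x D)

lemma pix_ne {g d : ℕ} {s : Q.Fn L} (hs : Q.Tr g d s) {a : V → ℕ × Multiset ℕ}
    {f : (E × Bool) ⊕ L → V × ℕ} (h : s V E a f ≠ 0) : Q.Valid a f g d := by
  by_contra hv
  exact h (hs.1 _ _ _ _ hv)

theorem dual_tail [Finite L] {g h d : ℕ} (hh : 4 ≤ h) (hgh : g < h) {s : Q.Fn (Option L)}
    (hs : Q.Pix g d s) : ∃ t : Q.Fn L, Q.Pix (g + h) (d + 1) t ∧ dtail h t = s := by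
  obtain ⟨m, hm1, hm2⟩ := exists_dual (g := g) (g' := g + h) (tailF h L)
    (fun x hx => P_of_tail hh hgh (by rw [← tailF_eq]; exact hx)) (evl s)
    (fun x hx => evl_P hs hx)
  refine ⟨fd (d + 1) m, Pix_fd _ m hm1, ?_⟩
  funext V E a f
  have h1 : (⟨Option.elim' (h, 0) a, Q.tail f⟩ : Gr (Option V) (Option E) L) =
      (⟨a, f⟩ : Gr V E (Option L)).tail h := by
    apply Gr.ext'
    · rintro (_ | v) <;> rfl
    · rintro (⟨_ | e, _ | _⟩ | x) <;> rfl
  have h2 : m (dl ((⟨a, f⟩ : Gr V E (Option L)).tail h) 1) = s V E a f := by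
    rw [← tailF_dl, hm2, evl_dl, one_mul]
  unfold dtail fd
  rw [h1, h2]
  split_ifs with h3
  · rfl
  · by_contra h4
    have h5 := pix_ne hs.1 (Ne.symm h4)
    rw [cValid_iff] at h5
    have hV := h5.1.1
    have hE := h5.1.2.1
    rw [deg_tail, h5.2] at h3
    exact h3 rfl

lemma deg_addLeg [Finite V] [Finite E] [Finite L] (G : Gr V E L) (v : V) (K : Multiset ℕ) (c : ℕ)
    (h : K.sum + c = (G.dec v).2.sum) : (G.addLeg v K c).deg = G.deg := by
  have := Fintype.ofFinite V
  unfold Gr.deg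
  rw [finsum_flags (fun y => ((G.addLeg v K c).hf y).2)]
  have h1 : ((G.addLeg v K c).hf (inr none)).2 = c := rfl
  have h2 : ∑ᶠ y, ((G.addLeg v K c).hf (optEquiv E L (some y))).2 = ∑ᶠ y, (G.hf y).2 := by
    apply finsum_congr
    rintro (y | x) <;> rfl
  rw [h1, h2, finsum_eq_sum_of_fintype (fun u => ((G.addLeg v K c).dec u).2.sum),
    finsum_eq_sum_of_fintype (fun u => (G.dec u).2.sum),
    ← Finset.add_sum_erase _ _ (Finset.mem_univ v),
    ← Finset.add_sum_erase (Finset.univ) (fun v => (G.dec v).2.sum) (Finset.mem_univ v)]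
  have h3 : ((G.addLeg v K c).dec v) = ((G.dec v).1, K) := addLeg_dec_self _ _ _ _
  have h4 : ∑ u ∈ Finset.univ.erase v, ((G.addLeg v K c).dec u).2.sum =
      ∑ u ∈ Finset.univ.erase v, (G.dec u).2.sum := by
    apply Finset.sum_congr rfl
    intro u hu
    rw [addLeg_dec_ne _ (Finset.ne_of_mem_erase hu)]
  rw [h3, h4, ← h]
  simp only
  ring

lemma deg_bubble [Finite V] [Finite E] [Finite L] (G : Gr V E L) (z : (E × Bool) ⊕ L)
    (hz : (G.hf z).2 ≠ 0) : (G.bubble z).deg = G.deg := by
  have := Fintype.ofFinite V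
  have := Fintype.ofFinite E
  have := Fintype.ofFinite L
  unfold Gr.deg
  have h1 : ∑ᶠ v, ((G.bubble z).dec v).2.sum = ∑ᶠ v, (G.dec v).2.sum := by
    rw [finsum_option']
    change (0 : Multiset ℕ).sum + _ = _
    rw [Multiset.sum_zero, zero_add]
    rfl
  have h2 : ∑ᶠ y, ((G.bubble z).hf y).2 + 1 = ∑ᶠ y, (G.hf y).2 := by
    let u : (E × Bool) ⊕ L → Option V × ℕ :=
      Function.update (fun y => (some (G.hf y).1, (G.hf y).2)) z (none, 0)
    have hu : ∑ y, (u y).2 + (G.hf z).2 = ∑ y, (G.hf y).2 := by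
      rw [← Finset.add_sum_erase _ _ (Finset.mem_univ z),
        ← Finset.add_sum_erase (Finset.univ) (fun y => (G.hf y).2) (Finset.mem_univ z)]
      have e1 : (u z).2 = 0 := by simp [u]
      have e2 : ∑ y ∈ Finset.univ.erase z, (u y).2 = ∑ y ∈ Finset.univ.erase z, (G.hf y).2 := by
        apply Finset.sum_congr rfl
        intro y hy
        have : u y = (some (G.hf y).1, (G.hf y).2) :=
          Function.update_of_ne (Finset.ne_of_mem_erase hy) _ _
        rw [this]
      rw [e1, e2]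
      ring
    rw [finsum_eq_sum_of_fintype, finsum_eq_sum_of_fintype, ← hu, Fintype.sum_sum_type,
      Fintype.sum_sum_type, Fintype.sum_prod_type, Fintype.sum_option, Fintype.sum_option,
      Fintype.sum_bool]
    have e1 : ((G.bubble z).hf (inl (none, true))).2 = 0 := rfl
    have e2 : ((G.bubble z).hf (inl (none, false))).2 = (G.hf z).2 - 1 := rfl
    have e3 : ∀ (e : E) (s : Bool), ((G.bubble z).hf (inl (some e, s))).2 =
      (u (inl (e, s))).2 := fun e s => rfl
    have e4 : ∀ x : L, ((G.bubble z).hf (inr (some x))).2 = (u (inr x)).2 := fun x => rfl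
    have e5 : ((G.bubble z).hf (inr none)).2 = 0 := rfl
    simp only [e1, e2, e3, e4, e5]
    rw [Fintype.sum_prod_type]
    omega
  rw [h1, Finite.card_option]
  omega

/-- Pullback, as a linear map. -/
def pullL (g : ℕ) (L : Type) : F L →ₗ[ℚ] F (Option L) := lift fun D => pull g D.G 1

lemma pull_smul [Finite L] (g : ℕ) (G : Gr V E L) (c : ℚ) : pull g G c = c • pull g G 1 := by
  unfold pull
  rw [finsum_eq_if, finsum_eq_if]
  split_ifs with hG
  · have hV := hG.1
    have hE := hG.2.1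
    have := Fintype.ofFinite V
    have := Fintype.ofFinite E
    have := Fintype.ofFinite L
    rw [finsum_eq_sum_of_fintype, finsum_eq_sum_of_fintype, finsum_eq_sum_of_fintype,
      finsum_eq_sum_of_fintype, smul_add, Finset.smul_sum, Finset.smul_sum]
    congr 1
    · apply Finset.sum_congr rfl
      intro v _
      rw [smul_add, smul_dl, mul_one]
      congr 1
      rw [Multiset.smul_sum, Multiset.map_map]
      congr 1
      apply Multiset.map_congr rfl
      intro k _
      simp only [Function.comp_apply]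
      rw [smul_dl, mul_neg, mul_one]
    · apply Finset.sum_congr rfl
      intro z _
      rw [finsum_eq_if, finsum_eq_if]
      split_ifs
      · rw [smul_dl, mul_neg, mul_one]
      · rw [smul_zero]
  · rw [smul_zero]

lemma pullL_eq [Finite L] (g : ℕ) (x : F L) : pullL g L x = x.sum fun D => pull g D.G := by
  conv_lhs => rw [← Finsupp.sum_single x]
  rw [Finsupp.sum, map_sum]
  apply Finset.sum_congr rfl
  intro D _
  have : pullL g L (Finsupp.single D (x D)) = x D • pull g D.G 1 := lift_dl _ D.G (x D)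
  rw [this, ← pull_smul]

theorem dual_pull [Finite L] {g d : ℕ} (hg : 2 < 2 * g + Nat.card L) {s : Q.Fn L}
    (hs : Q.Pix g d s) : ∃ t : Q.Fn (Option L), Q.Pix g d t ∧
      ∀ V E a f, Q.Valid a f g d → Q.pull g d t V E a f = s V E a f := by
  obtain ⟨m, hm1, hm2⟩ := exists_dual (g := g) (g' := g) (pullL g L)
    (fun x hx => P_of_pull hg (by rw [← pullL_eq]; exact hx)) (evl s)
    (fun x hx => evl_P hs hx)
  refine ⟨fd d m, Pix_fd _ m hm1, ?_⟩
  intro V E a f hv
  have hv' := (cValid_iff a f g d).1 hv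
  obtain ⟨hG, hdeg⟩ := hv'
  have hV := hG.1
  have hE := hG.2.1
  have := Fintype.ofFinite V
  have := Fintype.ofFinite E
  have := Fintype.ofFinite L
  set G : Gr V E L := ⟨a, f⟩ with hGdef
  have h1 : m (pull g G 1) = s V E a f := by
    have h2 : pullL g L (dl G 1) = pull g G 1 := by
      unfold pullL
      rw [lift_dl, one_smul]
    rw [← h2, hm2, evl_dl, one_mul]
  rw [← h1]
  unfold Q.pull pull
  rw [finsum_eq_if, finsum_eq_if, if_pos hv.1, if_pos hG, finsum_eq_sum_of_fintype,
    finsum_eq_sum_of_fintype, finsum_eq_sum_of_fintype, finsum_eq_sum_of_fintype, map_add, map_sum,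
    map_sum, sub_eq_add_neg, ← Finset.sum_neg_distrib]
  congr 1
  · apply Finset.sum_congr rfl
    intro v _
    rw [map_add, sub_eq_add_neg]
    congr 1
    · have e1 : (⟨a, Q.ad f v 0⟩ : Gr V E (Option L)) = G.addLeg v (G.dec v).2 0 := by
        apply Gr.ext'
        · intro u
          by_cases hu : u = v
          · subst hu
            rw [addLeg_dec_self]
          · rw [addLeg_dec_ne _ hu]
        · rintro (y | (_ | x)) <;> rfl
      unfold fd
      rw [e1, if_pos]
      rw [deg_addLeg _ _ _ _ (by omega), hdeg]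
    · rw [map_multiset_sum, Multiset.map_map, ← Multiset.sum_map_neg', Multiset.map_map]
      congr 1
      change Multiset.map _ (a v).2 = Multiset.map _ (a v).2
      apply Multiset.map_congr rfl
      intro k hk
      have e1 : (⟨Function.update a v ((a v).1, (a v).2.erase k), Q.ad f v k⟩ :
          Gr V E (Option L)) = G.addLeg v ((G.dec v).2.erase k) k := by
        apply Gr.ext'
        · intro u
          rfl
        · rintro (y | (_ | x)) <;> rfl
      unfold fd
      simp only [Function.comp_apply]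
      rw [e1, if_pos, dl_neg, map_neg]
      rw [deg_addLeg, hdeg]
      have h3 : k + ((G.dec v).2.erase k).sum = (G.dec v).2.sum := Multiset.sum_erase hk
      omega
  · apply Finset.sum_congr rfl
    intro z _
    rw [finsum_eq_if, finsum_eq_if]
    by_cases hz : (f z).2 ≠ 0
    · rw [if_pos hz, if_pos hz, dl_neg, map_neg]
      congr 1
      have e1 : (⟨Option.elim' (0, 0) a, Q.bub f z⟩ : Gr (Option V) (Option E) (Option L)) =
          G.bubble z := by
        apply Gr.ext'
        · rintro (_ | v) <;> rfl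
        · rintro (⟨_ | e, _ | _⟩ | (_ | x)) <;> rfl
      unfold fd
      rw [e1, if_pos]
      rw [deg_bubble _ _ hz, hdeg]
    · rw [if_neg hz, if_neg hz, map_zero, neg_zero]

/-- `T` contains all functionals satisfying Pixton's relations. -/
def DC (T : ℕ → ℕ → ∀ L, Q.Fn L → Prop) (g d : ℕ) (L : Type) : Prop :=
  ∀ s, Q.Pix g d s → T g d L s

variable {T : ℕ → ℕ → ∀ L, Q.Fn L → Prop}

lemma DC.tail (hT : ∀ g d L s h, 1 ≤ h → T (g + h) (d + 1) L s → T g d (Option L) (dtail h s))
    {g h d : ℕ} [Finite L] (hh : 4 ≤ h) (hgh : g < h) (H : DC T (g + h) (d + 1) L) :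
    DC T g d (Option L) := by
  intro s hs
  obtain ⟨t, h1, rfl⟩ := dual_tail hh hgh hs
  exact hT g d L t h (by omega) (H t h1)

lemma not_valid_of_unstable [Finite L] {g d : ℕ} (hg : 2 * g + Nat.card L ≤ 2)
    (a : V → ℕ × Multiset ℕ) (f : (E × Bool) ⊕ L → V × ℕ) : ¬ Q.Valid a f g d := by
  intro h
  have h1 := ((cValid_iff a f g d).1 h).1
  have hV := h1.1
  have hE := h1.2.1
  have := Fintype.ofFinite V
  have h2 := h1.2.2.1.sum_chi hE
  have h3 : Nonempty V := h1.2.2.1.1
  have h4 : ∀ v, (1 : ℚ) ≤ 2 * (((⟨a, f⟩ : Gr V E L).dec v).1 : ℚ) - 2 +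
      (⟨a, f⟩ : Gr V E L).nv v := by
    intro v
    have h5 := h1.2.2.1.2.2.2 v
    have h6 : (3 : ℚ) ≤ 2 * (((⟨a, f⟩ : Gr V E L).dec v).1 : ℚ) + (⟨a, f⟩ : Gr V E L).nv v := by
      exact_mod_cast h5
    linarith only [h6]
  have h7 : (0 : ℚ) < ∑ v, (2 * (((⟨a, f⟩ : Gr V E L).dec v).1 : ℚ) - 2 +
      (⟨a, f⟩ : Gr V E L).nv v) := by
    apply Finset.sum_pos
    · intro v _
      linarith only [h4 v]
    · exact Finset.univ_nonempty
  rw [h2] at h7
  have h8 : (2 * (g : ℚ) + Nat.card L) ≤ 2 := by exact_mod_cast hg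
  linarith only [h7, h8]

lemma pix_zero [Finite L] (g d : ℕ) : Q.Pix g d (fun _ _ _ _ => 0 : Q.Fn L) := by
  have h := Pix_fd (g := g) (L := L) d 0 (fun x _ => rfl)
  have h2 : (fd d (0 : F L →ₗ[ℚ] ℚ)) = (fun _ _ _ _ => 0 : Q.Fn L) := by
    funext V E a f
    unfold fd
    split_ifs <;> rfl
  rw [h2] at h
  exact h

lemma pull_zero (g d : ℕ) : Q.pull g d (fun _ _ _ _ => 0 : Q.Fn (Option L)) =
    (fun _ _ _ _ => 0) := by
  funext V E a f
  unfold Q.pull
  simp

lemma DC.pull (hTr : ∀ g d L s, T g d L s → Q.Tr g d s)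
    (hP : ∀ g d L s, T g d (Option L) s → T g d L (Q.pull g d s))
    {g d : ℕ} [Finite L] (H : DC T g d (Option L)) : DC T g d L := by
  intro s hs
  by_cases hg : 2 < 2 * g + Nat.card L
  · obtain ⟨t, h1, h2⟩ := dual_pull hg hs
    have h3 := hP g d L t (H t h1)
    have h4 : Q.pull g d t = s := by
      funext V E a f
      by_cases hv : Q.Valid a f g d
      · exact h2 V E a f hv
      · rw [(hTr g d L _ h3).1 V E a f hv, hs.1.1 V E a f hv]
    rw [← h4]
    exact h3
  · have h1 : s = fun _ _ _ _ => 0 := by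
      funext V E a f
      exact hs.1.1 V E a f (not_valid_of_unstable (by omega) a f)
    have h2 := hP g d L _ (H _ (pix_zero g d))
    rw [pull_zero] at h2
    rw [h1]
    exact h2

lemma DC.tails (hT : ∀ g d L s h, 1 ≤ h → T (g + h) (d + 1) L s → T g d (Option L) (dtail h s))
    {G : ℕ} (n : ℕ) : ∀ g e, 2 ^ (n + 1) * (g + 5) ≤ G + 5 → DC T G (e + (n + 1)) Empty →
    DC T g e (Lg (n + 1)) := by
  induction n with
  | zero =>
    intro g e hG H
    have hL : Finite (Lg 0) := finite_Lg 0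
    obtain ⟨h, rfl⟩ : ∃ h, G = g + h := ⟨G - g, by omega⟩
    exact DC.tail (L := Lg 0) hT (h := h) (by omega) (by omega) H
  | succ n ih =>
    intro g e hG H
    have hL : Finite (Lg (n + 1)) := finite_Lg (n + 1)
    refine DC.tail (L := Lg (n + 1)) hT (h := g + 5) (by omega) (by omega) (ih _ _ ?_ ?_)
    · have : 2 ^ (n + 1) * (g + (g + 5) + 5) = 2 ^ (n + 1 + 1) * (g + 5) := by ring
      omega
    · have : e + 1 + (n + 1) = e + (n + 1 + 1) := by ring
      rw [this]
      exact H

/-- One unpointed instance gives all `(g, n)` with `g` and `n` bounded. -/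
theorem DC_of_unpointed (hTr : ∀ g d L s, T g d L s → Q.Tr g d s)
    (hT : ∀ g d L s h, 1 ≤ h → T (g + h) (d + 1) L s → T g d (Option L) (dtail h s))
    (hP : ∀ g d L s, T g d (Option L) s → T g d L (Q.pull g d s)) {D d G M : ℕ}
    (hd : D + M + 1 ≤ d) (hG : 2 ^ d * (M + 5) ≤ G) (H : DC T G d Empty) :
    ∀ g ≤ M, ∀ n ≤ M, DC T g D (Lg n) := by
  intro g hg n hn
  obtain ⟨k, rfl⟩ : ∃ k, d = D + (k + 1) := ⟨d - D - 1, by omega⟩
  have h1 : DC T g D (Lg (k + 1)) := by
    apply DC.tails hT k g D _ H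
    have h2 : 2 ^ (k + 1) * (g + 5) ≤ 2 ^ (D + (k + 1)) * (M + 5) :=
      Nat.mul_le_mul (Nat.pow_le_pow_right (by omega) (by omega)) (by omega)
    omega
  have h2 : ∀ j, DC T g D (Lg (n + j)) → DC T g D (Lg n) := by
    intro j
    induction j with
    | zero => exact id
    | succ j ih =>
      intro h
      have := finite_Lg (n + j)
      exact ih (DC.pull (L := Lg (n + j)) hTr hP h)
  apply h2 (k + 1 - n)
  have h3 : n + (k + 1 - n) = k + 1 := by omega
  rw [h3]
  exact h1

end Vale.Agent.P273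
end
end
end

section

section

/-! The steps for the family `T`. -/

noncomputable section

namespace Vale.Agent.P273

open Sum
open scoped Classical

variable {V E L M : Type} {T : ℕ → ℕ → ∀ L, Q.Fn L → Prop}

/-- relabelling -/
def rl (i : L → M) (s : Q.Fn L) : Q.Fn M := fun V E a f => s V E a fun y => f (y.map id i)

lemma Pix_rl [Finite L] [Finite M] {g d : ℕ} {i : L → M} (hi : i.Bijective) {s : Q.Fn L}
    (hs : Q.Pix g d s) : Q.Pix g d (rl i s) := by
  have h1 : rl i s = fd d (evl s ∘ₗ relF i) := by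
    funext V E a f
    by_cases hd : (⟨a, f⟩ : Gr V E M).deg = d
    · refine Eq.trans ?_ (fd_of (evl s ∘ₗ relF i) ⟨a, f⟩ hd).symm
      rw [LinearMap.comp_apply, relF_dl, evl_dl, one_mul]
      rfl
    · refine Eq.trans ?_ (fd_not (evl s ∘ₗ relF i) ⟨a, f⟩ hd).symm
      apply hs.1.1
      intro hv
      apply hd
      rw [← ((cValid_iff _ _ _ _).1 hv).2]
      exact (Gr.rel_deg hi (⟨a, f⟩ : Gr V E M)).symm
  rw [h1]
  apply Pix_fd
  intro x hx
  rw [LinearMap.comp_apply]
  exact evl_P hs (P_relF hi hx)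

lemma DC_equiv (hR : ∀ g d L M s (i : L → M), i.Bijective → T g d L s → T g d M (rl i s))
    [Finite L] [Finite M] (e : L ≃ M) {g d : ℕ} (H : DC T g d L) : DC T g d M := by
  intro s hs
  have h1 := hR g d L M _ e e.bijective (H _ (Pix_rl e.symm.bijective hs))
  have h2 : rl e (rl e.symm s) = s := by
    funext V E a f
    change s V E a (fun y => f ((y.map id e.symm).map id e)) = _
    congr 1
    funext y
    rcases y with y | x
    · rfl
    · change f (inr (e (e.symm x))) = _
      rw [e.apply_symm_apply]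
  rw [h2] at h1
  exact h1

/-- the merging step -/
theorem step_mrg (g D : ℕ) : ∃ n0, ∀ T : ℕ → ℕ → ∀ L, Q.Fn L → Prop,
    (∀ g d L s, T g d L s → Q.Tr g d s) →
    (∀ g d L s t (c : ℚ), T g d L s → T g d L t →
      T g d L fun V E a f => s V E a f + c * t V E a f) →
    (∀ g d L M s (i : L → M), i.Bijective → T g d L s → T g d M (rl i s)) →
    (∀ g d L s, T g d (Option L) s → ∃ t, T g d (Option (Option L)) t ∧ Q.pull g d t = s ∧
      ZC t) →
    ∀ n ≥ n0, DC T g D (Fin n) → DC T g D (Fin (n + 1)) := by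
  obtain ⟨n0, hn0⟩ := noeth_dual g D
  refine ⟨max n0 3, ?_⟩
  intro T hTr hlin hR hM n hn H s hs
  have hn1 : n0 ≤ n := (le_max_left _ _).trans hn
  have hn3 : 3 ≤ n := (le_max_right _ _).trans hn
  -- merging closure
  have hmem : ∀ (mu : F (Fin n) →ₗ[ℚ] ℚ) (hmu : ∀ x, P g x → mu x = 0) (a : Fin n)
      (b : Fin (n + 1)), ∃ u, T g D (Fin (n + 1)) u ∧ ∀ V E (G : Gr V E (Fin (n + 1))),
        G.Valid g → G.deg = D → (∀ v, 0 ∉ (G.dec v).2) →
        u V E G.dec G.hf = dualF g mu hmu a b (dl G 1) := by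
    intro mu hmu a b
    have h1 := H _ (Pix_fd D mu hmu)
    have h2 := hR g D _ _ _ (ja a) (ja_bij a) h1
    obtain ⟨u, hu, hpu, hzu⟩ := hM _ _ _ _ h2
    refine ⟨_, hR g D _ _ _ (iab a b) (iab_bij a b) hu, ?_⟩
    intro V E G hG hD h0
    rw [dualF_dl]
    have h3 : rl (iab a b) u V E G.dec G.hf = u V E (G.rel (iab a b)).dec
      (G.rel (iab a b)).hf := rfl
    rw [h3]
    refine mrg_dual (G := G.rel (iab a b)) ?_ (hTr _ _ _ _ hu) (mu ∘ₗ relF (ja a))
      (nuB g mu hmu a) ?_ ?_ hzu ?_ ?_ ?_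
    · rw [Nat.card_eq_fintype_card, Fintype.card_subtype_compl, Fintype.card_fin,
        Fintype.card_unique]
      omega
    · intro x
      exact nuB_mk hmu a x
    · rw [hpu]
      funext V E a' f
      by_cases hd : (⟨a', f⟩ : Gr V E (Option {p : Fin n // p ≠ a})).deg = D
      · refine Eq.trans ?_ (fd_of (mu ∘ₗ relF (ja a)) ⟨a', f⟩ hd).symm
        rw [LinearMap.comp_apply, relF_dl]
        exact fd_of mu ((⟨a', f⟩ : Gr V E (Option {p : Fin n // p ≠ a})).rel (ja a))
          ((Gr.rel_deg (ja_bij a) _).trans hd)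
      · refine Eq.trans ?_ (fd_not (mu ∘ₗ relF (ja a)) ⟨a', f⟩ hd).symm
        exact fd_not mu ((⟨a', f⟩ : Gr V E (Option {p : Fin n // p ≠ a})).rel (ja a))
          (fun h => hd ((Gr.rel_deg (ja_bij a) _).symm.trans h))
    · exact (G.rel_valid (iab_bij a b) g).2 hG
    · rw [Gr.rel_deg (iab_bij a b), hD]
    · exact h0
  have hzero : T g D (Fin (n + 1)) fun _ _ _ _ => 0 := by
    obtain ⟨u, hu, _⟩ := hmem 0 (fun _ _ => rfl) ⟨0, by omega⟩ 0
    have := hlin g D _ u u (-1) hu hu
    have h1 : (fun V E a f => u V E a f + -1 * u V E a f) = fun _ _ _ _ => (0 : ℚ) := by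
      funext V E a f
      ring
    rw [h1] at this
    exact this
  let S : Submodule ℚ (F (Fin (n + 1)) →ₗ[ℚ] ℚ) :=
    { carrier := {mu | ∃ u, T g D (Fin (n + 1)) u ∧ ∀ V E (G : Gr V E (Fin (n + 1))),
        G.Valid g → G.deg = D → (∀ v, 0 ∉ (G.dec v).2) → u V E G.dec G.hf = mu (dl G 1)}
      add_mem' := by
        rintro a b ⟨u, hu, h1⟩ ⟨u', hu', h1'⟩
        refine ⟨_, hlin _ _ _ _ _ 1 hu hu', ?_⟩
        intro V E G h2 h3 h4
        rw [h1 V E G h2 h3 h4, h1' V E G h2 h3 h4, LinearMap.add_apply, one_mul]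
      zero_mem' := ⟨_, hzero, fun _ _ _ _ _ _ => rfl⟩
      smul_mem' := by
        rintro c a ⟨u, hu, h1⟩
        refine ⟨_, hlin _ _ _ _ _ c hzero hu, ?_⟩
        intro V E G h2 h3 h4
        rw [h1 V E G h2 h3 h4, LinearMap.smul_apply, smul_eq_mul, zero_add] }
  obtain ⟨mu, ⟨u, hu, h1⟩, h2⟩ := hn0 n hn1 (evl s) (fun x hx => evl_P hs hx) S
    (fun mu hmu a b _ => hmem mu hmu a b)
  have h3 : s = u := by
    apply Tr_ext hs.1 (hTr _ _ _ _ hu)
    intro V E G hG hD h0
    rw [h1 V E G hG hD h0, ← h2 V E G hD, evl_dl, one_mul]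
  rw [h3]
  exact hu

/-- the elliptic step -/
theorem step_ell (hTr : ∀ g d L s, T g d L s → Q.Tr g d s)
    (hE : ∀ g d L s, T g d (Option L) s → (∀ V E a f, (f (inr none)).2 ≠ 0 → s V E a f = 0) →
      ∃ t, T (g + 1) d L t ∧ ∀ V E a f, (∀ v, 0 ∉ (a v).2) → t V E a f =
        ∑ᶠ (v) (_ : (a v).1 ≠ 0), s V E (Function.update a v ((a v).1 - 1, (a v).2))
          (Q.ad f v 0)) [Finite L] {g d : ℕ} (hg : 3 * d * (d + 1) < g)
    (H : DC T g d (Option L)) : DC T (g + 1) d L := by
  intro s hs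
  obtain ⟨t, h1, h2, h3⟩ := dual_ell hg hs
  obtain ⟨t', h4, h5⟩ := hE _ _ _ _ (H t h1) h2
  have h6 : s = t' := by
    apply Tr_ext hs.1 (hTr _ _ _ _ h4)
    intro V E G hG hD h0
    rw [h3 V E G hG hD h0, h5 V E G.dec G.hf h0]
    rfl
  rw [h6]
  exact h4

end Vale.Agent.P273
end
end
end

section

section

/-! Top degree, dual form. -/

noncomputable section

namespace Vale.Agent.P273

open Sum
open scoped Classical

theorem dual_top {g n d : ℕ} (hd : d + 3 = 3 * g + n) {s t : Q.Fn (Lg n)}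
    (hs : Q.Pix g d s) (ht : Q.Pix g d t) (h0 : s ≠ fun _ _ _ _ => 0) :
    ∃ c : ℚ, t = fun V E a f => c * s V E a f := by
  have := finite_Lg n
  obtain ⟨V0, E0, a0, f0, hne⟩ : ∃ V E a f, s V E a f ≠ 0 := by
    by_contra hcon
    push Not at hcon
    apply h0
    funext V E a f
    exact hcon V E a f
  have hdeg : ∀ {V E : Type} {a : V → ℕ × Multiset ℕ} {f : (E × Bool) ⊕ Lg n → V × ℕ},
      Q.Valid a f g d → (⟨a, f⟩ : Gr V E (Lg n)).deg + 3 = 3 * g + n := by
    intro V E a f hv
    rw [((cValid_iff a f g d).1 hv).2, hd]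
  have hv0 : Q.Valid a0 f0 g d := by
    by_contra hv
    exact hne (hs.1.1 _ _ _ _ hv)
  refine ⟨t V0 E0 a0 f0 / s V0 E0 a0 f0, ?_⟩
  funext V E a f
  by_cases hv : Q.Valid a f g d
  · set x : F (Lg n) := dl (⟨a, f⟩ : Gr V E (Lg n)) (s V0 E0 a0 f0) -
      dl (⟨a0, f0⟩ : Gr V0 E0 (Lg n)) (s V E a f) with hx
    have hxK : x ∈ LinearMap.ker (evl s) := by
      rw [LinearMap.mem_ker, hx, map_sub, evl_dl, evl_dl]
      ring
    have hxd : ∀ D ∈ x.support, 3 * g + Nat.card (Lg n) ≤ D.G.deg + 3 := by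
      intro D hD
      rw [card_Lg]
      rcases Finset.mem_union.1 (Finsupp.support_sub hD) with h | h
      · rw [Finset.mem_singleton.1 (Finsupp.support_single_subset h)]
        exact (hdeg hv).ge
      · rw [Finset.mem_singleton.1 (Finsupp.support_single_subset h)]
        exact (hdeg hv0).ge
    have hP := top_complete (LinearMap.ker (evl s)) (fun x hx => evl_P hs hx)
      ⟨⟨V0, E0, ⟨a0, f0⟩⟩, by rw [card_Lg]; exact hdeg hv0, by
        rw [LinearMap.mem_ker]
        intro h
        apply hne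
        have h1 := evl_dl s (⟨a0, f0⟩ : Gr V0 E0 (Lg n)) 1
        rw [one_mul] at h1
        rw [← h1]
        exact h⟩ x hxK hxd
    have h2 := evl_P ht hP
    rw [hx, map_sub, evl_dl, evl_dl] at h2
    rw [div_mul_eq_mul_div, eq_div_iff hne]
    linarith only [h2]
  · rw [ht.1.1 _ _ _ _ hv, hs.1.1 _ _ _ _ hv, mul_zero]

end Vale.Agent.P273
end
end
end

section

section

/-! The main theorem. -/

noncomputable section

namespace Vale.Agent.P273

open Sum
open scoped Classical

lemma DC_Fin_Lg {T : ℕ → ℕ → ∀ L, Q.Fn L → Prop}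
    (hR : ∀ g d L M s (i : L → M), i.Bijective → T g d L s → T g d M (rl i s)) {g d n : ℕ} :
    DC T g d (Fin n) ↔ DC T g d (Lg n) := by
  have := finite_Lg n
  have e : Fin n ≃ Lg n := (Finite.equivFinOfCardEq (card_Lg n)).symm
  exact ⟨DC_equiv hR e, DC_equiv hR e.symm⟩

theorem dual_main (D : ℕ) : ∃ N, ∀ T : ℕ → ℕ → ∀ L, Q.Fn L → Prop,
    (∀ g d L s, T g d L s → Q.Tr g d s) →
    (∀ g d L s t (c : ℚ), T g d L s → T g d L t →
      T g d L fun V E a f => s V E a f + c * t V E a f) →
    (∀ g d L M s (i : L → M), i.Bijective → T g d L s → T g d M (rl i s)) →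
    (∀ g d L s h, 1 ≤ h → T (g + h) (d + 1) L s → T g d (Option L) (dtail h s)) →
    (∀ g d L s, T g d (Option L) s → T g d L (Q.pull g d s)) →
    (∀ g d L s, T g d (Option L) s → ∃ t, T g d (Option (Option L)) t ∧ Q.pull g d t = s ∧
      ZC t) →
    (∀ g d L s, T g d (Option L) s → (∀ V E a f, (f (inr none)).2 ≠ 0 → s V E a f = 0) →
      ∃ t, T (g + 1) d L t ∧ ∀ V E a f, (∀ v, 0 ∉ (a v).2) → t V E a f =
        ∑ᶠ (v) (_ : (a v).1 ≠ 0), s V E (Function.update a v ((a v).1 - 1, (a v).2))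
          (Q.ad f v 0)) →
    ((∀ g ≤ 3 * D * (D + 1) + 1, ∀ n ≤ N, DC T g D (Lg n)) ∨
      ∃ d ≥ N, ∃ G ≥ 2 ^ d * N, DC T G d Empty) → ∀ g n, DC T g D (Lg n) := by
  choose n0 hn0 using fun g => step_mrg g D
  set N0 := 3 * D * (D + 1) + 1 with hN0
  set N1 := ∑ g ∈ Finset.range (N0 + 1), n0 g with hN1
  set M := N0 + N1 with hM
  refine ⟨D + M + 5, ?_⟩
  intro T hTr hlin hR hT hP hmg hE hyp
  have hbase : ∀ g ≤ N0, ∀ n ≤ M, DC T g D (Lg n) := by
    rcases hyp with h | ⟨d, hd, G, hG, h⟩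
    · exact fun g hg n hn => h g hg n (by omega)
    · have h1 : 2 ^ d * (M + 5) ≤ G := le_trans (Nat.mul_le_mul_left _ (by omega)) hG
      intro g hg n hn
      exact DC_of_unpointed hTr hT hP (by omega) h1 h g (by omega) n hn
  have hsmall : ∀ g ≤ N0, ∀ n, DC T g D (Lg n) := by
    intro g hg n
    have hgN : n0 g ≤ N1 := Finset.single_le_sum (f := n0) (fun _ _ => Nat.zero_le _)
      (Finset.mem_range.mpr (by omega))
    induction n with
    | zero => exact hbase g hg 0 (by omega)
    | succ n ih =>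
      by_cases hn : n + 1 ≤ M
      · exact hbase g hg (n + 1) hn
      · rw [← DC_Fin_Lg hR]
        exact hn0 g T hTr hlin hR hmg n (by omega) ((DC_Fin_Lg hR).2 ih)
  have hbig : ∀ m n, DC T (N0 + m) D (Lg n) := by
    intro m
    induction m with
    | zero => exact fun n => hsmall N0 le_rfl n
    | succ m ih =>
      intro n
      have := finite_Lg n
      exact step_ell hTr hE (g := N0 + m) (by omega) (ih (n + 1))
  intro g n
  by_cases hg : g ≤ N0
  · exact hsmall g hg n
  · have := hbig (g - N0) n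
    have h2 : N0 + (g - N0) = g := by omega
    rw [h2] at this
    exact this

end Vale.Agent.P273
end
end
end
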